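import Vale.Agent.N146.Defs

/-!
# P146: the restriction maps preserve the Gaussian laws
-/

open MeasureTheory ProbabilityTheory

namespace Vale.Agent.N146

open Vale.Agent.P146

instance : IsProbabilityMeasure arr := by
  unfold arr
  infer_instance

instance probDis (n : ℕ) : IsProbabilityMeasure (disorder n) := by
  unfold disorder
  infer_instance

/-- the pair of natural numbers of a pair of sites -/
def pn {n : ℕ} (p : Pair n) : ℕ × ℕ := (p.1.1, p.1.2)

lemma pn_inj {n : ℕ} : Function.Injective (pn : Pair n → ℕ × ℕ) := by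
  intro p q h
  unfold pn at h
  have h1 := congrArg Prod.fst h
  have h2 := congrArg Prod.snd h
  simp only at h1 h2
  exact Subtype.ext (Prod.ext (Fin.ext h1) (Fin.ext h2))

lemma meas_rn (n : ℕ) : Measurable (rn n) :=
  measurable_pi_lambda _ fun _ => measurable_pi_apply _

/-- the restriction to the first `n` sites -/
def resLe {n m : ℕ} (h : n ≤ m) (g : Pair m → ℝ) : Pair n → ℝ :=
  fun p => g ⟨(Fin.castLE h p.1.1, Fin.castLE h p.1.2), p.2⟩

lemma resLe_rn {n m : ℕ} (h : n ≤ m) (ω : ℕ × ℕ → ℝ) : resLe h (rn m ω) = rn n ω := rfl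

lemma meas_resLe {n m : ℕ} (h : n ≤ m) : Measurable (resLe h) :=
  measurable_pi_lambda _ fun _ => measurable_pi_apply _

theorem mp_rn (n : ℕ) : MeasurePreserving (rn n) arr (disorder n) := by
  refine ⟨meas_rn n, ?_⟩
  have hi : iIndepFun (fun (q : ℕ × ℕ) (ω : ℕ × ℕ → ℝ) => ω q) arr := by
    unfold arr
    exact iIndepFun_infinitePi (X := fun _ x => x) fun _ => measurable_id
  have h2 : iIndepFun (fun (p : Pair n) (ω : ℕ × ℕ → ℝ) => ω (pn p)) arr := hi.precomp pn_inj
  have h3 := (iIndepFun_iff_map_fun_eq_pi_map (μ := arr)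
    (f := fun (p : Pair n) (ω : ℕ × ℕ → ℝ) => ω (pn p))
    (fun p => (measurable_pi_apply _).aemeasurable)).1 h2
  have h4 : ∀ p : Pair n, arr.map (fun ω : ℕ × ℕ → ℝ => ω (pn p)) = gaussianReal 0 1 := by
    intro p
    unfold arr
    exact Measure.infinitePi_map_eval _ _
  simp_rw [h4] at h3
  exact h3

theorem mp_resLe {n m : ℕ} (h : n ≤ m) :
    MeasurePreserving (resLe h) (disorder m) (disorder n) := by
  refine ⟨meas_resLe h, ?_⟩
  rw [← (mp_rn m).map_eq, Measure.map_map (meas_resLe h) (meas_rn m)]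
  exact (mp_rn n).map_eq

end Vale.Agent.N146
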