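import Vale.Agent.P146.H509.Law

/-!
# P146: the set of limit points of a slowly varying, relatively compact sequence

`Lim x` is the set of limits of subsequences of `x`.  If every subsequence has a convergent
subsequence (`RelC`) and consecutive terms have the same limits (`Slow`), then `Lim x` is nonempty,
compact and connected.  For laws on `ℝ` with controlled exponential moments the integrals of
functions of exponential growth are continuous on `Lim`, and their limit points fill the interval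
between `liminf` and `limsup`.
-/

open MeasureTheory ProbabilityTheory Filter Topology Set

namespace Vale.Agent.N146.Conn

open Vale.Agent.P146.H509

section top

variable {X : Type*} [TopologicalSpace X] {x : ℕ → X}

/-- the limits of subsequences -/
def Lim (x : ℕ → X) : Set X := {a | ∃ φ : ℕ → ℕ, StrictMono φ ∧ Tendsto (x ∘ φ) atTop (𝓝 a)}

/-- every subsequence has a convergent subsequence -/
def RelC (x : ℕ → X) : Prop := ∀ φ : ℕ → ℕ, StrictMono φ → ∃ ψ : ℕ → ℕ, StrictMono ψ ∧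
  ∃ a, Tendsto (x ∘ φ ∘ ψ) atTop (𝓝 a)

/-- consecutive terms have the same limits -/
def Slow (x : ℕ → X) : Prop := ∀ φ : ℕ → ℕ, StrictMono φ → ∀ a,
  Tendsto (x ∘ φ) atTop (𝓝 a) → Tendsto (fun k => x (φ k + 1)) atTop (𝓝 a)

lemma lim_eq [FirstCountableTopology X] (x : ℕ → X) :
    Lim x = {a | MapClusterPt a atTop x} := by
  ext a
  constructor
  · rintro ⟨φ, hφ, h⟩
    exact MapClusterPt.of_comp hφ.tendsto_atTop h.mapClusterPt
  · intro h
    exact MapClusterPt.tendsto_subseq h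

lemma mem_lim_of_tendsto [FirstCountableTopology X] {φ : ℕ → ℕ} (hφ : Tendsto φ atTop atTop)
    {a : X} (h : Tendsto (x ∘ φ) atTop (𝓝 a)) : a ∈ Lim x := by
  rw [lim_eq]
  exact MapClusterPt.of_comp hφ h.mapClusterPt

lemma isClosed_lim [FirstCountableTopology X] (x : ℕ → X) : IsClosed (Lim x) := by
  rw [lim_eq]
  exact isClosed_setOfPred_clusterPt

lemma RelC.nonempty (h : RelC x) : (Lim x).Nonempty := by
  obtain ⟨ψ, hψ, a, ha⟩ := h id strictMono_id
  exact ⟨a, ψ, hψ, ha⟩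

/-- relative compactness along any sequence of indices tending to infinity -/
lemma RelC.sub (h : RelC x) {φ : ℕ → ℕ} (hφ : Tendsto φ atTop atTop) :
    ∃ ψ : ℕ → ℕ, StrictMono ψ ∧ StrictMono (φ ∘ ψ) ∧
      ∃ a, Tendsto (x ∘ φ ∘ ψ) atTop (𝓝 a) := by
  obtain ⟨χ, hχ, hm⟩ := strictMono_subseq_of_tendsto_atTop hφ
  obtain ⟨ψ, hψ, a, ha⟩ := h (φ ∘ χ) hm
  exact ⟨χ ∘ ψ, hχ.comp hψ, hm.comp hψ, a, ha⟩

/-- the sequence is eventually in every open set which contains the limit points -/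
lemma RelC.eventually_mem (h : RelC x) {U : Set X} (hU : IsOpen U) (hL : Lim x ⊆ U) :
    ∀ᶠ n in atTop, x n ∈ U := by
  by_contra hc
  rw [not_eventually] at hc
  obtain ⟨φ, hφ, hn⟩ := extraction_of_frequently_atTop hc
  obtain ⟨ψ, hψ, a, ha⟩ := h φ hφ
  have h1 : a ∈ U := hL ⟨φ ∘ ψ, hφ.comp hψ, ha⟩
  obtain ⟨k, hk⟩ := (ha.eventually (hU.mem_nhds h1)).exists
  exact hn _ hk

theorem RelC.isCompact [TopologicalSpace.MetrizableSpace X] (h : RelC x) : IsCompact (Lim x) := by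
  let _ := TopologicalSpace.metrizableSpaceMetric X
  refine IsSeqCompact.isCompact ?_
  intro a ha
  have h1 : ∀ k : ℕ, ∃ᶠ n in atTop, dist (x n) (a k) < 1 / ((k : ℝ) + 1) := by
    intro k
    obtain ⟨φ, hφ, ht⟩ := ha k
    have h2 : ∀ᶠ j in atTop, dist (x (φ j)) (a k) < 1 / ((k : ℝ) + 1) :=
      ht.eventually (Metric.ball_mem_nhds (a k) (by positivity))
    exact hφ.tendsto_atTop.frequently h2.frequently
  obtain ⟨φ, hφ, hd⟩ := extraction_forall_of_frequently h1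
  obtain ⟨ψ, hψ, b, hb⟩ := h φ hφ
  refine ⟨b, ⟨φ ∘ ψ, hφ.comp hψ, hb⟩, ψ, hψ, ?_⟩
  have h3 : Tendsto (fun k => dist (x (φ (ψ k))) (a (ψ k))) atTop (𝓝 0) := by
    have h4 : Tendsto (fun k : ℕ => 1 / ((ψ k : ℝ) + 1)) atTop (𝓝 0) :=
      tendsto_one_div_add_atTop_nhds_zero_nat.comp hψ.tendsto_atTop
    exact squeeze_zero (fun _ => dist_nonneg) (fun k => (hd (ψ k)).le) h4
  exact hb.congr_dist h3

theorem RelC.isConnected [TopologicalSpace.MetrizableSpace X] (h : RelC x) (hs : Slow x) :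
    IsConnected (Lim x) := by
  refine ⟨h.nonempty, isPreconnected_closed_iff.2 ?_⟩
  intro t t' ht ht' hsub hne hne'
  by_contra hc
  rw [not_nonempty_iff_eq_empty] at hc
  have hA : IsClosed (Lim x ∩ t) := (isClosed_lim x).inter ht
  have hB : IsClosed (Lim x ∩ t') := (isClosed_lim x).inter ht'
  have hd : Disjoint (Lim x ∩ t) (Lim x ∩ t') := by
    rw [Set.disjoint_left]
    intro a ha hb
    have : a ∈ Lim x ∩ (t ∩ t') := ⟨ha.1, ha.2, hb.2⟩
    rw [hc] at this
    exact this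
  obtain ⟨U, V, hU, hV, hAU, hBV, hUV⟩ := normal_separation hA hB hd
  have hev : ∀ᶠ n in atTop, x n ∈ U ∪ V := by
    refine h.eventually_mem (hU.union hV) fun a ha => ?_
    rcases hsub ha with h1 | h1
    · exact Or.inl (hAU ⟨ha, h1⟩)
    · exact Or.inr (hBV ⟨ha, h1⟩)
  have fr : ∀ {W : Set X} {a : X}, IsOpen W → a ∈ Lim x → a ∈ W → ∃ᶠ n in atTop, x n ∈ W := by
    rintro W a hW ⟨φ, hφ, ha⟩ haW
    exact hφ.tendsto_atTop.frequently (ha.eventually (hW.mem_nhds haW)).frequently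
  obtain ⟨a, ha⟩ := hne
  obtain ⟨b, hb⟩ := hne'
  have fU := fr hU ha.1 (hAU ha)
  have fV := fr hV hb.1 (hBV hb)
  -- infinitely many steps from `U` to `V`
  have step : ∃ᶠ n in atTop, x n ∈ U ∧ x (n + 1) ∈ V := by
    rw [frequently_atTop]
    intro N
    obtain ⟨N0, hN0⟩ := eventually_atTop.1 hev
    obtain ⟨n1, hn1, h1⟩ := frequently_atTop.1 fU (max N N0)
    obtain ⟨n2, hn2, h2⟩ := frequently_atTop.1 fV n1
    by_contra hno
    push Not at hno
    have ind : ∀ k, x (n1 + k) ∈ U := by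
      intro k
      induction k with
      | zero => exact h1
      | succ k ih =>
        have h3 : N ≤ n1 + k := by omega
        have h4 := hno (n1 + k) h3 ih
        have h5 := hN0 (n1 + k + 1) (by omega)
        exact h5.resolve_right h4
    have h6 := ind (n2 - n1)
    rw [show n1 + (n2 - n1) = n2 by omega] at h6
    exact Set.disjoint_left.1 hUV h6 h2
  obtain ⟨φ, hφ, hn⟩ := extraction_of_frequently_atTop step
  obtain ⟨ψ, hψ, c, hc1⟩ := h φ hφ
  have hcL : c ∈ Lim x := ⟨φ ∘ ψ, hφ.comp hψ, hc1⟩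
  have hc2 := hs (φ ∘ ψ) (hφ.comp hψ) c hc1
  rcases hsub hcL with h1 | h1
  · obtain ⟨k, hk⟩ := (hc2.eventually (hU.mem_nhds (hAU ⟨hcL, h1⟩))).exists
    exact Set.disjoint_left.1 hUV hk (hn _).2
  · obtain ⟨k, hk⟩ := (hc1.eventually (hV.mem_nhds (hBV ⟨hcL, h1⟩))).exists
    exact Set.disjoint_left.1 hUV (hn _).1 hk

/-- the dichotomy: the sequence converges iff there is only one limit point -/
theorem RelC.tendsto_iff [T2Space X] (h : RelC x) (a : X) :
    Tendsto x atTop (𝓝 a) ↔ Lim x = {a} := by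
  constructor
  · intro ha
    ext b
    constructor
    · rintro ⟨φ, hφ, hb⟩
      exact tendsto_nhds_unique hb (ha.comp hφ.tendsto_atTop)
    · rintro rfl
      exact ⟨id, strictMono_id, ha⟩
  · intro hL
    refine tendsto_of_subseq_tendsto fun ns hns => ?_
    obtain ⟨ψ, -, hm, b, hb⟩ := h.sub hns
    have : b ∈ Lim x := ⟨ns ∘ ψ, hm, hb⟩
    rw [hL] at this
    rw [← show b = a from this]
    exact ⟨ψ, hb⟩

/-- limit points of an observable which converges along all convergent subsequences -/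
theorem RelC.image {Y : Type*} [TopologicalSpace Y] [T2Space Y] (h : RelC x) {u : ℕ → Y}
    {I : X → Y} (hI : ∀ φ : ℕ → ℕ, StrictMono φ → ∀ a, Tendsto (x ∘ φ) atTop (𝓝 a) →
      Tendsto (u ∘ φ) atTop (𝓝 (I a))) : RelC u ∧ Lim u = I '' Lim x := by
  refine ⟨fun φ hφ => ?_, ?_⟩
  · obtain ⟨ψ, hψ, a, ha⟩ := h φ hφ
    exact ⟨ψ, hψ, I a, hI (φ ∘ ψ) (hφ.comp hψ) a ha⟩
  · ext v
    constructor
    · rintro ⟨φ, hφ, hv⟩
      obtain ⟨ψ, hψ, a, ha⟩ := h φ hφ
      refine ⟨a, ⟨φ ∘ ψ, hφ.comp hψ, ha⟩, ?_⟩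
      exact tendsto_nhds_unique (hI (φ ∘ ψ) (hφ.comp hψ) a ha) (hv.comp hψ.tendsto_atTop)
    · rintro ⟨a, ⟨φ, hφ, ha⟩, rfl⟩
      exact ⟨φ, hφ, hI φ hφ a ha⟩

theorem RelC.slow_image {Y : Type*} [TopologicalSpace Y] [T2Space Y] (h : RelC x) (hs : Slow x)
    {u : ℕ → Y} {I : X → Y}
    (hI : ∀ φ : ℕ → ℕ, StrictMono φ → ∀ a, Tendsto (x ∘ φ) atTop (𝓝 a) →
      Tendsto (u ∘ φ) atTop (𝓝 (I a))) : Slow u := by
  intro φ hφ v hv
  refine tendsto_of_subseq_tendsto fun ns hns => ?_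
  obtain ⟨ψ, hψ, hm, a, ha⟩ := h.sub (hφ.tendsto_atTop.comp hns)
  have e : v = I a := tendsto_nhds_unique (hv.comp (hns.comp hψ.tendsto_atTop)) (hI _ hm a ha)
  have h1 := hs _ hm a ha
  have hm1 : StrictMono fun k => ((φ ∘ ns) ∘ ψ) k + 1 := fun i j hij =>
    Nat.succ_lt_succ (hm hij)
  rw [e]
  exact ⟨ψ, hI _ hm1 a h1⟩

end top

section real

variable {u : ℕ → ℝ}

lemma RelC.bdd (h : RelC u) : ∃ M : ℝ, ∀ᶠ n in atTop, |u n| ≤ M := by
  obtain ⟨M, hM⟩ := h.isCompact.isBounded.exists_norm_le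
  refine ⟨M + 1, ?_⟩
  have h1 := h.eventually_mem (U := Ioo (-(M + 1)) (M + 1)) isOpen_Ioo fun a ha => by
    have := abs_le.1 (show |a| ≤ M from hM a ha)
    constructor <;> linarith [this.1, this.2]
  filter_upwards [h1] with n hn
  exact (abs_lt.2 hn).le

/-- the limit points of a slowly varying bounded real sequence fill an interval -/
theorem RelC.lim_eq_Icc (h : RelC u) (hs : Slow u) :
    Lim u = Icc (liminf u atTop) (limsup u atTop) := by
  obtain ⟨M, hM⟩ := h.bdd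
  have b1 : IsBoundedUnder (· ≤ ·) atTop u :=
    isBoundedUnder_of_eventually_le (hM.mono fun n hn => (abs_le.1 hn).2)
  have b2 : IsBoundedUnder (· ≥ ·) atTop u :=
    isBoundedUnder_of_eventually_ge (hM.mono fun n hn => (abs_le.1 hn).1)
  have g1 := isGreatest_mapClusterPt_limsup (u := u) (f := atTop) b2.isCoboundedUnder_le b1
  have g2 := isLeast_mapClusterPt_liminf (u := u) (f := atTop) b1.isCoboundedUnder_ge b2
  rw [← lim_eq] at g1 g2
  rw [eq_Icc_of_connected_compact (h.isConnected hs) h.isCompact, g1.csSup_eq, g2.csInf_eq]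

end real

section laws

variable {B : ℝ → ℝ} {m : ℕ → ProbabilityMeasure ℝ}

lemma relC_of (hB : ExpB B m) : RelC m := fun _ hφ => exists_limit (hB.comp hφ.tendsto_atTop)

/-- **Slutsky on varying spaces**: two sequences of laws whose `1`-Lipschitz integrals approach each
other have the same limits. -/
theorem tendsto_of_lip {m m' : ℕ → ProbabilityMeasure ℝ} {e : ℕ → ℝ} (he : Tendsto e atTop (𝓝 0))
    (h : ∀ᶠ k in atTop, ∀ f : ℝ → ℝ, LipschitzWith 1 f → (∃ C, ∀ y, |f y| ≤ C) →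
      |∫ y, f y ∂(m' k : Measure ℝ) - ∫ y, f y ∂(m k : Measure ℝ)| ≤ e k)
    {ν : ProbabilityMeasure ℝ} (hm : Tendsto m atTop (𝓝 ν)) : Tendsto m' atTop (𝓝 ν) := by
  rw [tendsto_iff_forall_lipschitz_integral_tendsto] at hm ⊢
  intro f hfb hfl
  have h1 := hm f hfb hfl
  obtain ⟨C, hC⟩ := hfb
  obtain ⟨L, hL⟩ := hfl
  have hL1 : (0 : ℝ) < L + 1 := by positivity
  have h2 : LipschitzWith 1 fun y => f y / (L + 1) := by
    refine LipschitzWith.of_dist_le_mul fun a b => ?_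
    have h3 := hL.dist_le_mul a b
    rw [Real.dist_eq] at h3 ⊢
    rw [← sub_div, abs_div, abs_of_pos hL1, div_le_iff₀ hL1, NNReal.coe_one, one_mul]
    nlinarith [dist_nonneg (x := a) (y := b)]
  have h4 : ∃ C, ∀ y, |f y / (L + 1)| ≤ C := by
    refine ⟨(C + |f 0|) / (L + 1), fun y => ?_⟩
    rw [abs_div, abs_of_pos hL1]
    refine div_le_div_of_nonneg_right ?_ hL1.le
    have h5 := hC y 0
    rw [Real.dist_eq] at h5
    have h6 := abs_add_le (f y - f 0) (f 0)
    rw [sub_add_cancel] at h6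
    linarith
  have h7 : Tendsto (fun k => ∫ y, f y ∂(m' k : Measure ℝ) - ∫ y, f y ∂(m k : Measure ℝ))
      atTop (𝓝 0) := by
    have h8 : Tendsto (fun k => e k * (L + 1)) atTop (𝓝 0) := by
      simpa using he.mul_const ((L : ℝ) + 1)
    refine squeeze_zero_norm' ?_ h8
    filter_upwards [h] with k hk
    have h9 := hk _ h2 h4
    rw [integral_div, integral_div, ← sub_div, abs_div, abs_of_pos hL1, div_le_iff₀ hL1] at h9
    exact h9
  simpa using h7.add h1

/-- consecutive laws are close in the bounded Lipschitz sense -/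
def LipStep (m : ℕ → ProbabilityMeasure ℝ) (e : ℕ → ℝ) : Prop :=
  ∀ᶠ n in atTop, ∀ f : ℝ → ℝ, LipschitzWith 1 f → (∃ C, ∀ y, |f y| ≤ C) →
    |∫ y, f y ∂(m (n + 1) : Measure ℝ) - ∫ y, f y ∂(m n : Measure ℝ)| ≤ e n

lemma slow_of {e : ℕ → ℝ} (he : Tendsto e atTop (𝓝 0)) (h : LipStep m e) : Slow m :=
  fun φ hφ _ ha => tendsto_of_lip (m := m ∘ φ) (m' := fun k => m (φ k + 1))
    (he.comp hφ.tendsto_atTop) (hφ.tendsto_atTop.eventually h) ha

/-- functions of at most exponential growth -/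
def Gr (f : ℝ → ℝ) : Prop := Continuous f ∧ ∃ A a : ℝ,
  ∀ y, |f y| ≤ A * (Real.exp (a * y) + Real.exp (-a * y))

lemma gr_exp (ξ : ℝ) : Gr fun y => Real.exp (ξ * y) := by
  refine ⟨by fun_prop, 1, ξ, fun y => ?_⟩
  rw [abs_of_pos (Real.exp_pos _), one_mul]
  linarith [Real.exp_pos (-ξ * y)]

lemma gr_pow (p : ℕ) : Gr fun y => y ^ p := by
  refine ⟨by fun_prop, p.factorial, 1, fun y => ?_⟩
  rw [abs_pow, one_mul]
  have h1 : |y| ^ p ≤ p.factorial * Real.exp |y| := by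
    have := Real.pow_div_factorial_le_exp |y| (abs_nonneg y) p
    rw [div_le_iff₀ (by positivity)] at this
    linarith
  refine h1.trans (mul_le_mul_of_nonneg_left ?_ (by positivity))
  rcases le_total 0 y with hy | hy
  · rw [abs_of_nonneg hy]
    linarith [Real.exp_pos (-1 * y)]
  · rw [abs_of_nonpos hy, neg_one_mul]
    linarith [Real.exp_pos y]

lemma Gr.lim (hB : ExpB B m) {f : ℝ → ℝ} (hf : Gr f) {φ : ℕ → ℕ} (hφ : Tendsto φ atTop atTop)
    {ν : ProbabilityMeasure ℝ} (h : Tendsto (m ∘ φ) atTop (𝓝 ν)) :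
    Integrable f (ν : Measure ℝ) ∧
    Tendsto (fun k => ∫ y, f y ∂(m (φ k) : Measure ℝ)) atTop (𝓝 (∫ y, f y ∂(ν : Measure ℝ))) := by
  obtain ⟨hc, A, a, hA⟩ := hf
  exact int_lim (hB.comp hφ) h hc hA

/-- the integrals of functions of exponential growth are continuous on the limit set -/
theorem Gr.continuousOn (hB : ExpB B m) {f : ℝ → ℝ} (hf : Gr f) :
    ContinuousOn (fun ν : ProbabilityMeasure ℝ => ∫ y, f y ∂(ν : Measure ℝ)) (Lim m) := by
  rw [continuousOn_iff_continuous_domRestrict]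
  refine SeqContinuous.continuous fun s a hs => ?_
  obtain ⟨hc, A, a', hA⟩ := hf
  have hB' : ExpB B fun k => (s k : ProbabilityMeasure ℝ) := fun ξ =>
    Eventually.of_forall fun k => by
      obtain ⟨φ, hφ, h⟩ := (s k).2
      exact exp_lim (hB.comp hφ.tendsto_atTop) h ξ
  exact (int_lim hB' (tendsto_subtype_rng.1 hs) hc hA).2

/-- **The limit set of a slowly varying sequence of laws.** -/
theorem main (hB : ExpB B m) (hs : Slow m) :
    IsCompact (Lim m) ∧ IsConnected (Lim m) ∧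
    (∀ ν, Tendsto m atTop (𝓝 ν) ↔ Lim m = {ν}) ∧
    ∀ f : ℝ → ℝ, Gr f →
      (fun ν : ProbabilityMeasure ℝ => ∫ y, f y ∂(ν : Measure ℝ)) '' Lim m =
        Icc (liminf (fun n => ∫ y, f y ∂(m n : Measure ℝ)) atTop)
          (limsup (fun n => ∫ y, f y ∂(m n : Measure ℝ)) atTop) ∧
      Lim (fun n => ∫ y, f y ∂(m n : Measure ℝ)) =
        Icc (liminf (fun n => ∫ y, f y ∂(m n : Measure ℝ)) atTop)
          (limsup (fun n => ∫ y, f y ∂(m n : Measure ℝ)) atTop) := by
  have hR := relC_of hB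
  refine ⟨hR.isCompact, hR.isConnected hs, hR.tendsto_iff, fun f hf => ?_⟩
  have hI : ∀ φ : ℕ → ℕ, StrictMono φ → ∀ a, Tendsto (m ∘ φ) atTop (𝓝 a) →
      Tendsto ((fun n => ∫ y, f y ∂(m n : Measure ℝ)) ∘ φ) atTop
        (𝓝 ((fun ν : ProbabilityMeasure ℝ => ∫ y, f y ∂(ν : Measure ℝ)) a)) :=
    fun φ hφ a ha => (hf.lim hB hφ.tendsto_atTop ha).2
  obtain ⟨h1, h2⟩ := hR.image hI
  have h3 := h1.lim_eq_Icc (hR.slow_image hs hI)
  exact ⟨h2 ▸ h3, h3⟩

end laws

end Vale.Agent.N146.Conn
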