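import Vale.Agent.P146.H508.D3SK

/-!
# P146 (c), package ID1, part A: the third chaos of a row, all upper levels kept (helper96)

`EL k` is the exact list of the derivatives of `T_l s`, `RL k` the terms coming from the density
`e^{V/2}`, whose total coefficient is `O(m l)`.
-/

open MeasureTheory ProbabilityTheory

namespace Vale.Agent.N146.Cut

open Vale.Agent.P157 Vale.Agent.P157.Lv Vale.Agent.P157.Lv.Sy
open Vale.Agent.P146 Vale.Agent.P146.H425 Vale.Agent.P146.H93 Vale.Agent.P146.H985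
open Vale.Agent.P146.H985.Ch Vale.Agent.P146.H946 Vale.Agent.P146.H508

set_option linter.unusedSectionVars false

variable {ι X : Type} [Fintype ι] [DecidableEq ι] [Fintype X] [Nonempty X]
  {S : Sy ι X} {a : X → ι → ℝ} {c : X → ℝ} {s : X → ℝ} {I : ℕ → ι} {A : Finset ι}

/-- the rest of the derivative, without the restriction on the levels -/
noncomputable def rc (S : Sy ι X) (v : ℕ) : Mo → List (Tm ι)
  | Mo.sp => []
  | Mo.D _ => []
  | Mo.mul M N => (rc S v M).map (fun t => t.mp fun M' => Mo.mul M' N) ++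
      (rc S v N).map (fun t => t.mp (Mo.mul M))
  | Mo.T j M => (rc S v M).map (fun t => t.mp (Mo.T j)) ++ lr S v j M

lemma evL_rc' {l v : ℕ} (hv : S.lev (I v) ≤ l) (z : ι → ℝ) (x : X) : ∀ M : Mo, Inn l M →
    ∀ f : Mo → Mo, evL S a s I ((rr S v M).map fun t => t.mp f) z x =
      evL S a s I ((rc S v M).map fun t => t.mp f) z x
  | Mo.sp, _, f => rfl
  | Mo.D _, _, f => rfl
  | Mo.mul M N, h, f => by
    have h1 := evL_rc' hv z x M h.1 fun M' => f (Mo.mul M' N)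
    have h2 := evL_rc' hv z x N h.2 fun N' => f (Mo.mul M N')
    have e1 : (fun t : Tm ι => t.mp f) ∘ (fun t : Tm ι => t.mp fun M' => Mo.mul M' N) =
      fun t : Tm ι => t.mp fun M' => f (Mo.mul M' N) := rfl
    have e2 : (fun t : Tm ι => t.mp f) ∘ (fun t : Tm ι => t.mp (Mo.mul M)) =
      fun t : Tm ι => t.mp fun N' => f (Mo.mul M N') := rfl
    simp only [rr, rc, List.map_append, List.map_map, evL_append, e1, e2, h1, h2]
  | Mo.T j M, h, f => by
    have h1 := evL_rc' hv z x M h.2 fun M' => f (Mo.T j M')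
    have e1 : (fun t : Tm ι => t.mp f) ∘ (fun t : Tm ι => Tm.cut S.lev v j t) ∘
      (fun t : Tm ι => t.mp (Mo.T j)) =
      (fun t : Tm ι => Tm.cut S.lev v j t) ∘ fun t : Tm ι => t.mp fun M' => f (Mo.T j M') := rfl
    have e2 : (fun t : Tm ι => t.mp f) ∘ (fun t : Tm ι => Tm.cut S.lev v j t) =
      (fun t : Tm ι => Tm.cut S.lev v j t) ∘ fun t : Tm ι => t.mp f := rfl
    have e3 : (fun t : Tm ι => t.mp f) ∘ (fun t : Tm ι => t.mp (Mo.T j)) =
      fun t : Tm ι => t.mp fun M' => f (Mo.T j M') := rfl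
    simp only [rr, rc, List.map_append, List.map_map, evL_append, e1, e2, e3]
    rw [← List.map_map (f := fun t : Tm ι => t.mp fun M' => f (Mo.T j M')),
      ← List.map_map (f := fun t : Tm ι => t.mp f), evL_cut, evL_cut, if_pos (hv.trans h.1),
      if_pos (hv.trans h.1), h1]

lemma evL_rc {l v : ℕ} (hv : S.lev (I v) ≤ l) (z : ι → ℝ) (x : X) {M : Mo} (h : Inn l M) :
    evL S a s I (rr S v M) z x = evL S a s I (rc S v M) z x := by
  have h1 := evL_rc' (a := a) (s := s) hv z x M h id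
  have e : ∀ L : List (Tm ι), (L.map fun t => t.mp id) = L := fun L => by
    have : (fun t : Tm ι => t.mp id) = id := rfl
    rw [this, List.map_id]
  rwa [e, e] at h1

lemma mem_lr {v j : ℕ} {M : Mo} {t : Tm ι} (ht : t ∈ lr S v j M) :
    ∃ (i : ℕ) (k : ℝ), j ≤ i ∧ i ≤ S.K ∧ t = Tm.cst k (Mo.T j (Mo.mul M (Mo.T i (Mo.D v)))) := by
  unfold lr at ht
  split_ifs at ht with h
  · simp only [List.mem_cons, List.mem_map, Finset.mem_toList, Finset.mem_Ico] at ht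
    rcases ht with rfl | rfl | ⟨i, hi, rfl⟩
    · exact ⟨S.K, _, h.le, le_rfl, rfl⟩
    · exact ⟨j, _, le_rfl, h.le, rfl⟩
    · exact ⟨i, _, by omega, hi.2.le, rfl⟩
  · simp at ht

lemma cst_rc (v : ℕ) : ∀ M : Mo, Cst (rc S v M)
  | Mo.sp => fun t ht => by simp [rc] at ht
  | Mo.D _ => fun t ht => by simp [rc] at ht
  | Mo.mul M N => fun t ht => by
    simp only [rc, List.mem_append, List.mem_map] at ht
    rcases ht with ⟨t', ht', rfl⟩ | ⟨t', ht', rfl⟩
    · exact cst_rc v M t' ht'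
    · exact cst_rc v N t' ht'
  | Mo.T j M => fun t ht => by
    simp only [rc, List.mem_append, List.mem_map] at ht
    rcases ht with ⟨t', ht', rfl⟩ | h2
    · exact cst_rc v M t' ht'
    · obtain ⟨i, k, _, _, rfl⟩ := mem_lr h2
      exact fun _ _ => rfl

lemma dt0_rc (v : ℕ) : ∀ M : Mo, v ∉ lab M → Lin M → ∀ t ∈ rc S v M, Dt0 S v M t
  | Mo.sp, _, _, t, ht => by simp [rc] at ht
  | Mo.D _, _, _, t, ht => by simp [rc] at ht
  | Mo.mul M N, hv, hl, t, ht => by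
    have hv' : v ∉ lab M ∧ v ∉ lab N := by simpa [lab] using hv
    simp only [rc, List.mem_append, List.mem_map] at ht
    rcases ht with ⟨t', ht', rfl⟩ | ⟨t', ht', rfl⟩
    · exact (dt0_rc v M hv'.1 hl.2.1 t' ht').mul_left hv'.2 hl.1 hl.2.2
    · exact (dt0_rc v N hv'.2 hl.2.2 t' ht').mul_right hv'.1 hl.1 hl.2.1
  | Mo.T j M, hv, hl, t, ht => by
    simp only [rc, List.mem_map, List.mem_append] at ht
    rcases ht with ⟨t2, h2, rfl⟩ | h2
    · exact (dt0_rc v M hv hl t2 h2).T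
    · obtain ⟨i, k, hji, hiK, rfl⟩ := mem_lr h2
      exact
        { lab := by
            show H508.lab M ∪ {v} = _
            rw [Finset.union_comm]; rfl
          lin := ⟨Finset.disjoint_singleton_right.2 hv, hl, trivial⟩
          nt := by
            show H508.nt M + (0 + 1) + 1 ≤ H508.nt M + 1 + 1
            omega
          tk := fun hk => ⟨hk.1, hk.2, hiK, trivial⟩
          inn := fun l _ h' => ⟨h'.1, h'.2, h'.1.trans hji, trivial⟩ }

lemma tot_rc (h : Mm S) (v : ℕ) : ∀ M : Mo, tot (rc S v M) ≤ 2 * S.m S.K * nt M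
  | Mo.sp => by simp [rc, nt]
  | Mo.D _ => by simp [rc, nt]
  | Mo.mul M N => by
    simp only [rc, tot_append, tot_mp, nt]
    have h1 := tot_rc h v M
    have h2 := tot_rc h v N
    push_cast
    linarith
  | Mo.T j M => by
    simp only [rc, tot_append, tot_mp, nt]
    have h1 := tot_rc h v M
    have h2 := tot_lr h v j M
    push_cast
    linarith

/-- the head of the monomial is the average at the level `l` -/
def Hd (l : ℕ) (M : Mo) : Prop := ∃ M', M = Mo.T l M'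

lemma hd_mc {l v : ℕ} {M : Mo} (h : Hd l M) : ∀ t ∈ mc S v M, Hd l t.M := by
  obtain ⟨M', rfl⟩ := h
  intro t ht
  simp only [mc, List.mem_map, List.mem_append, lm, List.mem_cons, List.not_mem_nil,
    or_false] at ht
  rcases ht with ⟨t2, _, rfl⟩ | rfl | rfl
  · exact ⟨_, rfl⟩
  · exact ⟨_, rfl⟩
  · exact ⟨_, rfl⟩

lemma hd_rc {l v : ℕ} {M : Mo} (h : Hd l M) : ∀ t ∈ rc S v M, Hd l t.M := by
  obtain ⟨M', rfl⟩ := h
  intro t ht
  simp only [rc, List.mem_map, List.mem_append] at ht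
  rcases ht with ⟨t2, _, rfl⟩ | h2
  · exact ⟨_, rfl⟩
  · obtain ⟨i, k, _, _, rfl⟩ := mem_lr h2
    exact ⟨_, rfl⟩

/-- the exact list of the derivatives of `T_l s` -/
noncomputable def EL (S : Sy ι X) (l : ℕ) : ℕ → List (Tm ι)
  | 0 => [Tm.cst 1 (Mo.T l Mo.sp)]
  | k + 1 => bd (EL S l k) (fun M => mc S k M ++ rc S k M) snd'

/-- the terms which come from the density -/
noncomputable def RL (S : Sy ι X) (l : ℕ) : ℕ → List (Tm ι)
  | 0 => []
  | k + 1 => bd (RL S l k) (mm S k) snd' ++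
      (bd (RL S l k) (rr S k) snd' ++ bd (EL S l k ++ RL S l k) (fun _ => uL S l k) Mo.mul)

/-- the terms of the list `EL` -/
structure GE (S : Sy ι X) (l k : ℕ) (M : Mo) : Prop where
  tk : tk S.K M
  inn : Inn l M
  hd : Hd l M
  lin : Lin M
  lab : lab M = Finset.range k
  nt : nt M ≤ k + 1

lemma ge_EL {l : ℕ} (hl : l ≤ S.K) : ∀ k : ℕ, ∀ t ∈ EL S l k, GE S l k t.M
  | 0 => fun t ht => by
    simp only [EL, List.mem_cons, List.not_mem_nil, or_false] at ht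
    rw [ht]
    exact ⟨⟨hl, trivial⟩, ⟨le_rfl, trivial⟩, ⟨_, rfl⟩, trivial, rfl, le_rfl⟩
  | k + 1 => fun u hu => by
    obtain ⟨t, ht, t', ht', rfl⟩ := mem_bd.1 hu
    have h := ge_EL hl k t ht
    have hk : k ∉ H508.lab t.M := by rw [h.lab]; simp
    have h1 : Dt0 S k t.M t' ∧ Hd l t'.M := by
      rcases List.mem_append.1 ht' with h2 | h2
      · exact ⟨dt0_mc k t.M hk h.lin t' h2, hd_mc h.hd t' h2⟩
      · exact ⟨dt0_rc k t.M hk h.lin t' h2, hd_rc h.hd t' h2⟩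
    exact
      { tk := h1.1.tk h.tk
        inn := h1.1.inn l hl h.inn
        hd := h1.2
        lin := h1.1.lin
        lab := by
          show H508.lab t'.M = _
          rw [h1.1.lab, h.lab, Finset.range_add_one]
        nt := h1.1.nt.trans (Nat.succ_le_succ h.nt) }

lemma cst_EL (l : ℕ) : ∀ k : ℕ, Cst (EL S l k)
  | 0 => fun t ht => by
    simp only [EL, List.mem_cons, List.not_mem_nil, or_false] at ht
    rw [ht]; exact fun _ _ => rfl
  | k + 1 => fun u hu I I' => by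
    obtain ⟨t, ht, t', ht', rfl⟩ := mem_bd.1 hu
    rw [Tm.tm_c, Tm.tm_c, cst_EL l k t ht I I']
    congr 1
    rcases List.mem_append.1 ht' with h | h
    · exact cst_mc k t.M t' h I I'
    · exact cst_rc k t.M t' h I I'

lemma gd_EL {l : ℕ} (hl : l ≤ S.K) (k : ℕ) : Gd S l k (EL S l k) where
  tk := fun t ht => (ge_EL hl k t ht).tk
  out := fun t ht => by
    obtain ⟨M', h⟩ := (ge_EL hl k t ht).hd
    rw [h]
    exact le_refl l
  lin := fun t ht => (ge_EL hl k t ht).lin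
  lab := fun t ht => (ge_EL hl k t ht).lab
  nt := fun t ht => (ge_EL hl k t ht).nt
  dp := fun t ht I I' _ => cst_EL l k t ht I I'

lemma cl_EL {l : ℕ} (hl : l ≤ S.K) (k v : ℕ) : ∀ t ∈ EL S l k, cl t.M v = some l := by
  intro t ht
  have h := ge_EL hl k t ht
  obtain ⟨M', h1⟩ := h.hd
  have h2 := h.inn
  rw [h1] at h2 ⊢
  exact Inn.cl_T h2.2 v

lemma gd_RL {l : ℕ} (hl : l ≤ S.K) : ∀ k : ℕ, Gd S l k (RL S l k)
  | 0 => Gd.nil S l 0
  | k + 1 => (gd_RL hl k).mmL.append ((gd_RL hl k).rrL.append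
      (((gd_EL hl k).append (gd_RL hl k)).pL hl))

/-! ### The total coefficients -/

/-- the bounds of the total coefficients of the exact list -/
def cE : ℕ → ℝ
  | 0 => 1
  | k + 1 => cE k * (4 * (k + 1))

/-- the bounds of the total coefficients of the rest list -/
def cF : ℕ → ℝ
  | 0 => 0
  | k + 1 => cF k * (2 * (k + 1)) + cF k * (2 * (k + 1)) + (cE k + cF k)

lemma cE_nonneg : ∀ k, 0 ≤ cE k
  | 0 => zero_le_one
  | k + 1 => mul_nonneg (cE_nonneg k) (by positivity)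

lemma cF_nonneg : ∀ k, 0 ≤ cF k
  | 0 => le_rfl
  | k + 1 => by
    have h1 := cE_nonneg k
    have h2 := cF_nonneg k
    unfold cF
    positivity

lemma tot_EL (h : Mm S) (h1 : S.m S.K ≤ 1) {l : ℕ} (hl : l ≤ S.K) : ∀ k : ℕ,
    tot (EL S l k) ≤ cE k
  | 0 => by simp [EL, cE]
  | k + 1 => by
    have hm := h.nn (j := S.K) (by omega)
    have h2 : tot (EL S l (k + 1)) ≤ tot (EL S l k) * (4 * (k + 1)) := by
      refine tot_bd_le _ fun t ht => ?_
      have h2 := (ge_EL hl k t ht).nt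
      have h3 := tot_mc (S := S) k t.M
      have h5 := tot_rc h k t.M
      rw [tot_append]
      have h4 : (nt t.M : ℝ) ≤ k + 1 := by exact_mod_cast h2
      have h6 : (0 : ℝ) ≤ nt t.M := Nat.cast_nonneg _
      nlinarith
    exact h2.trans (mul_le_mul_of_nonneg_right (tot_EL h h1 hl k) (by positivity))

lemma tot_uL' (h : Mm S) {l : ℕ} (hl : l ≤ S.K) (v : ℕ) : tot (uL S l v) ≤ S.m l := by
  unfold uL
  have e1 : tot ((Finset.Ico 0 l).toList.map fun i =>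
      Tm.cut S.lev v i (Tm.cst (-(S.p i / 2)) (Mo.T i (Mo.D v)) : Tm ι)) =
      ∑ i ∈ Finset.Ico 0 l, |-(S.p i / 2)| := by
    unfold tot
    rw [List.map_map]
    exact Finset.sum_map_toList _ _
  have e2 : ∑ i ∈ Finset.Ico 0 l, |-(S.p i / 2)| = (S.m l - S.m 0) / 2 := by
    rw [← Finset.sum_Ico_sub S.m (Nat.zero_le l), Finset.sum_div]
    refine Finset.sum_congr rfl fun i hi => ?_
    have := h.mono i (by have := (Finset.mem_Ico.1 hi).2; omega)
    rw [abs_neg, abs_of_nonneg]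
    · rfl
    · have : 0 ≤ S.p i := sub_nonneg.2 this
      positivity
  rw [tot_cons, e1, e2, Tm.cst_r, abs_of_nonneg (by have := h.nn (j := l) (by omega); positivity)]
  have h2 := h.m0
  linarith

lemma tot_RL (h : Mm S) (h1 : S.m S.K ≤ 1) {l : ℕ} (hl : l ≤ S.K) : ∀ k : ℕ,
    tot (RL S l k) ≤ cF k * S.m l
  | 0 => by simp [RL, cF]
  | k + 1 => by
    have hm := h.nn (j := S.K) (by omega)
    have hml := h.nn (j := l) (by omega)
    have hml1 : S.m l ≤ 1 := (h.le hl (by omega)).trans h1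
    have ih := tot_RL h h1 hl k
    have hM := tot_EL h h1 hl k
    have n1 := tot_nonneg (RL S l k)
    have e2 : tot (bd (RL S l k) (mm S k) snd') ≤ tot (RL S l k) * (2 * (k + 1)) := by
      refine tot_bd_le _ fun t ht => ?_
      have h2 := (gd_RL hl k).nt t ht
      have h3 := tot_mm (S := S) k t.M
      have h4 : (nt t.M : ℝ) ≤ k + 1 := by exact_mod_cast h2
      linarith
    have e3 : tot (bd (RL S l k) (rr S k) snd') ≤ tot (RL S l k) * (2 * (k + 1)) := by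
      refine tot_bd_le _ fun t ht => ?_
      have h2 := (gd_RL hl k).nt t ht
      have h3 := tot_rr h k t.M
      have h4 : (nt t.M : ℝ) ≤ k + 1 := by exact_mod_cast h2
      refine h3.trans ?_
      have h5 : (0 : ℝ) ≤ nt t.M := Nat.cast_nonneg _
      nlinarith
    have e4 : tot (bd (EL S l k ++ RL S l k) (fun _ => uL S l k) Mo.mul) ≤
        tot (EL S l k ++ RL S l k) * S.m l :=
      tot_bd_le _ fun t ht => tot_uL' h hl k
    rw [tot_append] at e4
    simp only [RL, tot_append]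
    have k0 : (0 : ℝ) ≤ 2 * (k + 1) := by positivity
    have f2 : tot (RL S l k) * (2 * (k + 1)) ≤ cF k * (2 * (k + 1)) * S.m l := by
      have := mul_le_mul_of_nonneg_right ih k0
      linarith
    have f3 : (tot (EL S l k) + tot (RL S l k)) * S.m l ≤ (cE k + cF k) * S.m l := by
      refine mul_le_mul_of_nonneg_right (add_le_add hM (ih.trans ?_)) hml
      have := mul_le_mul_of_nonneg_left hml1 (cF_nonneg k)
      linarith
    have e0 : cF (k + 1) = cF k * (2 * (k + 1)) + cF k * (2 * (k + 1)) + (cE k + cF k) := rfl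
    rw [e0]
    linarith

/-! ### The derivatives -/

lemma evL_bd_app (F G : Mo → List (Tm ι)) (z : ι → ℝ) (x : X) : ∀ L : List (Tm ι),
    evL S a s I (bd L (fun M => F M ++ G M) snd') z x =
      evL S a s I (bd L F snd') z x + evL S a s I (bd L G snd') z x
  | [] => by simp [bd_nil]
  | t :: L => by
    rw [bd_cons, bd_cons, bd_cons, evL_append, evL_append, evL_append, evL_bd_app F G z x L,
      evL_tm_snd, evL_tm_snd, evL_tm_snd, evL_append]
    ring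

lemma evL_EL_succ {l : ℕ} (hl : l ≤ S.K) (k : ℕ) (hv : S.lev (I k) ≤ l) (z : ι → ℝ) (x : X) :
    evL S a s I (bd (EL S l k) (mm S k) snd') z x + evL S a s I (bd (EL S l k) (rr S k) snd') z x =
      evL S a s I (EL S l (k + 1)) z x := by
  rw [bd_congr_ev z x fun t ht => evL_mc hv z x (ge_EL hl k t ht).inn,
    bd_congr_ev z x fun t ht => evL_rc hv z x (ge_EL hl k t ht).inn, ← evL_bd_app]
  rfl

/-- **The exact list is the list of the derivatives.** -/
theorem pd_EL (h : LinS S a c) (s : X → ℝ) (I : ℕ → ι) {l : ℕ} (hl : l ≤ S.K) (k : ℕ)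
    (hv : S.lev (I k) ≤ l) (x : X) :
    PD (I k) (fun z => evL S a s I (EL S l k) z x) (fun z => evL S a s I (EL S l (k + 1)) z x) :=
  (pd_evL h s I k x _ (gd_EL hl k).tk).congr fun z => evL_EL_succ hl k hv z x

/-- the derivatives of `e^{V/2} T_l s`, second form -/
noncomputable def gk' (S : Sy ι X) (a : X → ι → ℝ) (s : X → ℝ) (l k : ℕ) (I : ℕ → ι)
    (z : ι → ℝ) : ℝ :=
  Real.exp (VL S l z / 2) * (evL S a s I (EL S l k) z (Classical.arbitrary X) +
    evL S a s I (RL S l k) z (Classical.arbitrary X))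

theorem gk'_pd (h : LinS S a c) (s : X → ℝ) (I : ℕ → ι) {l : ℕ} (hl : l ≤ S.K) (k : ℕ)
    (hv : S.lev (I k) ≤ l) : PD (I k) (gk' S a s l k I) (gk' S a s l (k + 1) I) := by
  have h1 := pd_exp h s I hl k hv (Classical.arbitrary X) (EL S l k ++ RL S l k)
    fun t ht => ((gd_EL hl k).append (gd_RL hl k)).tk t ht
  have e0 : gk' S a s l k I = fun z => Real.exp (VL S l z / 2) *
      evL S a s I (EL S l k ++ RL S l k) z (Classical.arbitrary X) := by
    funext z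
    unfold gk'
    rw [evL_append]
  rw [e0]
  refine h1.congr fun z => ?_
  unfold gk'
  have b1 : ∀ (L L' : List (Tm ι)) (F : Mo → List (Tm ι)) (f : Mo → Mo → Mo),
      bd (L ++ L') F f = bd L F f ++ bd L' F f := fun L L' F f => by
    simp [bd]
  rw [← evL_EL_succ hl k hv]
  have e1 : RL S l (k + 1) = bd (RL S l k) (mm S k) snd' ++
      (bd (RL S l k) (rr S k) snd' ++ bd (EL S l k ++ RL S l k) (fun _ => uL S l k) Mo.mul) := rfl
  rw [e1]
  simp only [b1, evL_append]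
  ring

lemma gk_eq (h : LinS S a c) (s : X → ℝ) (I : ℕ → ι) {l : ℕ} (hl : l ≤ S.K) : ∀ k : ℕ,
    (∀ v < k, S.lev (I v) ≤ l) → gk S a s l k I = gk' S a s l k I
  | 0, _ => by
    funext z
    rw [gk_zero]
    unfold gk' EL RL
    simp [ev]
  | k + 1, hv => by
    have ih := gk_eq h s I hl k fun v hv' => hv v (by omega)
    have h1 := gk_pd h s I hl k (hv k (by omega))
    have h2 := gk'_pd h s I hl k (hv k (by omega))
    rw [ih] at h1
    exact pd_unique h1 h2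

variable [DecidableEq X]

lemma wk_eq (h : LinS S a c) (s : X → ℝ) (I : ℕ → ι) {l : ℕ} (hl : l ≤ S.K) (k : ℕ)
    (hv : ∀ v < k, S.lev (I v) ≤ l) (z : ι → ℝ) (x : X) :
    wk S a s l k I z x = evL S a s I (EL S l k) z x + evL S a s I (RL S l k) z x := by
  have h1 := congrFun (gk_eq h s I hl k hv) z
  unfold gk gk' at h1
  have h2 := mul_left_cancel₀ (Real.exp_pos _).ne' h1
  unfold wk
  rw [(gd_LM hl k).fst z x (Classical.arbitrary X), (gd_LR hl k).fst z x (Classical.arbitrary X),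
    (gd_EL hl k).fst z x (Classical.arbitrary X), (gd_RL hl k).fst z x (Classical.arbitrary X), h2]

/-- the symbol: the third derivative of `T_l s` in the direction of the field `s` -/
noncomputable def kl (S : Sy ι X) (s : X → ℝ) (I : ℕ → ι) (l k : ℕ) (z : ι → ℝ) : ℝ :=
  evL S (fun x _ => s x) s I (EL S l k) z (Classical.arbitrary X)

lemma eg_kl (hS : S.Reg) {l : ℕ} (hl : l ≤ S.K) (s : X → ℝ) (I : ℕ → ι) (k : ℕ) :
    EG (kl S s I l k) := (gd_EL hl k).eg hS _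

lemma dep_kl {l : ℕ} (hl : l ≤ S.K) (s : X → ℝ) (I : ℕ → ι) (k : ℕ) :
    Dep S.lev l (kl S s I l k) := (gd_EL hl k).dep _

/-- the squares of the exact list -/
noncomputable def UE (S : Sy ι X) (a : X → ι → ℝ) (s : X → ℝ) (A : Finset ι) (l : ℕ) : ℝ :=
  S.Ex fun z x => ∑ e ∈ A, ∑ f ∈ A, ∑ k ∈ A, evL S a s (ix e f k k) (EL S l 3) z x ^ 2

lemma UE_kl (h : LinS S a c) (hm : Mm S) (hm1 : S.m S.K ≤ 1) (hs : ∀ x, s x ^ 2 = 1) {l : ℕ}
    (hl : l ≤ S.K) {φ : X → ι → ℝ} (ha : ∀ x, ∀ e ∈ A, a x e = s x * φ x e) {ρ : ℝ} (hρ : 0 ≤ ρ)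
    {E : ℝ} (En : 0 ≤ E)
    (hE : S.pairEx l (fun x y => |CC A φ x y - ρ| ^ 3 + ρ ^ 2 * |CC A φ x y - ρ|) ≤ E)
    (I : ℕ → ι) : |UE S a s A l - ρ ^ 3 * S.Ex (fun z _ => kl S s I l 3 z ^ 2)| ≤
      cE 3 ^ 2 * (9 / 2 * E) := by
  have hS := h.reg
  have n1 := nh_sq3 (A := A) hS (gd_EL hl 3) a s
  have nT : Nh (X := X) fun z _ => kl S s I l 3 z ^ 2 := Nh.fst ((eg_kl hS hl s I 3).pow 2)
  have nP := hS.nh_pair hl fun x y => |CC A φ x y - ρ| ^ 3 + ρ ^ 2 * |CC A φ x y - ρ|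
  have t1 : tot (EL S l 3) ^ 2 ≤ cE 3 ^ 2 :=
    pow_le_pow_left₀ (tot_nonneg _) (tot_EL hm hm1 hl 3) 2
  have p1 : ∀ z x, |(∑ e ∈ A, ∑ f ∈ A, ∑ k ∈ A,
      evL S a s (ix e f k k) (EL S l 3) z x ^ 2) - ρ ^ 3 * kl S s I l 3 z ^ 2| ≤
      tot (EL S l 3) ^ 2 * (9 / 2) * pp S l z (fun x y =>
        |CC A φ x y - ρ| ^ 3 + ρ ^ 2 * |CC A φ x y - ρ|) := by
    intro z x
    unfold kl
    rw [(gd_EL hl 3).fst z (Classical.arbitrary X) x, mul_assoc]
    exact symL hS hs hl (gd_EL hl 3) (cst_EL l 3) (fun t ht v => cl_EL hl 3 v t ht) ha hρ z x I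
  have p2 : UE S a s A l - ρ ^ 3 * S.Ex (fun z _ => kl S s I l 3 z ^ 2) =
      S.Ex fun z x => (∑ e ∈ A, ∑ f ∈ A, ∑ k ∈ A,
      evL S a s (ix e f k k) (EL S l 3) z x ^ 2) + -ρ ^ 3 * kl S s I l 3 z ^ 2 := by
    rw [hS.Ex_add n1 (Nh.const_mul _ nT), Ex_const_mul]
    unfold UE
    ring
  have p3 : ∀ t : ℝ, t = 1 ∨ t = -1 →
      t * (UE S a s A l - ρ ^ 3 * S.Ex (fun z _ => kl S s I l 3 z ^ 2)) ≤
      cE 3 ^ 2 * (9 / 2 * E) := by
    intro t ht
    rw [p2, ← Ex_const_mul]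
    have q1 : S.Ex (fun z x => t * ((∑ e ∈ A, ∑ f ∈ A, ∑ k ∈ A,
        evL S a s (ix e f k k) (EL S l 3) z x ^ 2) + -ρ ^ 3 * kl S s I l 3 z ^ 2)) ≤
        S.Ex fun z _ => tot (EL S l 3) ^ 2 * (9 / 2) * pp S l z (fun x y =>
        |CC A φ x y - ρ| ^ 3 + ρ ^ 2 * |CC A φ x y - ρ|) := by
      refine hS.Ex_mono (Nh.const_mul t (Nh.add n1 (Nh.const_mul _ nT)))
        (Nh.const_mul _ (Nh.fst nP)) fun z x => ?_
      have r1 := abs_le.1 (p1 z x)
      rcases ht with rfl | rfl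
      · linarith [r1.2]
      · linarith [r1.1]
    refine q1.trans ?_
    rw [Ex_const_mul, ← pairEx_eq]
    have r2 := mul_le_mul_of_nonneg_left hE
      (show 0 ≤ tot (EL S l 3) ^ 2 * (9 / 2) by positivity)
    refine r2.trans ?_
    have r3 := mul_le_mul_of_nonneg_right t1 (show 0 ≤ 9 / 2 * E by positivity)
    linarith
  rw [abs_le]
  constructor
  · have := p3 (-1) (Or.inr rfl); linarith
  · have := p3 1 (Or.inl rfl); linarith

lemma cross_bd' (h : LinS S a c) (hm : Mm S) (hm1 : S.m S.K ≤ 1)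
    (hs1 : ∀ x, |s x| ≤ 1) {l : ℕ} (hl : l ≤ S.K) (hAl : ∀ e ∈ A, S.lev e ≤ l) {μ : ℝ}
    (hμ0 : 0 < μ) (hμ : S.m l ≤ μ) (hμ1 : μ ≤ 1) {B3 : ℝ} (B3n : 0 ≤ B3)
    (hB3' : ∀ i ≤ l, S.pairEx i (fun x y => |CC A a x y| ^ 3) ≤ B3) :
    |∑ e ∈ A, ∑ f ∈ A, ∑ k ∈ A, ∫ z, gk S a s l 3 (ix e f k k) z ^ 2 ∂(gI ι) - UE S a s A l| ≤
      (cE 3 ^ 2 + 2 * cF 3 ^ 2) * (μ * B3) := by
  have hS := h.reg
  have n1 := nh_sq3 (A := A) hS (gd_EL hl 3) a s
  have n2 := nh_sq3 (A := A) hS (gd_RL hl 3) a s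
  have n3 : Nh (X := X) fun z x => ∑ e ∈ A, ∑ f ∈ A, ∑ k ∈ A,
      wk S a s l 3 (ix e f k k) z x ^ 2 :=
    Nh.sum _ fun e _ => Nh.sum _ fun f _ => Nh.sum _ fun k _ =>
      Nh.pow (nh_wk hS hl 3 a s _) 2
  have x1 := ex3_le (A := A) (a := a) hS hs1 hl (gd_EL hl 3) hB3'
  have x2 := ex3_le (A := A) (a := a) hS hs1 hl (gd_RL hl 3) hB3'
  have t1 : tot (EL S l 3) ^ 2 ≤ cE 3 ^ 2 :=
    pow_le_pow_left₀ (tot_nonneg _) (tot_EL hm hm1 hl 3) 2
  have t2 : tot (RL S l 3) ^ 2 ≤ (cF 3 * μ) ^ 2 :=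
    pow_le_pow_left₀ (tot_nonneg _) ((tot_RL hm hm1 hl 3).trans
      (mul_le_mul_of_nonneg_left hμ (cF_nonneg 3))) 2
  have y1 := x1.trans (mul_le_mul_of_nonneg_right t1 B3n)
  have y2 := x2.trans (mul_le_mul_of_nonneg_right t2 B3n)
  rw [sum3_Ex h hl]
  unfold UE
  have up : ∀ t : ℝ, t = 1 ∨ t = -1 → t * (S.Ex (fun z x => ∑ e ∈ A, ∑ f ∈ A, ∑ k ∈ A,
      wk S a s l 3 (ix e f k k) z x ^ 2) - S.Ex fun z x => ∑ e ∈ A, ∑ f ∈ A, ∑ k ∈ A,
      evL S a s (ix e f k k) (EL S l 3) z x ^ 2) ≤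
      μ * S.Ex (fun z x => ∑ e ∈ A, ∑ f ∈ A, ∑ k ∈ A,
        evL S a s (ix e f k k) (EL S l 3) z x ^ 2) +
      (1 / μ + 1) * S.Ex fun z x => ∑ e ∈ A, ∑ f ∈ A, ∑ k ∈ A,
        evL S a s (ix e f k k) (RL S l 3) z x ^ 2 := by
    intro t ht
    rw [← Ex_const_mul, ← Ex_const_mul, ← hS.Ex_add (Nh.const_mul _ n1) (Nh.const_mul _ n2)]
    have e2 : ∀ P Q : ℝ, P - Q = P + -1 * Q := fun P Q => by ring
    rw [e2, ← Ex_const_mul, ← hS.Ex_add n3 (Nh.const_mul _ n1), ← Ex_const_mul]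
    refine hS.Ex_mono (Nh.const_mul t (Nh.add n3 (Nh.const_mul _ n1)))
      (Nh.add (Nh.const_mul _ n1) (Nh.const_mul _ n2)) fun z x => ?_
    simp only [Finset.mul_sum, ← Finset.sum_add_distrib]
    refine Finset.sum_le_sum fun e he => Finset.sum_le_sum fun f hf =>
      Finset.sum_le_sum fun k hk => ?_
    rw [wk_eq h s (ix e f k k) hl 3 (fun v hv => by
      interval_cases v
      · exact hAl e he
      · exact hAl f hf
      · exact hAl k hk) z x]
    exact real_cross hμ0 ht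
  set U := S.Ex (fun z x => ∑ e ∈ A, ∑ f ∈ A, ∑ k ∈ A,
      evL S a s (ix e f k k) (EL S l 3) z x ^ 2) with hU
  set W := S.Ex (fun z x => ∑ e ∈ A, ∑ f ∈ A, ∑ k ∈ A,
      evL S a s (ix e f k k) (RL S l 3) z x ^ 2) with hW
  have b1 : μ * U + (1 / μ + 1) * W ≤ (cE 3 ^ 2 + 2 * cF 3 ^ 2) * (μ * B3) := by
    have f1 : μ * U ≤ cE 3 ^ 2 * (μ * B3) := by
      have := mul_le_mul_of_nonneg_left y1 hμ0.le
      linarith
    have f2 : (1 / μ + 1) * W ≤ 2 * cF 3 ^ 2 * (μ * B3) := by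
      have g1 : 0 ≤ 1 / μ + 1 := by positivity
      have g2 := mul_le_mul_of_nonneg_left y2 g1
      refine g2.trans ?_
      have g3 : (1 / μ + 1) * ((cF 3 * μ) ^ 2 * B3) = (1 + μ) * (cF 3 ^ 2 * (μ * B3)) := by
        field_simp
      rw [g3]
      have g4 : 0 ≤ cF 3 ^ 2 * (μ * B3) := by positivity
      nlinarith
    linarith
  rw [abs_le]
  constructor
  · have := up (-1) (Or.inr rfl); linarith
  · have := up 1 (Or.inl rfl); linarith

/-- **The third chaos at one level, all upper levels kept.** -/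
theorem one_level' (h : LinS S a c) (hm : Mm S) (hm1 : S.m S.K ≤ 1)
    (hs : ∀ x, s x ^ 2 = 1) {l : ℕ} (hl : l ≤ S.K) {ε : ι → ℝ}
    (hA : Mv S.lev l A (Equiv.refl ι) ε) (hε : ∀ e ∈ A, ε e = -1) (hAl : ∀ e ∈ A, S.lev e ≤ l)
    (ho : ∀ z, S.T l (fun _ x => s x) (gz (Equiv.refl ι) ε z) = -S.T l (fun _ x => s x) z)
    (hV : ∀ z, VL S l (gz (Equiv.refl ι) ε z) = VL S l z)
    {φ : X → ι → ℝ} (ha : ∀ x, ∀ e ∈ A, a x e = s x * φ x e) {ρ : ℝ} (hρ : 0 ≤ ρ)
    {g1 : ι → (ι → ℝ) → ℝ} (hg1 : ∀ e ∈ A, PD e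
      (fun z => Real.exp (VL S l z / 2) * S.T l (fun _ x => s x) z) (g1 e)) {B3 B4 E : ℝ}
    (hB : Bs S l (CC A φ) ρ B3 B4 E) {μ : ℝ} (hμ0 : 0 < μ) (hμ : S.m l ≤ μ) (hμ1 : μ ≤ 1)
    (I : ℕ → ι) :
    |6 * NL S s l A g1 - ρ ^ 3 * S.Ex (fun z _ => kl S s I l 3 z ^ 2)| ≤
      1200000000 * (E + μ * B3 + B4) := by
  have hS := h.reg
  have hs1 : ∀ x, |s x| ≤ 1 := fun x => by
    rw [abs_le_one_iff_mul_self_le_one, ← sq, hs x]
  have hsa : ∀ x, |s x| = 1 := fun x => by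
    have := hs x
    rw [← sq_abs] at this
    nlinarith [abs_nonneg (s x)]
  have c3 : ∀ x y, |CC A a x y| ^ 3 = |CC A φ x y| ^ 3 := fun x y => by
    rw [CC_mul ha, abs_mul, abs_mul, hsa, hsa]
    ring
  have c4 : ∀ x y, CC A a x y ^ 4 = CC A φ x y ^ 4 := fun x y => by
    have e4 : s x ^ 4 = 1 := by rw [show (4 : ℕ) = 2 * 2 from rfl, pow_mul, hs]; ring
    have e5 : s y ^ 4 = 1 := by rw [show (4 : ℕ) = 2 * 2 from rfl, pow_mul, hs]; ring
    rw [CC_mul ha, mul_pow, mul_pow, e4, e5]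
    ring
  have hB3' : ∀ i ≤ l, S.pairEx i (fun x y => |CC A a x y| ^ 3) ≤ B3 := fun i hi => by
    simp only [c3]; exact hB.h3 i hi
  have hB4' : ∀ i ≤ l, S.pairEx i (fun x y => CC A a x y ^ 4) ≤ B4 := fun i hi => by
    simp only [c4]; exact hB.h4 i hi
  have B3n : 0 ≤ B3 := (hS.pairEx_nonneg hl fun x y => by positivity).trans (hB.h3 l le_rfl)
  have B4n : 0 ≤ B4 := (hS.pairEx_nonneg hl fun x y => by positivity).trans (hB.h4 l le_rfl)
  have En : 0 ≤ E := (hS.pairEx_nonneg hl fun x y => by positivity).trans hB.hE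
  obtain ⟨_, low, upp⟩ := chaos_gk h hl hA hε hAl ho hV hg1 I
  have b4 := four_bd (A := A) (s := s) h hm hm1 hs1 hl B4n hB4'
  have b3 := cross_bd' (A := A) (s := s) h hm hm1 hs1 hl hAl hμ0 hμ hμ1 B3n hB3'
  have bE := UE_kl (A := A) h hm hm1 hs hl ha hρ En hB.hE I
  have vM3 : cE 3 = 384 := by norm_num [cE]
  have vM4 : cM 4 = 384 := by norm_num [cM]
  have vR3 : cF 3 = 201 := by norm_num [cF, cE]
  have vR4 : cR 4 = 9561 := by norm_num [cR, cM]
  rw [vM3, vR3] at b3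
  rw [vM4, vR4] at b4
  rw [vM3] at bE
  have mB : 0 ≤ μ * B3 := mul_nonneg hμ0.le B3n
  obtain ⟨b3a, b3b⟩ := abs_le.1 b3
  obtain ⟨bEa, bEb⟩ := abs_le.1 bE
  rw [abs_le]
  constructor
  · linarith
  · linarith

end Vale.Agent.N146.Cut
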