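import Vale.Agent.N146.CutA
import Vale.Agent.P146.H877x.Inf
import Vale.Agent.P146.H826.Parm

/-!
# P146 (c), package ID1, part B: the symbol as a fourth derivative, and the influence of the row
-/

open MeasureTheory ProbabilityTheory

namespace Vale.Agent.N146.Cut

open Vale.Agent.P157 Vale.Agent.P157.Lv Vale.Agent.P157.Lv.Sy
open Vale.Agent.P146 Vale.Agent.P146.H425 Vale.Agent.P146.H93 Vale.Agent.P146.H985
open Vale.Agent.P146.H946 Vale.Agent.P146.H508
open Vale.Agent.P146.H379.Row (PA eg_expV int_expV_sq)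

set_option linter.unusedSectionVars false

variable {ι X : Type} [Fintype ι] [DecidableEq ι] [Fintype X] [Nonempty X] [DecidableEq X]
  {S : Sy ι X} {a : X → ι → ℝ} {c : X → ℝ} {s : X → ℝ} {I : ℕ → ι} {A : Finset ι}

/-! ### Scaling and bounds -/

lemma ev_scale {a' : X → ι → ℝ} {I' : ℕ → ι} {w : ℝ} : ∀ M : Mo, Lin M →
    (∀ v ∈ lab M, ∀ x, a x (I v) = w * a' x (I' v)) → ∀ z x,
    ev S a s I M z x = w ^ (lab M).card * ev S a' s I' M z x
  | Mo.sp, _, _, z, x => by simp [ev, lab]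
  | Mo.D v, _, h, z, x => by
    have := h v (by simp [lab]) x
    simp [ev, lab, this]
  | Mo.mul M N, hl, h, z, x => by
    have h1 := ev_scale M hl.2.1 (fun v hv => h v (by simp [lab, hv])) z x
    have h2 := ev_scale N hl.2.2 (fun v hv => h v (by simp [lab, hv])) z x
    have e : (lab (Mo.mul M N)).card = (lab M).card + (lab N).card :=
      Finset.card_union_of_disjoint hl.1
    rw [e, pow_add]
    simp only [ev, h1, h2]
    ring
  | Mo.T j M, hl, h, z, x => by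
    have h1 : ev S a s I M = fun z x => w ^ (lab M).card * ev S a' s I' M z x := by
      funext z x
      exact ev_scale M hl h z x
    simp only [ev]
    rw [h1, T_const_mul]
    rfl

lemma evL_scale_aux {a' : X → ι → ℝ} {I' : ℕ → ι} {W : ℝ} (z : ι → ℝ) (x : X) :
    ∀ L : List (Tm ι), (∀ t ∈ L, t.c I = t.c I' ∧
      ev S a s I t.M z x = W * ev S a' s I' t.M z x) →
      evL S a s I L z x = W * evL S a' s I' L z x
  | [], _ => by simp
  | t :: L, h => by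
    rw [evL_cons, evL_cons, evL_scale_aux z x L fun t' ht' => h t' (List.mem_cons_of_mem _ ht'),
      (h t List.mem_cons_self).1, (h t List.mem_cons_self).2]
    ring

lemma EL_scale {l : ℕ} (hl : l ≤ S.K) (k : ℕ) {a' : X → ι → ℝ} {I' : ℕ → ι} {w : ℝ}
    (h : ∀ v < k, ∀ x, a x (I v) = w * a' x (I' v)) (z : ι → ℝ) (x : X) :
    evL S a s I (EL S l k) z x = w ^ k * evL S a' s I' (EL S l k) z x := by
  refine evL_scale_aux z x _ fun t ht => ⟨cst_EL l k t ht I I', ?_⟩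
  have g := ge_EL hl k t ht
  have h1 := ev_scale (S := S) (s := s) (a := a) (I := I) (a' := a') (I' := I') (w := w) t.M g.lin
    (fun v hv => h v (by rw [g.lab] at hv; exact Finset.mem_range.1 hv)) z x
  rwa [g.lab, Finset.card_range] at h1

lemma abs_ev_le (hS : S.Reg) (hs : ∀ x, |s x| ≤ 1) (ha : ∀ x e, |a x e| ≤ 1) :
    ∀ M : Mo, tk S.K M → ∀ z x, |ev S a s I M z x| ≤ 1
  | Mo.sp, _, _, x => hs x
  | Mo.D v, _, _, x => ha x (I v)
  | Mo.mul M N, h, z, x => by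
    simp only [ev]
    rw [abs_mul]
    exact mul_le_one₀ (abs_ev_le hS hs ha M h.1 z x) (abs_nonneg _) (abs_ev_le hS hs ha N h.2 z x)
  | Mo.T j M, h, z, _ => hS.abs_T_le h.1 (nh_ev hS a s I M h.2) (abs_ev_le hS hs ha M h.2) z

lemma abs_evL_le (hS : S.Reg) (hs : ∀ x, |s x| ≤ 1) (ha : ∀ x e, |a x e| ≤ 1) (z : ι → ℝ) (x : X) :
    ∀ L : List (Tm ι), tkL S.K L → |evL S a s I L z x| ≤ tot L
  | [], _ => by simp
  | t :: L, h => by
    rw [evL_cons, tot_cons]
    refine (abs_add_le _ _).trans (add_le_add ?_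
      (abs_evL_le hS hs ha z x L fun t' ht' => h t' (List.mem_cons_of_mem _ ht')))
    rw [abs_mul]
    have h1 := abs_ev_le (I := I) hS hs ha t.M (h t List.mem_cons_self) z x
    calc |t.c I| * |ev S a s I t.M z x| ≤ t.r * 1 :=
          mul_le_mul (t.hc I) h1 (abs_nonneg _) t.hr
      _ = t.r := mul_one _

lemma abs_kl_le (hS : S.Reg) (hm : Mm S) (hm1 : S.m S.K ≤ 1) (hs : ∀ x, |s x| ≤ 1) {l : ℕ}
    (hl : l ≤ S.K) (k : ℕ) (z : ι → ℝ) : |kl S s I l k z| ≤ cE k :=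
  (abs_evL_le hS hs (fun x _ => hs x) z _ _ (gd_EL hl k).tk).trans (tot_EL hm hm1 hl k)

/-! ### The derivatives in the direction of the field -/

/-- the shift of the coordinate `e0` -/
noncomputable def sh (e0 : ι) (t : ℝ) (z : ι → ℝ) : ι → ℝ := Function.update z e0 (z e0 + t)

lemma sh_zero (e0 : ι) (z : ι → ℝ) : sh e0 0 z = z := by
  unfold sh
  rw [add_zero, Function.update_eq_self]

lemma hd_sh {e0 : ι} {F F' : (ι → ℝ) → ℝ} {w : ℝ} (hw : w ≠ 0)
    (h : PD e0 F (fun z => w * F' z)) (z : ι → ℝ) (t : ℝ) :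
    HasDerivAt (fun t => F (sh e0 (t / w) z)) (F' (sh e0 (t / w) z)) t := by
  have h1 := h z (z e0 + t / w)
  have h2 : HasDerivAt (fun t : ℝ => z e0 + t / w) (1 / w) t :=
    ((hasDerivAt_id t).div_const w).const_add (z e0)
  have h3 := h1.comp t h2
  refine h3.congr_deriv ?_
  show w * F' (Function.update z e0 (z e0 + t / w)) * (1 / w) = F' (sh e0 (t / w) z)
  unfold sh
  field_simp

lemma pd_kl (h : LinS S a c) {l : ℕ} (hl : l ≤ S.K) {e0 : ι} (he : S.lev e0 ≤ l) {w : ℝ}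
    (hw : w ≠ 0) (ha : ∀ x, a x e0 = w * s x) (I : ℕ → ι) (k : ℕ) :
    PD e0 (kl S s I l k) (fun z => w * kl S s I l (k + 1) z) := by
  have h1 := pd_EL h s (fun _ => e0) hl k he (Classical.arbitrary X)
  have e1 : ∀ k z, evL S a s (fun _ => e0) (EL S l k) z (Classical.arbitrary X) =
      w ^ k * kl S s I l k z := fun k z =>
    EL_scale (a' := fun x _ => s x) (I' := I) hl k (fun v _ x => ha x) z _
  simp only [e1] at h1
  have h2 := h1.const_mul (w ^ k)⁻¹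
  have hw' : w ^ k ≠ 0 := pow_ne_zero k hw
  have e2 : (fun z => (w ^ k)⁻¹ * (w ^ k * kl S s I l k z)) = kl S s I l k := by
    funext z
    field_simp
  rw [e2] at h2
  refine h2.congr fun z => ?_
  field_simp
  ring

lemma pd_lg0 (h : LinS S a c) {l : ℕ} (hl : l ≤ S.K) {e0 : ι} (he : S.lev e0 ≤ l) {w : ℝ}
    (ha : ∀ x, a x e0 = w * s x) (I : ℕ → ι) :
    PD e0 (S.lg l) (fun z => w * kl S s I l 0 z) := by
  refine ((regD h).pd_lg hl he).congr fun z => ?_
  have e1 : (fun (_ : ι → ℝ) (x : X) => a x e0) = fun _ x => w * s x := by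
    funext _ x
    exact ha x
  show S.T l (fun (_ : ι → ℝ) (x : X) => a x e0) z = _
  rw [e1, T_const_mul]
  unfold kl EL
  simp [ev]

/-- the fourth difference -/
noncomputable def d4 (φ : ℝ → ℝ) (δ : ℝ) : ℝ :=
  φ (2 * δ) - 4 * φ δ + 6 * φ 0 - 4 * φ (-δ) + φ (-(2 * δ))

/-- **The symbol is the fourth derivative of the log-weight in the field.** -/
theorem kl_d4 (h : LinS S a c) (hm : Mm S) (hm1 : S.m S.K ≤ 1) (hs : ∀ x, |s x| ≤ 1) {l : ℕ}
    (hl : l ≤ S.K) {e0 : ι} (he : S.lev e0 ≤ l) {w : ℝ} (hw : w ≠ 0) (ha : ∀ x, a x e0 = w * s x)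
    (I : ℕ → ι) {δ : ℝ} (hδ : 0 ≤ δ) (z : ι → ℝ) :
    |d4 (fun t => S.lg l (sh e0 (t / w) z)) δ - δ ^ 4 * kl S s I l 3 z| ≤ 72 * 6144 * δ ^ 5 := by
  have h1 := H826.diff4 (B := 6144) (hd_sh hw (pd_lg0 h hl he ha I) z)
    (hd_sh hw (pd_kl h hl he hw ha I 0) z) (hd_sh hw (pd_kl h hl he hw ha I 1) z)
    (hd_sh hw (pd_kl h hl he hw ha I 2) z) (hd_sh hw (pd_kl h hl he hw ha I 3) z)
    (fun t => by
      have h2 := abs_kl_le (I := I) h.reg hm hm1 hs hl 4 (sh e0 (t / w) z)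
      have h3 : cE 4 = 6144 := by norm_num [cE]
      rw [h3] at h2
      exact h2) hδ
  rw [zero_div, sh_zero] at h1
  unfold d4
  simp only [zero_div, sh_zero]
  exact h1

/-! ### The influence of the row -/

lemma sq1_le (hS : S.Reg) (hs : ∀ x, |s x| ≤ 1) {l : ℕ} (hl : l ≤ S.K) {M : Mo}
    (hM : Cm S l 4 M) (hc : cl M 3 = some l) {e0 : ι} {w : ℝ} (ha : ∀ x, a x e0 = w * s x)
    (z : ι → ℝ) (x : X) :
    ∑ e ∈ A, ev S a s (ix e0 e0 e0 e) M z x ^ 2 ≤
      w ^ 6 * pp S l z (fun x y => |CC A a x y|) := by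
  obtain ⟨Ω, _, P, B, q, h⟩ := rep hS hs M hM.tk hM.lin
  have m3 : 3 ∈ lab M := by rw [hM.lab]; exact Finset.mem_range.2 (by norm_num)
  set q' : Ω → ℝ := fun ω => q ω x * (s (B ω x 0) * (s (B ω x 1) * s (B ω x 2))) with hq'
  have hq1 : ∀ ω, |q' ω| ≤ 1 := fun ω => by
    simp only [hq', abs_mul]
    exact mul_le_one₀ (h.q1 ω x) (by positivity) (mul_le_one₀ (hs _) (by positivity)
      (mul_le_one₀ (hs _) (by positivity) (hs _)))
  have e1 : ∀ e, ev S a s (ix e0 e0 e0 e) M z x =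
      w ^ 3 * ∑ ω, P ω z x * q' ω * a (B ω x 3) e := by
    intro e
    rw [h.ev_eq, hM.lab, Finset.mul_sum]
    refine Finset.sum_congr rfl fun ω _ => ?_
    simp only [Finset.prod_range_succ, Finset.prod_range_zero, ix, ha, hq']
    ring
  have h1 := gram_base A (fun ω => P ω z x * q' ω) (fun ω e => a (B ω x 3) e)
    (fun ω => P ω z x * q' ω) (fun ω e => a (B ω x 3) e)
  have e2 : ∑ e ∈ A, ev S a s (ix e0 e0 e0 e) M z x ^ 2 = w ^ 6 *
      ∑ e ∈ A, (∑ ω, P ω z x * q' ω * a (B ω x 3) e) * ∑ ω, P ω z x * q' ω * a (B ω x 3) e := by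
    rw [Finset.mul_sum]
    refine Finset.sum_congr rfl fun e _ => ?_
    rw [e1]
    ring
  rw [e2, h1]
  refine mul_le_mul_of_nonneg_left ?_ (by positivity)
  refine (le_abs_self _).trans ((dsum_le (fun ω => h.nn ω z x) (fun ω => h.nn ω z x) hq1 hq1
    (F := fun ω ω' => ∑ e ∈ A, a (B ω x 3) e * a (B ω' x 3) e)
    (G := fun ω ω' => |CC A a (B ω x 3) (B ω' x 3)|) fun ω ω' => le_rfl).trans (le_of_eq ?_))
  exact h.pair hS hl h m3 m3 hc hc (fun x y => |CC A a x y|) z x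

/-- a sum of squares of a list over one index -/
lemma sum_evL_sq (L : List (Tm ι)) (J : ι → ℕ → ι) (z : ι → ℝ) (x : X) {B : ℝ}
    (h : ∀ t ∈ L, ∑ e ∈ A, ev S a s (J e) t.M z x ^ 2 ≤ B) :
    ∑ e ∈ A, evL S a s (J e) L z x ^ 2 ≤ tot L ^ 2 * B := by
  have h1 : ∑ e ∈ A, evL S a s (J e) L z x ^ 2 ≤ tot L * ∑ i : Fin L.length, L[i.1].r *
      ∑ e ∈ A, ev S a s (J e) L[i.1].M z x ^ 2 := by
    refine (Finset.sum_le_sum fun e _ => evL_sq_le L z x).trans (le_of_eq ?_)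
    rw [← Finset.mul_sum]
    congr 1
    simp only [Finset.mul_sum]
    exact Finset.sum_comm
  refine h1.trans ?_
  have h2 : ∑ i : Fin L.length, L[i.1].r * ∑ e ∈ A, ev S a s (J e) L[i.1].M z x ^ 2 ≤
      tot L * B := by
    rw [tot_get, Finset.sum_mul]
    exact Finset.sum_le_sum fun i _ =>
      mul_le_mul_of_nonneg_left (h _ (List.getElem_mem i.2)) L[i.1].hr
  calc _ ≤ tot L * (tot L * B) := mul_le_mul_of_nonneg_left h2 (tot_nonneg L)
    _ = _ := by ring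

/-- the gradient of the log-density -/
lemma sum_VLD_sq (hS : S.Reg) (hm : Mm S) {l : ℕ} (hl : l ≤ S.K) {v : ℝ}
    (hv : ∀ x, ∑ e ∈ A, a x e ^ 2 ≤ v) (z : ι → ℝ) :
    ∑ e ∈ A, VLD S (fun e _ x => a x e) l e z ^ 2 ≤ 4 * (S.m l ^ 2 * v) := by
  set x0 := Classical.arbitrary X
  have hv0 : 0 ≤ v := (Finset.sum_nonneg fun e _ => sq_nonneg _).trans (hv x0)
  have h1 := sum_evL_sq (S := S) (a := a) (s := fun _ => 0) (A := A) (uL S l 0) (fun e _ => e) z x0
    (B := v) (fun t ht => by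
      obtain ⟨i, hi, h1, _⟩ := mem_uL ht
      rw [h1]
      have hi' := hi.trans hl
      have h2 : ∀ e, ev S a (fun _ => 0) (fun _ => e) (Mo.T i (Mo.D 0)) z x0 ^ 2 ≤
          S.T i (fun _ x => a x e ^ 2) z := fun e => hS.sq_T_le hi' (Nh.snd fun x => a x e) z
      refine (Finset.sum_le_sum fun e _ => h2 e).trans ?_
      rw [← hS.T_sum hi' A (f := fun e _ x => a x e ^ 2) (fun e _ => Nh.snd fun x => a x e ^ 2),
        ← hS.T_const hi' v z]
      exact hS.T_mono hi' (Nh.snd fun x => ∑ e ∈ A, a x e ^ 2) (fun _ => EG.const _)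
        (fun _ x => hv x) z)
  simp only [evL_uL] at h1
  have h2 : tot (uL S l 0) ^ 2 ≤ S.m l ^ 2 :=
    pow_le_pow_left₀ (tot_nonneg _) (tot_uL' hm hl 0) 2
  have h3 := mul_le_mul_of_nonneg_right h2 hv0
  have e1 : ∑ e ∈ A, VLD S (fun e _ x => a x e) l e z ^ 2 =
      4 * ∑ e ∈ A, (1 / 2 * VLD S (fun e _ x => a x e) l e z) ^ 2 := by
    rw [Finset.mul_sum]
    exact Finset.sum_congr rfl fun e _ => by ring
  rw [e1]
  linarith

/-- the derivative of the symbol in a coordinate of the row -/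
noncomputable def kd (S : Sy ι X) (a : X → ι → ℝ) (s : X → ℝ) (l : ℕ) (e0 : ι) (w : ℝ) (e : ι)
    (z : ι → ℝ) : ℝ :=
  (w ^ 3)⁻¹ * evL S a s (ix e0 e0 e0 e) (EL S l 4) z (Classical.arbitrary X)

lemma pd_kd (h : LinS S a c) {l : ℕ} (hl : l ≤ S.K) {e0 : ι} {w : ℝ}
    (hw : w ≠ 0) (ha : ∀ x, a x e0 = w * s x) (I : ℕ → ι) {e : ι} (he : S.lev e ≤ l) :
    PD e (kl S s I l 3) (kd S a s l e0 w e) := by
  have h1 := (pd_EL h s (ix e0 e0 e0 e) hl 3 he (Classical.arbitrary X)).const_mul (w ^ 3)⁻¹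
  have e1 : (fun z => (w ^ 3)⁻¹ * evL S a s (ix e0 e0 e0 e) (EL S l 3) z (Classical.arbitrary X)) =
      kl S s I l 3 := by
    funext z
    rw [EL_scale (a' := fun x _ => s x) (I' := I) (w := w) hl 3 (fun v hv x => by
      interval_cases v <;> exact ha x) z _]
    have hw' : w ^ 3 ≠ 0 := pow_ne_zero 3 hw
    unfold kl
    field_simp
  rw [e1] at h1
  exact h1

lemma eg_kd (hS : S.Reg) {l : ℕ} (hl : l ≤ S.K) (e0 : ι) (w : ℝ) (e : ι) :
    EG (kd S a s l e0 w e) := ((gd_EL hl 4).eg hS _).const_mul _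

lemma sum_kd_sq (hS : S.Reg) (hm : Mm S) (hm1 : S.m S.K ≤ 1) (hs : ∀ x, |s x| ≤ 1) {l : ℕ}
    (hl : l ≤ S.K) {e0 : ι} {w : ℝ} (hw : w ≠ 0) (ha : ∀ x, a x e0 = w * s x) (z : ι → ℝ) :
    ∑ e ∈ A, kd S a s l e0 w e z ^ 2 ≤ 6144 ^ 2 * pp S l z (fun x y => |CC A a x y|) := by
  have h1 := sum_evL_sq (S := S) (a := a) (s := s) (A := A) (EL S l 4) (fun e => ix e0 e0 e0 e) z
    (Classical.arbitrary X) (fun t ht => sq1_le hS hs hl ((gd_EL hl 4).cm ht)
      (cl_EL hl 4 3 t ht) ha z _)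
  have h2 : tot (EL S l 4) ^ 2 ≤ 6144 ^ 2 := by
    have h3 : cE 4 = 6144 := by norm_num [cE]
    rw [← h3]
    exact pow_le_pow_left₀ (tot_nonneg _) (tot_EL hm hm1 hl 4) 2
  have hP : 0 ≤ pp S l z (fun x y => |CC A a x y|) :=
    H877x.pp_nonneg hS hl z fun _ _ => abs_nonneg _
  have h4 := h1.trans (mul_le_mul_of_nonneg_right h2 (by positivity))
  have e1 : ∑ e ∈ A, kd S a s l e0 w e z ^ 2 = (w ^ 6)⁻¹ *
      ∑ e ∈ A, evL S a s (ix e0 e0 e0 e) (EL S l 4) z (Classical.arbitrary X) ^ 2 := by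
    rw [Finset.mul_sum]
    refine Finset.sum_congr rfl fun e _ => ?_
    unfold kd
    field_simp
  rw [e1]
  have hw6 : 0 < w ^ 6 := by positivity
  refine (mul_le_mul_of_nonneg_left h4 (inv_nonneg.2 hw6.le)).trans (le_of_eq ?_)
  field_simp

lemma dep_PA {l : ℕ} {f : (ι → ℝ) → ℝ} (hf : Dep S.lev l f) : Dep S.lev l (PA A f) := by
  intro z u
  unfold PA J
  refine integral_congr_ae (Filter.Eventually.of_forall fun y => ?_)
  refine H985.Dep.congr hf fun e he => ?_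
  unfold mix
  rw [if_pos he]

lemma abs_PA_le {f : (ι → ℝ) → ℝ} (hf : EG f) {B : ℝ} (h : ∀ z, |f z| ≤ B) (z : ι → ℝ) :
    |PA A f z| ≤ B := by
  rw [abs_le]
  constructor
  · have h1 := J_mono (lev := lvA A) (l := 0) (EG.const (-B)) hf (fun z => (abs_le.1 (h z)).1) z
    rwa [J_const] at h1
  · have h1 := J_mono (lev := lvA A) (l := 0) hf (EG.const B) (fun z => (abs_le.1 (h z)).2) z
    rwa [J_const] at h1

/-- **A bounded function with a small gradient in the row is close to its mean over the row.** -/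
theorem near_PA {D : ι → (ι → ℝ) → X → ℝ} (hS : S.RegD D) {l : ℕ} (hl : l ≤ S.K)
    (hA : ∀ e ∈ A, S.lev e ≤ l) {f : (ι → ℝ) → ℝ} {f' : ι → (ι → ℝ) → ℝ} (hf : EG f)
    (hdf : Dep S.lev l f) (hfd : ∀ e ∈ A, PD e f (f' e)) (hf' : ∀ e ∈ A, EG (f' e)) {B G V : ℝ}
    (hB : ∀ z, |f z| ≤ B) (hG : S.Ex (fun z _ => ∑ e ∈ A, f' e z ^ 2) ≤ G)
    (hV : ∀ z, ∑ e ∈ A, VLD S D l e z ^ 2 ≤ V) :
    S.Ex (fun z _ => (f z - PA A f z) ^ 2) ≤ 6 * G + 9 / 2 * (B ^ 2 * V) := by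
  have hR := hS.toReg
  set W : (ι → ℝ) → ℝ := fun z => Real.exp (VL S l z / 2) with hW
  have eW : EG W := eg_expV hR hl
  have eVD : ∀ e, EG (VLD S D l e) := VLD_eg hS hl
  have B0 : 0 ≤ B := (abs_nonneg _).trans (hB 0)
  have hB2 : ∀ z, f z ^ 2 ≤ B ^ 2 := fun z => by
    rw [← sq_abs]; exact pow_le_pow_left₀ (abs_nonneg _) (hB z) 2
  -- the two influences
  have i1 := H877x.infl hS hl hA hf hdf hfd hf'
  have i0 := H877x.infl hS hl hA (f := fun _ => 1) (f' := fun _ _ => 0) (EG.const 1)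
    (fun _ _ => rfl) (fun e _ => PD.const 1) (fun e _ => EG.const 0)
  simp only [mul_one] at i0
  have sV : ∀ g : (ι → ℝ) → ℝ, EG g → ∀ C : ℝ, (∀ z, g z ^ 2 ≤ C) →
      ∑ e ∈ A, S.Ex (fun z _ => VLD S D l e z ^ 2 * g z ^ 2) ≤ C * V := by
    intro g hg C hC
    rw [← hR.Ex_sum A (f := fun e z (_ : X) => VLD S D l e z ^ 2 * g z ^ 2)
      fun e _ => Nh.fst (((eVD e).pow 2).mul (hg.pow 2))]
    refine H379.Row.Ex_le_const hR (Nh.sum _ fun e _ =>
      Nh.fst (((eVD e).pow 2).mul (hg.pow 2))) fun z _ => ?_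
    rw [← Finset.sum_mul, mul_comm C]
    have V0 : 0 ≤ ∑ e ∈ A, VLD S D l e z ^ 2 := Finset.sum_nonneg fun e _ => sq_nonneg _
    exact mul_le_mul (hV z) (hC z) (sq_nonneg _) (V0.trans (hV z))
  have j1 : ∫ z, (W z * f z - PA A (fun z => W z * f z) z) ^ 2 ∂(gI ι) ≤
      2 * G + 1 / 2 * (B ^ 2 * V) := by
    refine i1.trans ?_
    rw [Finset.sum_add_distrib, ← Finset.mul_sum, ← Finset.mul_sum,
      ← hR.Ex_sum A (f := fun e z (_ : X) => f' e z ^ 2) fun e he => Nh.fst ((hf' e he).pow 2)]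
    have := sV f hf (B ^ 2) hB2
    linarith
  have j0 : ∫ z, (W z - PA A W z) ^ 2 ∂(gI ι) ≤ 1 / 2 * V := by
    refine i0.trans ?_
    have := sV (fun _ => 1) (EG.const 1) 1 (fun _ => by norm_num)
    simp only [one_pow, mul_one, one_mul] at this
    simp only [ne_eq, OfNat.ofNat_ne_zero, not_false_eq_true, zero_pow, hR.Ex_const, mul_zero,
      zero_add, one_pow, mul_one]
    rw [← Finset.mul_sum]
    linarith
  have eP : EG (PA A W) := H379.Row.PA.eg eW A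
  have ePf : EG (PA A f) := H379.Row.PA.eg hf A
  have eU : EG fun z => (W z - PA A W z) ^ 2 := (eW.sub eP).pow 2
  -- the pointwise decomposition
  have pt : ∀ z, (W z * (f z - PA A f z)) ^ 2 ≤
      3 * (W z * f z - PA A (fun z => W z * f z) z) ^ 2 +
      3 * B ^ 2 * PA A (fun z => (W z - PA A W z) ^ 2) z + 3 * B ^ 2 * (W z - PA A W z) ^ 2 := by
    intro z
    have e1 : PA A (fun z => W z * f z) z - PA A W z * PA A f z =
        PA A (fun z => (W z - PA A W z) * f z) z := by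
      have e2 : (fun z => (W z - PA A W z) * f z) = fun z => W z * f z - PA A W z * f z := by
        funext z; ring
      rw [e2, H379.Row.PA.sub (eW.mul hf) (eP.mul hf), H379.Row.PA.mul (H379.Row.PA.dep A W)]
    have h2 : PA A (fun z => (W z - PA A W z) * f z) z ^ 2 ≤
        B ^ 2 * PA A (fun z => (W z - PA A W z) ^ 2) z := by
      refine (cc_sq_J_le ((eW.sub eP).mul hf) z).trans ?_
      show J (lvA A) 0 (fun z => ((W z - PA A W z) * f z) ^ 2) z ≤
        B ^ 2 * J (lvA A) 0 (fun z => (W z - PA A W z) ^ 2) z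
      rw [← J_const_mul]
      refine J_mono (((eW.sub eP).mul hf).pow 2) (eU.const_mul _) (fun y => ?_) z
      rw [mul_pow, mul_comm]
      exact mul_le_mul_of_nonneg_right (hB2 y) (sq_nonneg _)
    have h3 : ((PA A W z - W z) * PA A f z) ^ 2 ≤ B ^ 2 * (W z - PA A W z) ^ 2 := by
      have h4 : PA A f z ^ 2 ≤ B ^ 2 := by
        rw [← sq_abs]; exact pow_le_pow_left₀ (abs_nonneg _) (abs_PA_le hf hB z) 2
      rw [mul_pow, mul_comm]
      have e3 : (PA A W z - W z) ^ 2 = (W z - PA A W z) ^ 2 := by ring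
      rw [e3]
      exact mul_le_mul_of_nonneg_right h4 (sq_nonneg _)
    rw [← e1] at h2
    set p := W z * f z - PA A (fun z => W z * f z) z
    set q := PA A (fun z => W z * f z) z - PA A W z * PA A f z with hq
    set r := (PA A W z - W z) * PA A f z with hr
    have e4 : W z * (f z - PA A f z) = p + q + r := by
      simp only [p, hq, hr]
      ring
    rw [e4]
    nlinarith [sq_nonneg (p - q), sq_nonneg (p - r), sq_nonneg (q - r)]
  rw [← int_expV_sq hR hl (hf.sub ePf) (fun z u => by rw [hdf z u, dep_PA hdf z u])]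
  have e5 : EG fun z => (W z * f z - PA A (fun z => W z * f z) z) ^ 2 :=
    ((eW.mul hf).sub (H379.Row.PA.eg (eW.mul hf) A)).pow 2
  have e6 : EG (PA A fun z => (W z - PA A W z) ^ 2) := H379.Row.PA.eg eU A
  refine (integral_mono ((eW.mul (hf.sub ePf)).pow 2).integrable
    (((e5.const_mul 3).add (e6.const_mul (3 * B ^ 2))).add (eU.const_mul (3 * B ^ 2))).integrable
    pt).trans ?_
  rw [integral_add ((e5.const_mul 3).add (e6.const_mul (3 * B ^ 2))).integrable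
    (eU.const_mul (3 * B ^ 2)).integrable, integral_add (e5.const_mul 3).integrable
    (e6.const_mul (3 * B ^ 2)).integrable, integral_const_mul, integral_const_mul,
    integral_const_mul, H379.Row.PA.integral eU]
  have k0 := mul_le_mul_of_nonneg_left j0 (show 0 ≤ 3 * B ^ 2 by positivity)
  linarith

/-- **The symbol is close to its mean over the row.** -/
theorem kl_near (h : LinS S a c) (hm : Mm S) (hm1 : S.m S.K ≤ 1) (hs : ∀ x, |s x| ≤ 1) {l : ℕ}
    (hl : l ≤ S.K) (hA : ∀ e ∈ A, S.lev e ≤ l) {e0 : ι} {w : ℝ} (hw : w ≠ 0)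
    (ha : ∀ x, a x e0 = w * s x) (I : ℕ → ι) {v γ : ℝ} (hv : ∀ x, ∑ e ∈ A, a x e ^ 2 ≤ v)
    (hγ : S.pairEx l (fun x y => |CC A a x y|) ≤ γ) :
    S.Ex (fun z _ => (kl S s I l 3 z - PA A (kl S s I l 3) z) ^ 2) ≤
      6 * (6144 ^ 2 * γ) + 9 / 2 * (384 ^ 2 * (4 * (S.m l ^ 2 * v))) := by
  have hS := h.reg
  refine near_PA (regD h) hl hA (eg_kl hS hl s I 3) (dep_kl hl s I 3)
    (f' := kd S a s l e0 w) (fun e he => pd_kd h hl hw ha I (hA e he))
    (fun e _ => eg_kd hS hl e0 w e) (fun z => ?_) ?_ (sum_VLD_sq hS hm hl hv)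
  · have h2 := abs_kl_le (I := I) hS hm hm1 hs hl 3 z
    have h3 : cE 3 = 384 := by norm_num [cE]
    rwa [h3] at h2
  · refine (hS.Ex_mono (Nh.fst (EG.sum _ fun e _ => (eg_kd hS hl e0 w e).pow 2))
      (Nh.const_mul _ (Nh.fst (hS.nh_pair hl fun x y => |CC A a x y|)))
      fun z _ => sum_kd_sq hS hm hm1 hs hl hw ha z).trans ?_
    rw [Ex_const_mul]
    exact mul_le_mul_of_nonneg_left hγ (by positivity)

end Vale.Agent.N146.Cut
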