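import Vale.Agent.N146.CutB
import Vale.Agent.P146.H826.Kab

/-!
# P146 (c), package ID1, part C: frozen systems, the cavity system, comparisons
-/

open MeasureTheory ProbabilityTheory

namespace Vale.Agent.N146.Cut

open Vale.Agent.P157 Vale.Agent.P157.Lv Vale.Agent.P157.Lv.Sy
open Vale.Agent.P146 Vale.Agent.P146.H425 Vale.Agent.P146.H93 Vale.Agent.P146.H985
open Vale.Agent.P146.H946 Vale.Agent.P146.H508
open Vale.Agent.P146.H784 Vale.Agent.P146.R3.H501.Tr
open Vale.Agent.P146.H379.Row (PA)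

set_option linter.unusedSectionVars false

variable {ι X : Type} [Fintype ι] [DecidableEq ι] [Fintype X] [Nonempty X] [DecidableEq X]
  {S : Sy ι X} {l j : ℕ}

/-! ### Frozen systems -/

/-- the levels at most `l` are put at the level `0` -/
def lz (lev : ι → ℕ) (l : ℕ) (e : ι) : ℕ := if lev e ≤ l then 0 else lev e

lemma lz_hi {lev : ι → ℕ} (hj : l ≤ j) (e : ι) : lz lev l e ≤ j ↔ lev e ≤ j := by
  unfold lz
  split_ifs with h
  · exact ⟨fun _ => h.trans hj, fun _ => Nat.zero_le _⟩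
  · exact Iff.rfl

lemma lz_lo {lev : ι → ℕ} (hj : j ≤ l) (e : ι) : lz lev l e ≤ j ↔ lev e ≤ l := by
  unfold lz
  split_ifs with h
  · exact ⟨fun _ => h, fun _ => Nat.zero_le _⟩
  · exact ⟨fun h' => h'.trans hj, fun h' => absurd h' h⟩

lemma mix_lz_hi {lev : ι → ℕ} (hj : l ≤ j) (z w : ι → ℝ) :
    mix (lz lev l) j z w = mix lev j z w := by
  funext e
  unfold mix
  simp only [lz_hi hj]

lemma mix_lz_lo {lev : ι → ℕ} (hj : j ≤ l) (z w : ι → ℝ) :
    mix (lz lev l) j z w = mix lev l z w := by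
  funext e
  unfold mix
  simp only [lz_lo hj]

/-- a map which acts only on the levels at most `l` -/
structure Lo (lev : ι → ℕ) (l : ℕ) (Φ : (ι → ℝ) → ι → ℝ) : Prop where
  mx : ∀ j, l ≤ j → ∀ z w, Φ (mix lev j z w) = mix lev j (Φ z) w
  co : ∀ y y' e, |Φ y e - Φ y' e| ≤ |y e - y' e|

variable {Φ : (ι → ℝ) → ι → ℝ}

lemma Lo.norm {lev : ι → ℕ} (h : Lo lev l Φ) (y y' : ι → ℝ) : ‖Φ y - Φ y'‖ ≤ ‖y - y'‖ := by
  rw [pi_norm_le_iff_of_nonneg (norm_nonneg _)]
  intro e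
  exact (h.co y y' e).trans (norm_le_pi_norm (y - y') e)

lemma Lo.lip {lev : ι → ℕ} (h : Lo lev l Φ) {F : (ι → ℝ) → ℝ} (hF : Lip F) :
    Lip fun z => F (Φ z) := by
  obtain ⟨L, hL, h1⟩ := hF
  exact ⟨L, hL, fun y y' => (h1 _ _).trans (mul_le_mul_of_nonneg_left (h.norm y y') hL)⟩

lemma Lo.meas {lev : ι → ℕ} (h : Lo lev l Φ) : Measurable Φ := by
  have h1 : LipschitzWith 1 Φ := LipschitzWith.of_dist_le_mul fun y y' => by
    rw [dist_eq_norm, dist_eq_norm, NNReal.coe_one, one_mul]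
    exact h.norm y y'
  exact h1.continuous.measurable

lemma Lo.eg {lev : ι → ℕ} (h : Lo lev l Φ) {F : (ι → ℝ) → ℝ} (hF : EG F) :
    EG fun z => F (Φ z) := by
  obtain ⟨C, a, hC, ha, hb⟩ := hF.bdd
  refine ⟨hF.meas.comp h.meas, C * Real.exp (a * ‖Φ 0‖), a, by positivity, ha, fun y => ?_⟩
  refine (hb _).trans ?_
  rw [mul_assoc, ← Real.exp_add, ← mul_add]
  have h1 : ‖Φ y‖ ≤ ‖Φ 0‖ + ‖y‖ := by
    have h2 := h.norm y 0
    rw [sub_zero] at h2
    have h3 := norm_add_le (Φ 0) (Φ y - Φ 0)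
    rw [add_sub_cancel] at h3
    linarith
  gcongr

lemma Lo.J_hi {lev : ι → ℕ} (h : Lo lev l Φ) (hj : l ≤ j) (G : (ι → ℝ) → ℝ) (z : ι → ℝ) :
    J (lz lev l) j (fun z => G (Φ z)) z = J lev j G (Φ z) := by
  unfold J
  simp only [mix_lz_hi hj, h.mx j hj]

lemma Lo.J_lo {lev : ι → ℕ} (h : Lo lev l Φ) (hj : j ≤ l) (G : (ι → ℝ) → ℝ) (z : ι → ℝ) :
    J (lz lev l) j (fun z => G (Φ z)) z = J lev l G (Φ z) := by
  unfold J
  simp only [mix_lz_lo hj, h.mx l le_rfl]

/-- **The frozen system.** -/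
noncomputable def Fz (S : Sy ι X) (l : ℕ) (Φ : (ι → ℝ) → ι → ℝ) : Sy ι X :=
  ⟨lz S.lev l, S.K, S.m, fun z x => S.H (Φ z) x⟩

lemma Fz_reg (hS : S.Reg) (h : Lo S.lev l Φ) : (Fz S l Φ).Reg where
  m0 := hS.m0
  mK := hS.mK
  mono := hS.mono
  pos := hS.pos
  lev := fun e => by
    show lz S.lev l e ≤ S.K
    unfold lz
    split_ifs
    · exact Nat.zero_le _
    · exact hS.lev e
  lip := fun x => h.lip (hS.lip x)

lemma Fz_lg_hi (h : Lo S.lev l Φ) (hj : j ≤ S.K) (hlj : l ≤ j) (z : ι → ℝ) :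
    (Fz S l Φ).lg j z = S.lg j (Φ z) := by
  have key : ∀ j ≤ S.K, l ≤ j → ∀ z, (Fz S l Φ).lg j z = S.lg j (Φ z) := by
    refine down_ind (P := fun j => l ≤ j → ∀ z, (Fz S l Φ).lg j z = S.lg j (Φ z)) ?_ ?_
    · intro _ z
      have h1 : (Fz S l Φ).lg S.K = (Fz S l Φ).top := lg_top (Fz S l Φ)
      rw [h1, lg_top S]
      rfl
    · intro j hj ih hlj z
      rw [lg_step S hj, lg_step (Fz S l Φ) (show j < (Fz S l Φ).K from hj)]
      unfold stp
      have e1 : (fun z => Real.exp ((Fz S l Φ).m (j + 1) * (Fz S l Φ).lg (j + 1) z)) =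
          fun z => (fun u => Real.exp (S.m (j + 1) * S.lg (j + 1) u)) (Φ z) := by
        funext y
        show Real.exp (S.m (j + 1) * (Fz S l Φ).lg (j + 1) y) = _
        rw [ih (by omega) y]
      rw [e1]
      have e2 : (Fz S l Φ).lev = lz S.lev l := rfl
      rw [e2, h.J_hi hlj (fun u => Real.exp (S.m (j + 1) * S.lg (j + 1) u))]
      rfl
  exact key j hj hlj z

lemma Fz_lg_lo (hS : S.Reg) (h : Lo S.lev l Φ) (hl : l ≤ S.K) (hj : j ≤ l) (z : ι → ℝ) :
    (Fz S l Φ).lg j z = S.lg l (Φ z) := by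
  have key : ∀ j ≤ l, ∀ z, (Fz S l Φ).lg j z = S.lg l (Φ z) := by
    refine down_ind (P := fun j => ∀ z, (Fz S l Φ).lg j z = S.lg l (Φ z)) ?_ ?_
    · exact fun z => Fz_lg_hi h hl le_rfl z
    · intro j hj ih z
      have hm0 : 0 < S.m (j + 1) := hS.m_pos (by omega) (by omega)
      rw [lg_step (Fz S l Φ) (show j < (Fz S l Φ).K from lt_of_lt_of_le hj hl)]
      unfold stp
      have e1 : (fun z => Real.exp ((Fz S l Φ).m (j + 1) * (Fz S l Φ).lg (j + 1) z)) =
          fun z => (fun u => Real.exp (S.m (j + 1) * S.lg l u)) (Φ z) := by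
        funext y
        show Real.exp (S.m (j + 1) * (Fz S l Φ).lg (j + 1) y) = _
        rw [ih y]
      rw [e1]
      have e2 : (Fz S l Φ).lev = lz S.lev l := rfl
      have d1 : Dep S.lev l fun u => Real.exp (S.m (j + 1) * S.lg l u) := fun u w => by
        simp only [hS.dep_lg hl u w]
      rw [e2, h.J_lo hj.le (fun u => Real.exp (S.m (j + 1) * S.lg l u)), d1.J_eq, Real.log_exp]
      show 1 / S.m (j + 1) * (S.m (j + 1) * S.lg l (Φ z)) = _
      field_simp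
  exact key j hj z

lemma Fz_fe (hS : S.Reg) (h : Lo S.lev l Φ) (hl : l ≤ S.K) :
    (Fz S l Φ).fe = ∫ z, S.lg l (Φ z) ∂(gI ι) := by
  unfold fe
  simp only [Fz_lg_lo hS h hl (Nat.zero_le l)]

lemma Fz_dn_hi (h : Lo S.lev l Φ) (hlj : l ≤ j) (z : ι → ℝ) :
    (Fz S l Φ).dn j z = S.dn j (Φ z) := by
  unfold dn
  congr 1
  refine Finset.sum_congr rfl fun i hi => ?_
  obtain ⟨hi1, hi2⟩ := Finset.mem_Ico.1 hi
  have hi3 : i < S.K := hi2
  rw [Fz_lg_hi h (show i + 1 ≤ S.K from hi3) (by omega), Fz_lg_hi h hi3.le (by omega)]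
  rfl

lemma Fz_dn_zero (hS : S.Reg) (h : Lo S.lev l Φ) (hl : l ≤ S.K) (z : ι → ℝ) :
    (Fz S l Φ).dn 0 z = S.dn l (Φ z) := by
  rw [dn_zero_eq (S := Fz S l Φ) (l := l) hl, Fz_dn_hi h le_rfl]
  have e1 : VL (Fz S l Φ) l z = 0 := by
    unfold VL
    refine Finset.sum_eq_zero fun i hi => ?_
    obtain ⟨_, hi2⟩ := Finset.mem_Ico.1 hi
    rw [Fz_lg_lo hS h hl (show i + 1 ≤ l from hi2), Fz_lg_lo hS h hl hi2.le, sub_self, mul_zero]
  rw [e1, Real.exp_zero, one_mul]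

lemma Fz_T_hi (h : Lo S.lev l Φ) (hlj : l ≤ j) (F : (ι → ℝ) → X → ℝ) (z : ι → ℝ) :
    (Fz S l Φ).T j (fun z x => F (Φ z) x) z = S.T j F (Φ z) := by
  unfold T
  have e1 : (fun z => (Fz S l Φ).dn j z * (Fz S l Φ).av (fun z x => F (Φ z) x) z) =
      fun z => (fun u => S.dn j u * S.av F u) (Φ z) := by
    funext y
    rw [Fz_dn_hi h hlj]
    rfl
  rw [e1]
  exact h.J_hi hlj (fun u => S.dn j u * S.av F u) z

lemma Fz_Ex (hS : S.Reg) (h : Lo S.lev l Φ) (hl : l ≤ S.K) {F : (ι → ℝ) → X → ℝ} (hF : Nh F) :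
    (Fz S l Φ).Ex (fun z x => F (Φ z) x) = ∫ z, S.T l F (Φ z) ∂(gI ι) := by
  unfold Ex
  have e1 : (fun z => (Fz S l Φ).dn 0 z * (Fz S l Φ).av (fun z x => F (Φ z) x) z) =
      fun z => (fun u => S.dn l u * S.av F u) (Φ z) := by
    funext y
    rw [Fz_dn_zero hS h hl]
    rfl
  rw [e1, ← integral_J (h.eg ((hS.eg_dn hl).mul (hS.eg_av hF))) (lev := lz S.lev l) (l := 0)]
  congr 1
  funext z
  exact h.J_lo (Nat.zero_le l) (fun u => S.dn l u * S.av F u) z

lemma Fz_pairEx (hS : S.Reg) (h : Lo S.lev l Φ) (hlj : l ≤ j) (hj : j ≤ S.K) (ψ : X → X → ℝ) :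
    (Fz S l Φ).pairEx j ψ = ∫ z, S.T l (fun z _ => pp S j z ψ) (Φ z) ∂(gI ι) := by
  rw [← Fz_Ex hS h (hlj.trans hj) (F := fun z _ => pp S j z ψ) (Nh.fst (hS.nh_pair hj ψ))]
  unfold pairEx
  congr 1
  funext z _
  have e1 : ∀ x, (Fz S l Φ).pr j z x = S.pr j (Φ z) x := fun x =>
    Fz_T_hi h hlj (fun _ y => if y = x then 1 else 0) z
  simp only [e1]
  rfl

lemma lo_mix (lev : ι → ℕ) (l : ℕ) (z0 : ι → ℝ) : Lo lev l (fun z => mix lev l z0 z) where
  mx := fun j hj z w => (mix_assoc hj z0 z w).symm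
  co := fun y y' e => by
    unfold mix
    split_ifs
    · rw [sub_self, abs_zero]; exact abs_nonneg _
    · exact le_rfl

/-! ### Functions which do not depend on a set of coordinates -/

lemma ind_T {B : ι → Prop} (h : ∀ x, Ind B fun z => S.H z x) {F : (ι → ℝ) → X → ℝ}
    (hF : ∀ x, Ind B fun z => F z x) (j : ℕ) : Ind B (S.T j F) := by
  refine Ind.J (f := fun z => S.dn j z * S.av F z) ?_ S.lev j
  intro z w hzw
  have e1 : S.dn j z = S.dn j w := by
    unfold dn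
    congr 1
    refine Finset.sum_congr rfl fun i hi => ?_
    obtain ⟨_, hi2⟩ := Finset.mem_Ico.1 hi
    rw [ind_lg h (show i + 1 ≤ S.K by omega) z w hzw, ind_lg h (show i ≤ S.K by omega) z w hzw]
  have e2 : S.av F z = S.av F w := by
    unfold Sy.av
    refine Finset.sum_congr rfl fun x _ => ?_
    have h1 : S.gb z x = S.gb w x := ind_gb h x z w hzw
    have h2 : F z x = F w x := hF x z w hzw
    rw [h1, h2]
  show S.dn j z * S.av F z = S.dn j w * S.av F w
  rw [e1, e2]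

lemma ind_pp {B : ι → Prop} (h : ∀ x, Ind B fun z => S.H z x) (j : ℕ) (ψ : X → X → ℝ) :
    Ind B fun z => pp S j z ψ := by
  intro z w hzw
  have e1 : ∀ x, S.pr j z x = S.pr j w x := fun x =>
    ind_T h (F := fun _ y => if y = x then 1 else 0) (fun _ _ _ _ => rfl) j z w hzw
  show pp S j z ψ = pp S j w ψ
  unfold pp
  simp only [e1]

/-! ### The row and the cavity system -/

/-- the row `R` of the spin `s`, with the flip `τ` -/
structure Rw (S : Sy ι X) (a : X → ι → ℝ) (c s : X → ℝ) (R : Finset ι) (ψ : X → ι → ℝ)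
    (τ : X ≃ X) (v0 : ℝ) : Prop where
  ls : LinS S a c
  sq : ∀ x, s x ^ 2 = 1
  odd : ∀ x, s (τ x) = -s x
  row : ∀ x, ∀ e ∈ R, a x e = s x * ψ x e
  ev : ∀ x, ∀ e ∈ R, ψ (τ x) e = ψ x e
  off : ∀ x e, e ∉ R → a (τ x) e = a x e
  cst : ∀ x, c (τ x) = c x
  var : ∀ x, ∑ e ∈ R, ψ x e ^ 2 = v0

/-- the coefficients without the row -/
def ac (a : X → ι → ℝ) (R : Finset ι) (x : X) (e : ι) : ℝ := if e ∈ R then 0 else a x e

/-- the coefficients of the row -/
def al (ψ : X → ι → ℝ) (R : Finset ι) (x : X) (e : ι) : ℝ := if e ∈ R then ψ x e else 0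

/-- **The cavity system.** -/
noncomputable def Sc (S : Sy ι X) (a : X → ι → ℝ) (c : X → ℝ) (R : Finset ι) : Sy ι X :=
  S.wH fun z x => c x + ∑ e, ac a R x e * z e

variable {a : X → ι → ℝ} {c s : X → ℝ} {R : Finset ι} {ψ : X → ι → ℝ} {τ : X ≃ X} {v0 : ℝ}

lemma Sc_lin (hS : S.Reg) : LinS (Sc S a c R) (ac a R) c where
  reg :=
    { m0 := hS.m0
      mK := hS.mK
      mono := hS.mono
      pos := hS.pos
      lev := hS.lev
      lip := fun x => (Lip.const (c x)).add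
        (Lip.sum _ fun e _ => (Lip.coord e).const_mul _) }
  H := fun _ _ => rfl

lemma Rw.abs (h : Rw S a c s R ψ τ v0) (x : X) : |s x| = 1 := H826.abs_one_of h.sq x

lemma Rw.H_eq (h : Rw S a c s R ψ τ v0) (z : ι → ℝ) (x : X) :
    S.H z x = (Sc S a c R).H z x + s x * ∑ e, al ψ R x e * z e := by
  rw [h.ls.H, (Sc_lin (a := a) (c := c) (R := R) h.ls.reg).H, add_assoc, Finset.mul_sum,
    ← Finset.sum_add_distrib]
  congr 1
  refine Finset.sum_congr rfl fun e _ => ?_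
  unfold ac al
  split_ifs with he
  · rw [h.row x e he]; ring
  · ring

lemma Rw.Sc_flip (h : Rw S a c s R ψ τ v0) (z : ι → ℝ) (x : X) :
    (Sc S a c R).H z (τ x) = (Sc S a c R).H z x := by
  show c (τ x) + ∑ e, ac a R (τ x) e * z e = c x + ∑ e, ac a R x e * z e
  rw [h.cst]
  congr 1
  refine Finset.sum_congr rfl fun e _ => ?_
  unfold ac
  split_ifs with he
  · rfl
  · rw [h.off x e he]

lemma Rw.al_flip (h : Rw S a c s R ψ τ v0) (x : X) (e : ι) : al ψ R (τ x) e = al ψ R x e := by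
  unfold al
  split_ifs with he
  · exact h.ev x e he
  · rfl

lemma Rw.al_sq (h : Rw S a c s R ψ τ v0) (x : X) : ∑ e, al ψ R x e ^ 2 = v0 := by
  rw [← h.var x, ← Finset.sum_subset (Finset.subset_univ R) fun e _ he => by simp [al, he]]
  exact Finset.sum_congr rfl fun e he => by simp [al, he]

lemma Rw.v0_nonneg (h : Rw S a c s R ψ τ v0) : 0 ≤ v0 := by
  rw [← h.var (Classical.arbitrary X)]
  exact Finset.sum_nonneg fun e _ => sq_nonneg _

/-- the sum over the spin of the row -/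
lemma Rw.sum_flip (h : Rw S a c s R ψ τ v0) {G Λ : X → ℝ} (hG : ∀ x, G (τ x) = G x)
    (hΛ : ∀ x, Λ (τ x) = Λ x) :
    ∑ x, Real.exp (G x) * (2 * Real.cosh (Λ x)) = 2 * ∑ x, Real.exp (G x + s x * Λ x) := by
  have h1 := Equiv.sum_comp τ (fun x => Real.exp (G x + s x * Λ x))
  simp only [hG, hΛ, h.odd] at h1
  rw [two_mul (∑ x, _)]
  nth_rw 1 [← h1]
  rw [← Finset.sum_add_distrib]
  refine Finset.sum_congr rfl fun x _ => ?_
  have hc : Real.cosh (Λ x) = Real.cosh (s x * Λ x) := by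
    rw [← Real.cosh_abs (s x * Λ x), abs_mul, h.abs, one_mul, Real.cosh_abs]
  rw [hc, Real.cosh_eq, Real.exp_add, Real.exp_add, neg_mul]
  ring

lemma Rw.top_le (h : Rw S a c s R ψ τ v0) (z : ι → ℝ) : (Sc S a c R).top z ≤ S.top z := by
  unfold top
  refine Real.log_le_log ((Sc S a c R).sum_exp_pos z) ?_
  have h1 := h.sum_flip (G := fun x => (Sc S a c R).H z x) (Λ := fun x => ∑ e, al ψ R x e * z e)
    (h.Sc_flip z) (fun x => by simp only [h.al_flip])
  simp only [← h.H_eq] at h1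
  have h2 : ∑ x, Real.exp ((Sc S a c R).H z x) * 2 ≤ ∑ x, Real.exp ((Sc S a c R).H z x) *
      (2 * Real.cosh (∑ e, al ψ R x e * z e)) :=
    Finset.sum_le_sum fun x _ => mul_le_mul_of_nonneg_left
      (by linarith [Real.one_le_cosh (∑ e, al ψ R x e * z e)]) (Real.exp_pos _).le
  rw [← Finset.sum_mul] at h2
  linarith

lemma ind_Sc (x : X) : Ind (fun e => e ∈ R) fun z => (Sc S a c R).H z x := by
  intro z w hzw
  show c x + ∑ e, ac a R x e * z e = c x + ∑ e, ac a R x e * w e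
  congr 1
  refine Finset.sum_congr rfl fun e _ => ?_
  unfold ac
  split_ifs with he
  · rw [zero_mul, zero_mul]
  · rw [hzw e he]

lemma Rw.b_sq (h : Rw S a c s R ψ τ v0) (x : X) : ∑ e, (s x * al ψ R x e) ^ 2 ≤ v0 := by
  rw [← h.al_sq x]
  exact le_of_eq (Finset.sum_congr rfl fun e _ => by rw [mul_pow, h.sq, one_mul])

/-- from the full system to the cavity system -/
theorem Rw.Ex_le (h : Rw S a c s R ψ τ v0) {φ : (ι → ℝ) → ℝ} (hφ : EG φ) (h0 : ∀ z, 0 ≤ φ z)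
    (hI : Ind (fun e => e ∈ R) φ) :
    S.Ex (fun z _ => φ z) ≤ Real.exp (v0 / 2) * (Sc S a c R).Ex (fun z _ => φ z) := by
  have hS := h.ls.reg
  have key := H826.Ex_le_of_top' (S := Sc S a c R) (H' := S.H) (Sc_lin hS).reg hS h.top_le
    (φ := fun z _ => φ z) (Nh.fst hφ) (fun z _ => h0 z) (B := fun e => e ∈ R)
    (b := fun x e => s x * al ψ R x e) (v := v0) (c := 0)
    (fun z x => by
      rw [h.H_eq z x, add_zero, add_sub_cancel_left, Finset.mul_sum]
      exact le_of_eq (Finset.sum_congr rfl fun e _ => by ring))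
    (fun x e he => by simp [al, he]) h.b_sq ind_Sc (fun _ => hI)
  rw [add_zero] at key
  exact key

/-- from the cavity system to the full system, pairs -/
theorem Rw.pair_le (h : Rw S a c s R ψ τ v0) (hj : j ≤ S.K) {f : X → X → ℝ}
    (h0 : ∀ x y, 0 ≤ f x y) :
    (Sc S a c R).pairEx j f ≤ Real.exp (2 * v0) * S.pairEx j f := by
  have hS := h.ls.reg
  have hC : (Sc S a c R).Reg := (Sc_lin hS).reg
  have hj' : j ≤ (Sc S a c R).K := hj
  rw [← dbl_Ex_pair hC hj' f, ← dbl_Ex_pair hS hj f]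
  have hD := dbl_reg hC hj'
  have hD' := dbl_reg hS hj
  have e1 : (dbl (Sc S a c R) j).wH (dbl S j).H = dbl S j := rfl
  obtain ⟨γ, hγ⟩ : ∃ γ : X → ι → ℝ, γ = fun x e => s x * al ψ R x e := ⟨_, rfl⟩
  have hlin : ∀ (x : X) (z : ι → ℝ), S.H z x = (Sc S a c R).H z x + lin (γ x) z := by
    intro x z
    rw [h.H_eq, hγ]
    unfold lin
    rw [Finset.mul_sum]
    congr 1
    exact Finset.sum_congr rfl fun e _ => by ring
  have hγ0 : ∀ x e, e ∉ R → γ x e = 0 := fun x e he => by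
    rw [hγ]
    simp [al, he]
  have key := Ex_le_add (S := dbl (Sc S a c R) j) (H' := (dbl S j).H)
    (B := fun e => Sum.elim (fun e => e ∈ R) (fun e => e ∈ R) e) (b := a2 S.lev j γ)
    (v := 4 * v0) hD hD' (φ := fun _ y => f y.1 y.2) (Nh.snd fun (y : X × X) => f y.1 y.2)
    (fun _ y => h0 _ _)
    (fun z y => by
      have h1 : (dbl S j).H z y - (dbl (Sc S a c R) j).H z y = lin (a2 S.lev j γ y) z := by
        rw [lin_a2]
        show S.H (z1 z) y.1 + S.H (z2 S.lev j z) y.2 -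
          ((Sc S a c R).H (z1 z) y.1 + (Sc S a c R).H (z2 S.lev j z) y.2) = _
        rw [hlin, hlin y.2]
        ring
      exact h1)
    (fun y e he => by
      unfold a2
      rcases e with e | e
      · simp only [Sum.elim_inl]
        have he' : e ∉ R := he
        rw [hγ0 _ _ he', hγ0 _ _ he']
        simp
      · simp only [Sum.elim_inr]
        have he' : e ∉ R := he
        rw [hγ0 _ _ he']
        simp)
    (fun y => a2_sq_le S.lev j (fun x => by rw [hγ]; exact h.b_sq x) y)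
    (fun y z w hzw => by
      show (Sc S a c R).H (z1 z) y.1 + (Sc S a c R).H (z2 S.lev j z) y.2 =
        (Sc S a c R).H (z1 w) y.1 + (Sc S a c R).H (z2 S.lev j w) y.2
      have h1 : (Sc S a c R).H (z1 z) y.1 = (Sc S a c R).H (z1 w) y.1 :=
        ind_Sc y.1 (z1 z) (z1 w) fun e he => hzw (Sum.inl e) he
      have h2 : (Sc S a c R).H (z2 S.lev j z) y.2 = (Sc S a c R).H (z2 S.lev j w) y.2 :=
        ind_Sc y.2 (z2 S.lev j z) (z2 S.lev j w) fun e he => by
          have h3 : z (Sum.inl e) = w (Sum.inl e) := hzw (Sum.inl e) he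
          have h4 : z (Sum.inr e) = w (Sum.inr e) := hzw (Sum.inr e) he
          unfold z2 mix
          simp only [h3, h4]
      rw [h1, h2])
    (fun y z w hzw => rfl)
  rw [e1] at key
  have e3 : 4 * v0 / 2 = 2 * v0 := by ring
  rw [e3] at key
  exact key

end Vale.Agent.N146.Cut
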