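import Vale.Agent.N146.CutC

/-!
# P146 (c), package ID1, part D: the cavity step, the symbol is the fourth derivative of the cascade
-/

open MeasureTheory ProbabilityTheory

namespace Vale.Agent.N146.Cut

open Vale.Agent.P157 Vale.Agent.P157.Lv Vale.Agent.P157.Lv.Sy
open Vale.Agent.P157.Par (Path cascade)
open Vale.Agent.P146 Vale.Agent.P146.H425 Vale.Agent.P146.H93 Vale.Agent.P146.H985
open Vale.Agent.P146.H946 Vale.Agent.P146.H508
open Vale.Agent.P146.H784 Vale.Agent.P146.R3.H501.Tr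
open Vale.Agent.P146.H826 (SR SQ SI ah Dk eK cr sgn Emb)
open Vale.Agent.P146.H379.Row (PA)

set_option linter.unusedSectionVars false

variable {ι X : Type} [Fintype ι] [DecidableEq ι] [Fintype X] [Nonempty X] [DecidableEq X]
  {S : Sy ι X} {l j : ℕ} {a : X → ι → ℝ} {c s : X → ℝ} {R : Finset ι} {ψ : X → ι → ℝ}
  {τ : X ≃ X} {v0 : ℝ}

/-- **the fourth derivative of the cascade** -/
noncomputable def kap (K : ℕ) (m r : ℕ → ℝ) : ℝ :=
  iteratedDeriv 4 (cascade m r K Vale.Agent.P146.Gap.lc) 0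

/-- the row up to the level `j` -/
def Rl' (S : Sy ι X) (R : Finset ι) (j : ℕ) : Finset ι := R.filter fun e => S.lev e ≤ j

lemma mem_Rl' {e : ι} : e ∈ Rl' S R j ↔ e ∈ R ∧ S.lev e ≤ j := Finset.mem_filter

/-- the frozen cavity system -/
noncomputable def S0 (S : Sy ι X) (a : X → ι → ℝ) (c : X → ℝ) (R : Finset ι) (l : ℕ)
    (z0 : ι → ℝ) : Sy ι X := Fz (Sc S a c R) l fun z => mix S.lev l z0 z

lemma S0_lin (hS : S.Reg) (z0 : ι → ℝ) : LinS (S0 S a c R l z0)
    (fun x e => if S.lev e ≤ l then 0 else ac a R x e)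
    (fun x => c x + ∑ e, (if S.lev e ≤ l then ac a R x e * z0 e else 0)) where
  reg := Fz_reg (Sc_lin hS).reg (lo_mix S.lev l z0)
  H := fun z x => by
    show c x + ∑ e, ac a R x e * mix S.lev l z0 z e = _
    rw [add_assoc, ← Finset.sum_add_distrib]
    congr 1
    refine Finset.sum_congr rfl fun e _ => ?_
    unfold mix
    split_ifs <;> ring

/-- the low coordinates outside the row are frozen, the coordinate `e0` is shifted -/
noncomputable def Ph (S : Sy ι X) (R : Finset ι) (l : ℕ) (z0 : ι → ℝ) (e0 : ι) (t : ℝ)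
    (u : ι → ℝ) (e : ι) : ℝ :=
  (if S.lev e ≤ l ∧ e ∉ R then z0 e else u e) + if e = e0 then t else 0

lemma lo_Ph (z0 : ι → ℝ) {e0 : ι} (he : S.lev e0 ≤ l) (t : ℝ) :
    Lo S.lev l (Ph S R l z0 e0 t) where
  mx := fun j hj z w => by
    funext e
    unfold Ph mix
    by_cases h1 : S.lev e ≤ j
    · simp only [h1, if_true]
    · have h2 : ¬ S.lev e ≤ l := fun h => h1 (h.trans hj)
      have h3 : e ≠ e0 := fun h => h2 (h ▸ he)
      simp only [h1, h2, h3, if_false, false_and, add_zero]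
  co := fun y y' e => by
    unfold Ph
    rw [add_sub_add_right_eq_sub]
    split_ifs
    · rw [sub_self, abs_zero]; exact abs_nonneg _
    · exact le_rfl

/-- the coordinates of the row are the second ones -/
def jj (R : Finset ι) (e : ι) : ι ⊕ ι := if e ∈ R then Sum.inr e else Sum.inl e

lemma jj_inj (R : Finset ι) : Function.Injective (jj R) := by
  intro e e' h
  unfold jj at h
  split_ifs at h
  · exact Sum.inr_injective h
  · exact Sum.inl_injective h

lemma lz_le (hS : S.Reg) (e : ι) : lz S.lev l e ≤ S.K := by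
  unfold lz
  split_ifs
  · exact Nat.zero_le _
  · exact hS.lev e

/-- the system with one more spin is the full system -/
lemma Rw.SR_fe (h : Rw S a c s R ψ τ v0) (hl : l ≤ S.K) {e0 : ι} (he0 : e0 ∈ R)
    (he : S.lev e0 ≤ l) {w : ℝ} (hw : w ≠ 0) (hψ : ∀ x, ψ x e0 = w) (z0 : ι → ℝ) (t : ℝ) :
    (SR (S0 S a c R l z0) (lz S.lev l) (al ψ R) (fun _ => 1) t).fe =
      PA (Rl' S R l) (fun z => S.lg l (sh e0 (t / w) z)) z0 + Real.log 2 := by
  have hS := h.ls.reg
  have hlo := lo_Ph (R := R) z0 he (t / w)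
  have key := H826.fe_emb (S := Fz S l (Ph S R l z0 e0 (t / w)))
    (S' := SR (S0 S a c R l z0) (lz S.lev l) (al ψ R) (fun _ => 1) t) (j := jj R)
    (c := Real.log 2) (Fz_reg hS hlo)
    { inj := jj_inj R
      lv := fun e => by
        show Sum.elim (lz S.lev l) (lz S.lev l) (jj R e) = lz S.lev l e
        unfold jj
        split_ifs <;> rfl
      le := by
        rintro (e | e)
        · exact lz_le hS e
        · exact lz_le hS e } rfl rfl (fun z => by
      set G : X → ℝ := fun x => (Sc S a c R).H (mix S.lev l z0 fun e => z (Sum.inl e)) x with hG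
      set Λ : X → ℝ := fun x => ∑ e, al ψ R x e * z (Sum.inr e) + t * 1 with hΛ
      have e1 : (SR (S0 S a c R l z0) (lz S.lev l) (al ψ R) (fun _ => 1) t).top z =
          Real.log (∑ x, Real.exp (G x) * (2 * Real.cosh (Λ x))) := by
        unfold top
        rw [Fintype.sum_prod_type]
        congr 1
        refine Finset.sum_congr rfl fun x _ => ?_
        rw [← H826.sum_sgn, Finset.mul_sum]
        refine Finset.sum_congr rfl fun b _ => ?_
        rw [← Real.exp_add]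
        rfl
      have e2 : ∀ x, S.H (Ph S R l z0 e0 (t / w) fun e => z (jj R e)) x = G x + s x * Λ x := by
        intro x
        rw [h.H_eq]
        congr 1
        · refine ind_Sc x _ _ fun e he' => ?_
          have h3 : e ≠ e0 := fun h => he' (h ▸ he0)
          unfold Ph mix jj
          simp only [he', h3, not_false_eq_true, and_true, if_false, add_zero]
        · congr 1
          have e3 : ∀ e, al ψ R x e * Ph S R l z0 e0 (t / w) (fun e => z (jj R e)) e =
              al ψ R x e * z (Sum.inr e) + if e = e0 then t else 0 := by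
            intro e
            unfold Ph jj al
            by_cases h1 : e ∈ R
            · simp only [h1, not_true_eq_false, and_false, if_true, if_false]
              by_cases h2 : e = e0
              · rw [if_pos h2, if_pos h2, h2, hψ]
                field_simp
              · rw [if_neg h2, if_neg h2]
                ring
            · have h3 : e ≠ e0 := fun h => h1 (h ▸ he0)
              simp only [h1, h3, if_false, zero_mul, add_zero]
          simp only [e3, hΛ]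
          rw [Finset.sum_add_distrib, Finset.sum_ite_eq' Finset.univ e0, if_pos (Finset.mem_univ _),
            mul_one]
      have e4 : (Fz S l (Ph S R l z0 e0 (t / w))).top (fun e => z (jj R e)) =
          Real.log (∑ x, Real.exp (G x + s x * Λ x)) := by
        unfold top
        congr 1
        refine Finset.sum_congr rfl fun x _ => ?_
        rw [← e2]
        rfl
      rw [e1, e4, h.sum_flip (G := G) (Λ := Λ) (fun x => h.Sc_flip _ x)
        (fun x => by simp only [hΛ, h.al_flip]), Real.log_mul (by norm_num)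
        (Finset.sum_pos (fun _ _ => Real.exp_pos _) Finset.univ_nonempty).ne', add_comm])
  rw [key, Fz_fe hS hlo hl]
  congr 1
  unfold PA J
  congr 1
  funext u
  refine H985.Dep.congr (hS.dep_lg hl) fun e hle => ?_
  unfold Ph sh mix lvA
  by_cases h2 : e = e0
  · have h3 : e0 ∈ Rl' S R l := mem_Rl'.2 ⟨he0, he⟩
    rw [h2, Function.update_self]
    simp [he0, h3]
  · rw [Function.update_of_ne h2]
    by_cases h1 : e ∈ R
    · have h3 : e ∈ Rl' S R l := mem_Rl'.2 ⟨h1, hle⟩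
      simp [h1, h2, h3]
    · have h3 : e ∉ Rl' S R l := fun h => h1 (mem_Rl'.1 h).1
      simp [h1, h2, h3, hle]

lemma lip_sh (e0 : ι) (t : ℝ) {F : (ι → ℝ) → ℝ} (hF : Lip F) : Lip fun z => F (sh e0 t z) := by
  obtain ⟨L, hL, h1⟩ := hF
  refine ⟨L, hL, fun y y' => (h1 _ _).trans (mul_le_mul_of_nonneg_left (le_of_eq ?_) hL)⟩
  congr 1
  funext e
  unfold sh
  by_cases h : e = e0
  · rw [h]
    simp
  · simp [Function.update_of_ne h]

lemma PA_d4 {A : Finset ι} {F : ℝ → (ι → ℝ) → ℝ} (hF : ∀ t, EG (F t)) {g : (ι → ℝ) → ℝ}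
    (hg : EG g) (δ k : ℝ) (z : ι → ℝ) :
    PA A (fun z => d4 (fun t => F t z) δ - k * g z) z =
      d4 (fun t => PA A (F t) z) δ - k * PA A g z := by
  unfold d4 PA
  have e1 := hF (2 * δ)
  have e2 := (hF δ).const_mul 4
  have e3 := (hF 0).const_mul 6
  have e4 := (hF (-δ)).const_mul 4
  have e5 := hF (-(2 * δ))
  rw [J_sub ((((e1.sub e2).add e3).sub e4).add e5) (hg.const_mul k),
    J_add (((e1.sub e2).add e3).sub e4) e5, J_sub ((e1.sub e2).add e3) e4, J_add (e1.sub e2) e3,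
    J_sub e1 e2, J_const_mul, J_const_mul, J_const_mul, J_const_mul]

/-- the fourth difference of a free energy -/
lemma fe_d4 {ι' X' : Type} [Fintype ι'] [DecidableEq ι'] [Fintype X'] [DecidableEq X']
    [Nonempty X'] {Q : Sy ι' X'} (hQ : Q.Reg) {f : X' → ℝ} (hf : ∀ x, |f x| ≤ 1) {δ : ℝ}
    (hδ : 0 ≤ δ) : |d4 (fun t => (ah Q f t).fe) δ -
      δ ^ 4 * iteratedDeriv 4 (fun t => (ah Q f t).fe) 0| ≤ 72 * 270 * δ ^ 5 := by
  rw [H826.it_fe hQ f 3]
  exact H826.diff4 (B := 270) (H826.hd_fe hQ f) (H826.hd_Dk 0 hQ f f) (H826.hd_Dk 1 hQ f f)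
    (H826.hd_Dk 2 hQ f f) (H826.hd_Dk 3 hQ f f) (fun t => by
      refine (H826.abs_Dk 4 hQ hf hf t).trans (le_of_eq ?_)
      simp only [H826.cD]
      norm_num) hδ

/-- the bound of the fourth derivative of the cascade -/
lemma abs_kap {D : ι → (ι → ℝ) → X → ℝ} (hS : S.RegD D) {r : ℕ → ℝ} (hr : Path S.K r)
    (h0 : r 0 = 0) : |kap S.K S.m r| ≤ 30 := by
  have hlr : ∀ i : ι, (fun _ : ι => 0) i ≤ S.K := fun _ => Nat.zero_le _
  have hs : ∀ y : X, (fun _ : X => (1 : ℝ)) y ^ 2 = 1 := fun _ => by norm_num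
  have hQ' : (SI S (fun _ : ι => 0) (fun _ _ => 0) (fun _ => 1) r 0 0).Reg :=
    H826.SI_reg hS.toReg hlr 0 0
  have hf : ∀ x : X × Bool, |sgn x.2 * (fun _ : X => (1 : ℝ)) x.1| ≤ 1 := by
    intro x
    rw [abs_mul, H826.abs_sgn, abs_one, one_mul]
  unfold kap
  rw [← H826.it_casc S.m r S.K (S.fe + Real.log 2) (cascade S.m r S.K Vale.Agent.P146.Gap.lc)]
  have e : (fun h => S.fe + Real.log 2 + cascade S.m r S.K Vale.Agent.P146.Gap.lc h) =
      fun h => (ah (SI S (fun _ : ι => 0) (fun _ _ => 0) (fun _ => 1) r 0 0)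
        (fun x => sgn x.2 * (fun _ : X => (1 : ℝ)) x.1) h).fe := by
    funext h
    rw [← H826.SI_ah, H826.end_tree hS hlr hr h0 hs]
  rw [e, H826.it_fe hQ']
  refine (H826.abs_Dk 3 hQ' hf hf 0).trans (le_of_eq ?_)
  simp only [H826.cD]
  norm_num

lemma mm_of (hS : S.Reg) : Mm S where
  m0 := hS.m0.ge
  mono := hS.mono

/-- **The cavity step at a point.** -/
theorem Rw.cav_pt (h : Rw S a c s R ψ τ v0) (hl : l ≤ S.K) {e0 : ι} (he0 : e0 ∈ R)
    (he : S.lev e0 ≤ l) {w : ℝ} (hw : w ≠ 0) (hψ : ∀ x, ψ x e0 = w) {r : ℕ → ℝ}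
    (hr : Path S.K r) (h0 : r 0 = 0) {b : ℝ} (hb : r S.K ≤ b ^ 2) (hv : v0 ≤ b ^ 2) {δ : ℝ}
    (hδ : 0 < δ) (hδ1 : δ ≤ 1 / 2) (I : ℕ → ι) (z0 : ι → ℝ) :
    |PA (Rl' S R l) (kl S s I l 3) z0 - kap S.K S.m r| ≤ 501000 * δ +
      16 * (Real.pi / 4 * (Real.exp (2 * b ^ 2 + 2) *
        eK (S0 S a c R l z0) (lz S.lev l) (al ψ R) (fun _ => 1) r)) / δ ^ 4 := by
  have hS := h.ls.reg
  have hm := mm_of hS
  have hm1 : S.m S.K ≤ 1 := hS.m_le_one (by omega)
  have hs1 : ∀ x, |s x| ≤ 1 := fun x => (h.abs x).le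
  have ha : ∀ x, a x e0 = w * s x := fun x => by rw [h.row x e0 he0, hψ, mul_comm]
  have hD := regD (S0_lin (a := a) (c := c) (R := R) (l := l) hS z0)
  have hlr : ∀ e, lz S.lev l e ≤ (S0 S a c R l z0).K := fun e => lz_le hS e
  have k1 := H826.kab_s (s := fun _ => 1) (b := b) (r := r) hD hlr hr h0 hb (fun _ => by norm_num)
    h.al_sq hv hδ hδ1
  have hQ : (SQ (S0 S a c R l z0) (lz S.lev l) (al ψ R)).Reg := H826.SR_reg hD.toReg hlr _ _ _
  have k2 := fe_d4 hQ (f := fun x => sgn x.2 * (fun _ : X => (1 : ℝ)) x.1) (fun x => by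
    rw [abs_mul, H826.abs_sgn, abs_one, one_mul]) hδ.le
  have e0' : (fun t => (ah (SQ (S0 S a c R l z0) (lz S.lev l) (al ψ R))
      (fun x => sgn x.2 * (fun _ : X => (1 : ℝ)) x.1) t).fe) =
      fun t => (SR (S0 S a c R l z0) (lz S.lev l) (al ψ R) (fun _ => 1) t).fe := by
    funext t
    rw [H826.SR_ah]
  rw [e0'] at k2
  have eF : ∀ t : ℝ, EG fun z => S.lg l (sh e0 (t / w) z) := fun t =>
    (lip_sh e0 (t / w) (hS.lip_lg hl)).eg
  have k3 := abs_PA_le (A := Rl' S R l)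
    (f := fun z => d4 (fun t => S.lg l (sh e0 (t / w) z)) δ - δ ^ 4 * kl S s I l 3 z)
    (by
      unfold d4
      exact (((((eF (2 * δ)).sub ((eF δ).const_mul 4)).add ((eF 0).const_mul 6)).sub
        ((eF (-δ)).const_mul 4)).add (eF (-(2 * δ)))).sub ((eg_kl hS hl s I 3).const_mul _))
    (fun z => kl_d4 h.ls hm hm1 hs1 hl he hw ha I hδ.le z) z0
  rw [PA_d4 (F := fun t z => S.lg l (sh e0 (t / w) z)) eF (eg_kl hS hl s I 3)] at k3
  have e1 : d4 (fun t => (SR (S0 S a c R l z0) (lz S.lev l) (al ψ R) (fun _ => 1) t).fe) δ =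
      d4 (fun t => PA (Rl' S R l) (fun z => S.lg l (sh e0 (t / w) z)) z0) δ := by
    unfold d4
    simp only [h.SR_fe hl he0 he hw hψ z0]
    ring
  rw [e1] at k2
  have hp := pow_pos hδ 4
  set P := PA (Rl' S R l) (kl S s I l 3) z0
  set Q := iteratedDeriv 4
    (fun t => (SR (S0 S a c R l z0) (lz S.lev l) (al ψ R) (fun _ => 1) t).fe) 0
  have k4 : |P - Q| ≤ 72 * 6144 * δ + 72 * 270 * δ := by
    have k5 : |δ ^ 4 * (P - Q)| ≤ δ ^ 4 * (72 * 6144 * δ + 72 * 270 * δ) := by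
      rw [abs_le] at k2 k3 ⊢
      constructor <;> nlinarith [k2.1, k2.2, k3.1, k3.2]
    rw [abs_mul, abs_of_pos hp] at k5
    exact le_of_mul_le_mul_left k5 hp
  have k6 : |P - kap S.K S.m r| ≤ |P - Q| + |Q - kap S.K S.m r| := abs_sub_le _ _ _
  have k7 : |Q - kap S.K S.m r| ≤ _ := k1
  linarith

lemma path_le {K : ℕ} {r : ℕ → ℝ} (hr : Path K r) : ∀ {i j : ℕ}, i ≤ j → j ≤ K → r i ≤ r j := by
  intro i j hij
  induction j, hij using Nat.le_induction with
  | base => intro _; exact le_rfl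
  | succ j _ ih => intro hj; exact (ih (by omega)).trans (hr.2 j (by omega))

/-- the error of the covariances at the level `j` -/
noncomputable def eps (S : Sy ι X) (R : Finset ι) (ψ : X → ι → ℝ) (r : ℕ → ℝ) (j : ℕ)
    (x y : X) : ℝ := |CC (Rl' S R j) ψ x y - r j|

/-- the conditional error of the covariances -/
noncomputable def GG (S : Sy ι X) (a : X → ι → ℝ) (c : X → ℝ) (R : Finset ι) (ψ : X → ι → ℝ)
    (r : ℕ → ℝ) (l : ℕ) (z : ι → ℝ) : ℝ :=
  ∑ j ∈ Finset.Ico l (S.K + 1), S.p j *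
    (Sc S a c R).T l (fun z _ => pp (Sc S a c R) j z (eps S R ψ r j)) z

lemma Rw.eK_le (h : Rw S a c s R ψ τ v0) (hl : l ≤ S.K) {r : ℕ → ℝ}
    (hr : Path S.K r) {b : ℝ} (hb : r S.K ≤ b ^ 2) (hv : v0 ≤ b ^ 2) (z0 : ι → ℝ) :
    eK (S0 S a c R l z0) (lz S.lev l) (al ψ R) (fun _ => 1) r ≤
      2 * b ^ 2 * S.m l + GG S a c R ψ r l z0 := by
  have hS := h.ls.reg
  have hC : (Sc S a c R).Reg := (Sc_lin hS).reg
  have h0 : (S0 S a c R l z0).Reg := (S0_lin (a := a) (c := c) (R := R) (l := l) hS z0).reg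
  unfold eK GG
  show ∑ j ∈ Finset.range (S.K + 1), S.p j * (S0 S a c R l z0).pairEx j
    (fun y y' => |1 * 1 * cr (lz S.lev l) (al ψ R) j y y' - r j|) ≤ _
  rw [Finset.range_eq_Ico, ← Finset.sum_Ico_consecutive _ (Nat.zero_le l) (by omega : l ≤ S.K + 1)]
  refine add_le_add ?_ (le_of_eq (Finset.sum_congr rfl fun j hj => ?_))
  · have e1 : 2 * b ^ 2 * S.m l = ∑ j ∈ Finset.Ico 0 l, S.p j * (2 * b ^ 2) := by
      rw [← Finset.sum_mul]
      have e2 : ∑ j ∈ Finset.Ico 0 l, S.p j = S.m l - S.m 0 :=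
        Finset.sum_Ico_sub S.m (Nat.zero_le l)
      rw [e2, hS.m0]
      ring
    rw [e1]
    refine Finset.sum_le_sum fun j hj => ?_
    have hjK : j ≤ S.K := by have := (Finset.mem_Ico.1 hj).2; omega
    refine mul_le_mul_of_nonneg_left ?_ (sub_nonneg.2 (hS.mono j hjK))
    rw [← h0.pairEx_const (l := j) hjK (2 * b ^ 2)]
    refine h0.pairEx_mono (l := j) hjK fun x y => ?_
    have r0 : 0 ≤ r j := hr.1.trans (path_le hr (Nat.zero_le j) hjK)
    have r1 : r j ≤ b ^ 2 := (path_le hr hjK le_rfl).trans hb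
    have c1 : |cr (lz S.lev l) (al ψ R) j x y| ≤ v0 := by
      unfold cr
      refine (Finset.abs_sum_le_sum_abs _ _).trans ?_
      have c2 : ∑ e, (al ψ R x e ^ 2 + al ψ R y e ^ 2) / 2 = v0 := by
        rw [← Finset.sum_div, Finset.sum_add_distrib, h.al_sq, h.al_sq]
        ring
      rw [← c2]
      refine Finset.sum_le_sum fun e _ => ?_
      split_ifs
      · rw [abs_le]
        constructor
        · nlinarith [sq_nonneg (al ψ R x e + al ψ R y e)]
        · nlinarith [sq_nonneg (al ψ R x e - al ψ R y e)]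
      · rw [abs_zero]; positivity
    rw [one_mul, one_mul]
    rw [abs_le] at c1 ⊢
    constructor <;> linarith [c1.1, c1.2]
  · obtain ⟨hj1, hj2⟩ := Finset.mem_Ico.1 hj
    have hjK : j ≤ S.K := by omega
    congr 1
    have e1 : (fun y y' => |1 * 1 * cr (lz S.lev l) (al ψ R) j y y' - r j|) = eps S R ψ r j := by
      funext x y
      unfold eps cr CC Rl'
      rw [one_mul, one_mul, Finset.sum_filter,
        ← Finset.sum_subset (Finset.subset_univ R) fun e _ he => by simp [al, he]]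
      congr 2
      refine Finset.sum_congr rfl fun e he => ?_
      simp only [lz_hi hj1, al, he, if_true]
    rw [e1]
    have e2 := Fz_pairEx hC (lo_mix S.lev l z0) hj1 hjK (eps S R ψ r j)
    have e3 : ∀ z, (Sc S a c R).T l (fun z _ => pp (Sc S a c R) j z (eps S R ψ r j))
        (mix S.lev l z0 z) =
        (Sc S a c R).T l (fun z _ => pp (Sc S a c R) j z (eps S R ψ r j)) z0 := fun z =>
      dep_T (Sc S a c R) l _ z0 z
    simp only [e3, integral_const, probReal_univ, one_smul] at e2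
    exact e2

lemma eg_GG (hS : S.Reg) (hl : l ≤ S.K) (r : ℕ → ℝ) : EG (GG S a c R ψ r l) := by
  have hC : (Sc S a c R).Reg := (Sc_lin hS).reg
  refine EG.sum _ fun j hj => (hC.eg_T (l := l) hl (Nh.fst (hC.nh_pair (l := j) ?_ _))).const_mul _
  have := (Finset.mem_Ico.1 hj).2
  show j ≤ S.K
  omega

lemma Rw.Ex_GG (h : Rw S a c s R ψ τ v0) (hl : l ≤ S.K) (r : ℕ → ℝ) :
    S.Ex (fun z _ => GG S a c R ψ r l z) ≤ Real.exp (5 / 2 * v0) *
      ∑ j ∈ Finset.Ico l (S.K + 1), S.p j * S.pairEx j (eps S R ψ r j) := by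
  have hS := h.ls.reg
  have hC : (Sc S a c R).Reg := (Sc_lin hS).reg
  have hl' : l ≤ (Sc S a c R).K := hl
  have hjK : ∀ j ∈ Finset.Ico l (S.K + 1), j ≤ S.K := fun j hj => by
    have := (Finset.mem_Ico.1 hj).2; omega
  have nP : ∀ j ∈ Finset.Ico l (S.K + 1), Nh (X := X) fun z _ =>
      pp (Sc S a c R) j z (eps S R ψ r j) := fun j hj => Nh.fst (hC.nh_pair (l := j) (hjK j hj) _)
  have hp : ∀ j ∈ Finset.Ico l (S.K + 1), 0 ≤ S.p j := fun j hj =>
    sub_nonneg.2 (hS.mono j (hjK j hj))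
  have h1 := h.Ex_le (eg_GG (a := a) (c := c) (R := R) (ψ := ψ) hS hl r) (fun z => by
      refine Finset.sum_nonneg fun j hj => mul_nonneg (hp j hj) ?_
      rw [← hC.T_const hl' 0 z]
      exact hC.T_mono hl' (fun _ => EG.const _) (nP j hj) (fun z _ =>
        H877x.pp_nonneg hC (l := j) (hjK j hj) z fun _ _ => abs_nonneg _) z)
    (fun z u hzu => by
      unfold GG
      refine Finset.sum_congr rfl fun j _ => ?_
      rw [ind_T (S := Sc S a c R) ind_Sc (F := fun z _ => pp (Sc S a c R) j z (eps S R ψ r j))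
        (fun _ => ind_pp ind_Sc j _) l z u hzu])
  refine h1.trans ?_
  have e1 : (Sc S a c R).Ex (fun z _ => GG S a c R ψ r l z) =
      ∑ j ∈ Finset.Ico l (S.K + 1), S.p j * (Sc S a c R).pairEx j (eps S R ψ r j) := by
    unfold GG
    rw [hC.Ex_sum _ (f := fun j z (_ : X) => S.p j *
      (Sc S a c R).T l (fun z _ => pp (Sc S a c R) j z (eps S R ψ r j)) z)
      fun j hj => Nh.const_mul _ (Nh.fst (hC.eg_T hl' (nP j hj)))]
    refine Finset.sum_congr rfl fun j hj => ?_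
    rw [Ex_const_mul, hC.Ex_T hl' (nP j hj)]
    rfl
  have e2 : Real.exp (5 / 2 * v0) = Real.exp (v0 / 2) * Real.exp (2 * v0) := by
    rw [← Real.exp_add]
    congr 1
    ring
  rw [e1, e2, mul_assoc]
  refine mul_le_mul_of_nonneg_left ?_ (Real.exp_pos _).le
  rw [Finset.mul_sum]
  refine Finset.sum_le_sum fun j hj => ?_
  rw [mul_left_comm]
  exact mul_le_mul_of_nonneg_left (h.pair_le (hjK j hj) fun _ _ => abs_nonneg _) (hp j hj)

/-- **The energy of the symbol is the square of the fourth derivative of the cascade.** -/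
theorem Rw.kl_kap (h : Rw S a c s R ψ τ v0) (hl : l ≤ S.K) {e0 : ι} (he0 : e0 ∈ R)
    (he : S.lev e0 ≤ l) {w : ℝ} (hw : w ≠ 0) (hψ : ∀ x, ψ x e0 = w) {r : ℕ → ℝ}
    (hr : Path S.K r) (h0 : r 0 = 0) {b : ℝ} (hb : r S.K ≤ b ^ 2) (hv : v0 ≤ b ^ 2) {δ : ℝ}
    (hδ : 0 < δ) (hδ1 : δ ≤ 1 / 2) (I : ℕ → ι) {γ E : ℝ}
    (hγ : S.pairEx l (fun x y => |CC (Rl' S R l) ψ x y|) ≤ γ)
    (hE : ∑ j ∈ Finset.Ico l (S.K + 1), S.p j * S.pairEx j (eps S R ψ r j) ≤ E) :
    |S.Ex (fun z _ => kl S s I l 3 z ^ 2) - kap S.K S.m r ^ 2| ≤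
      414 * (√(6 * (6144 ^ 2 * γ) + 9 / 2 * (384 ^ 2 * (4 * (S.m l ^ 2 * b ^ 2)))) + 501000 * δ +
        16 * Real.exp (2 * b ^ 2 + 2) / δ ^ 4 *
          (2 * b ^ 2 * S.m l + Real.exp (5 / 2 * b ^ 2) * E)) := by
  have hS := h.ls.reg
  have hm := mm_of hS
  have hm1 : S.m S.K ≤ 1 := hS.m_le_one (by omega)
  have hs1 : ∀ x, |s x| ≤ 1 := fun x => (h.abs x).le
  have ha : ∀ x, a x e0 = w * s x := fun x => by rw [h.row x e0 he0, hψ, mul_comm]
  have hml : 0 ≤ S.m l := hm.nn (by omega)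
  set A := Rl' S R l with hA
  set f := kl S s I l 3 with hf
  set κ := kap S.K S.m r with hκ
  have ef : EG f := eg_kl hS hl s I 3
  have eP : EG (PA A f) := H379.Row.PA.eg ef A
  have haA : ∀ x, ∀ e ∈ A, a x e = s x * ψ x e := fun x e he => h.row x e (mem_Rl'.1 he).1
  have n1 := kl_near (A := A) h.ls hm hm1 hs1 hl (fun e he => (mem_Rl'.1 he).2) hw ha I
    (v := b ^ 2) (γ := γ) (fun x => by
      refine le_trans ?_ hv
      rw [← h.var x]
      refine le_trans (le_of_eq (Finset.sum_congr rfl fun e he => ?_))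
        (Finset.sum_le_sum_of_subset_of_nonneg (Finset.filter_subset _ R)
          fun e _ _ => sq_nonneg (ψ x e))
      rw [haA x e he, mul_pow, h.sq, one_mul])
    (by
      have e1 : (fun x y => |CC A a x y|) = fun x y => |CC A ψ x y| := by
        funext x y
        rw [CC_mul haA, abs_mul, abs_mul, h.abs, h.abs, one_mul, one_mul]
      rw [e1]
      exact hγ)
  have n2 : S.Ex (fun z _ => |f z - PA A f z|) ≤
      √(6 * (6144 ^ 2 * γ) + 9 / 2 * (384 ^ 2 * (4 * (S.m l ^ 2 * b ^ 2)))) := by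
    refine Real.le_sqrt_of_sq_le ?_
    have h1 := hS.Ex_cs (Nh.fst (X := X) (ef.sub eP).abs) (Nh.fst (X := X) (EG.const (1 : ℝ)))
    simp only [mul_one, one_pow, hS.Ex_const, sq_abs] at h1
    exact h1.trans n1
  have hpi : Real.pi / 4 ≤ 1 := by linarith [Real.pi_le_four]
  have hp := pow_pos hδ 4
  set C := 16 * Real.exp (2 * b ^ 2 + 2) / δ ^ 4 with hC
  have C0 : 0 ≤ C := by positivity
  have eG : EG (GG S a c R ψ r l) := eg_GG hS hl r
  have n3 : ∀ z, |PA A f z - κ| ≤ 501000 * δ + C * (2 * b ^ 2 * S.m l + GG S a c R ψ r l z) := by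
    intro z
    refine (h.cav_pt hl he0 he hw hψ hr h0 hb hv hδ hδ1 I z).trans ?_
    have h1 := h.eK_le hl hr hb hv z
    have h0' : (S0 S a c R l z).Reg := (S0_lin (a := a) (c := c) (R := R) (l := l) hS z).reg
    have h2 : 0 ≤ eK (S0 S a c R l z) (lz S.lev l) (al ψ R) (fun _ => 1) r := by
      unfold eK
      refine Finset.sum_nonneg fun j hj => mul_nonneg (H826.p_nonneg h0' hj) ?_
      exact h0'.pairEx_nonneg (by have := Finset.mem_range.1 hj; omega) fun _ _ => abs_nonneg _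
    set e := eK (S0 S a c R l z) (lz S.lev l) (al ψ R) (fun _ => 1) r
    have h3 : 16 * (Real.pi / 4 * (Real.exp (2 * b ^ 2 + 2) * e)) / δ ^ 4 =
        C * (Real.pi / 4 * e) := by
      rw [hC]
      ring
    rw [h3]
    have h4 : Real.pi / 4 * e ≤ 2 * b ^ 2 * S.m l + GG S a c R ψ r l z := by
      have := mul_le_mul_of_nonneg_right hpi h2
      linarith
    linarith [mul_le_mul_of_nonneg_left h4 C0]
  have n4 : S.Ex (fun z _ => |PA A f z - κ|) ≤ 501000 * δ +
      C * (2 * b ^ 2 * S.m l + Real.exp (5 / 2 * b ^ 2) * E) := by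
    refine (hS.Ex_mono (Nh.fst (eP.sub (EG.const κ)).abs)
      (Nh.fst ((EG.const _).add (((EG.const _).add eG).const_mul C))) fun z _ => n3 z).trans ?_
    rw [hS.Ex_add (Nh.fst (EG.const _)) (Nh.fst (((EG.const _).add eG).const_mul C)), hS.Ex_const,
      Ex_const_mul, hS.Ex_add (Nh.fst (EG.const _)) (Nh.fst eG), hS.Ex_const]
    have h1 := h.Ex_GG hl r
    have h2 : 0 ≤ ∑ j ∈ Finset.Ico l (S.K + 1), S.p j * S.pairEx j (eps S R ψ r j) :=
      Finset.sum_nonneg fun j hj => by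
        have hjK : j ≤ S.K := by have := (Finset.mem_Ico.1 hj).2; omega
        exact mul_nonneg (sub_nonneg.2 (hS.mono j hjK))
          (hS.pairEx_nonneg hjK fun _ _ => abs_nonneg _)
    have h3 : Real.exp (5 / 2 * v0) ≤ Real.exp (5 / 2 * b ^ 2) :=
      Real.exp_le_exp.2 (by linarith)
    have h4 := h1.trans (mul_le_mul h3 hE h2 (Real.exp_pos _).le)
    have h5 := mul_le_mul_of_nonneg_left (add_le_add_right h4 (2 * b ^ 2 * S.m l)) C0
    linarith
  have hκ30 : |κ| ≤ 30 := abs_kap (regD h.ls) hr h0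
  have hf384 : ∀ z, |f z| ≤ 384 := fun z => by
    have h2 := abs_kl_le (I := I) hS hm hm1 hs1 hl 3 z
    have h3 : cE 3 = 384 := by norm_num [cE]
    rwa [h3] at h2
  have e1 : S.Ex (fun z _ => f z ^ 2) - κ ^ 2 = S.Ex (fun z _ => f z ^ 2 - κ ^ 2) := by
    rw [hS.Ex_sub (Nh.fst (ef.pow 2)) (Nh.fst (EG.const _)), hS.Ex_const]
  rw [e1]
  refine (hS.abs_Ex_le (Nh.fst ((ef.pow 2).sub (EG.const _)))).trans ?_
  have n5 : S.Ex (fun z _ => |f z ^ 2 - κ ^ 2|) ≤
      S.Ex (fun z _ => 414 * (|f z - PA A f z| + |PA A f z - κ|)) := by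
    refine hS.Ex_mono (Nh.fst ((ef.pow 2).sub (EG.const _)).abs)
      (Nh.fst (((ef.sub eP).abs.add (eP.sub (EG.const κ)).abs).const_mul 414)) fun z _ => ?_
    have e2 : f z ^ 2 - κ ^ 2 = (f z + κ) * (f z - κ) := by ring
    rw [e2, abs_mul]
    refine mul_le_mul ((abs_add_le _ _).trans (by linarith [hf384 z])) (abs_sub_le _ _ _)
      (abs_nonneg _) (by norm_num)
  refine n5.trans ?_
  rw [Ex_const_mul, hS.Ex_add (Nh.fst (ef.sub eP).abs) (Nh.fst (eP.sub (EG.const κ)).abs)]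
  linarith

end Vale.Agent.N146.Cut
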