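import Vale.Agent.N146.CutD

/-!
# P146 (c), package ID1: the third chaos of a row of the SK system and the cascade (helper96)
-/

open MeasureTheory ProbabilityTheory

namespace Vale.Agent.N146.Cut

open Vale.Agent.P157 Vale.Agent.P157.Lv Vale.Agent.P157.Lv.Sy
open Vale.Agent.P157.Par (Path cascade)
open Vale.Agent.P146 hiding sp abs_sp
open Vale.Agent.P146.H425 Vale.Agent.P146.H93 Vale.Agent.P146.H985
open Vale.Agent.P146.H946 Vale.Agent.P146.H508 Vale.Agent.P146.H325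
open Vale.Agent.P146.H379.Row (bt2 dd gg gD pd_gg)

set_option linter.unusedSectionVars false

variable {n K : ℕ} {m b w : ℕ → ℝ}

/-- the error of the third chaos -/
noncomputable def e1 (B θ D κ μ : ℝ) : ℝ :=
  50000000000 * (1 + B) ^ 4 * (D * θ ^ 2 + μ * θ ^ 3 + θ ^ 4 + κ * θ ^ 2)

lemma hC_sk {l : ℕ} (hl : l ≤ K) (i : Fin n) (x y : Fin n → ℤˣ) :
    |CC (rwl K i l) (ph K b w i) x y - bt2 n b l * Rov sp x y| ≤ sw w l + bt2 n b l / n := by
  have hn : (0 : ℝ) < n := by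
    have := i.2
    exact_mod_cast (by omega : 0 < n)
  have hB0 := bt2_nonneg n b l
  rw [CC_sk i hl]
  have e1 : bt2 n b l * Rov sp x y + sw w l - (∑ q : Fin l, b (q + 1) ^ 2) *
      (sp x i * sp y i) - bt2 n b l * Rov sp x y = sw w l - (∑ q : Fin l, b (q + 1) ^ 2) *
      (sp x i * sp y i) := by ring
  have e2 : ∑ q : Fin l, b (q + 1) ^ 2 = bt2 n b l / n := by
    unfold bt2
    rw [← Finset.mul_sum]
    field_simp
  rw [e1, e2]
  refine (abs_sub _ _).trans ?_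
  rw [abs_of_nonneg (sw_nonneg w l), abs_mul, abs_mul, abs_sp, abs_sp, mul_one, mul_one,
    abs_of_nonneg (by positivity : 0 ≤ bt2 n b l / n)]

lemma num1 {B θ D ρ κ μ : ℝ} (hB0 : 0 ≤ B) (hθ : 0 ≤ θ) (hθ1 : θ ≤ 1) (hκ : 0 ≤ κ) (hκθ : κ ≤ θ)
    (hρ : 0 ≤ ρ) (hρθ : ρ ≤ θ) (hD : 0 ≤ D) (hμ : 0 ≤ μ) (hμ1 : μ ≤ 1) :
    1200000000 * (4 * (B ^ 3 * (17 / 2 * (D * θ ^ 2)) + κ ^ 3) + (B * ρ) ^ 2 * (B * D + κ) +
      μ * (4 * (B ^ 3 * θ ^ 3 + κ ^ 3)) + 8 * (B ^ 4 * θ ^ 4 + κ ^ 4)) ≤ e1 B θ D κ μ := by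
  unfold e1
  have hP : (1 : ℝ) ≤ (1 + B) ^ 4 := one_le_pow₀ (by linarith)
  have p3 : B ^ 3 ≤ (1 + B) ^ 4 := by
    calc B ^ 3 ≤ (1 + B) ^ 3 := pow_le_pow_left₀ hB0 (by linarith) 3
      _ ≤ (1 + B) ^ 4 := pow_le_pow_right₀ (by linarith) (by norm_num)
  have p4 : B ^ 4 ≤ (1 + B) ^ 4 := pow_le_pow_left₀ hB0 (by linarith) 4
  have p2 : B ^ 2 ≤ (1 + B) ^ 4 := by
    calc B ^ 2 ≤ (1 + B) ^ 2 := pow_le_pow_left₀ hB0 (by linarith) 2
      _ ≤ (1 + B) ^ 4 := pow_le_pow_right₀ (by linarith) (by norm_num)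
  have k2 : κ ^ 2 ≤ θ ^ 2 := pow_le_pow_left₀ hκ hκθ 2
  have k3 : κ ^ 3 ≤ κ * θ ^ 2 := by
    have := mul_le_mul_of_nonneg_left k2 hκ
    linarith [show κ ^ 3 = κ * κ ^ 2 by ring]
  have k1 : κ ≤ 1 := hκθ.trans hθ1
  have k4 : κ ^ 4 ≤ κ * θ ^ 2 := by
    have h5 : κ ^ 4 = κ * κ ^ 3 := by ring
    have h6 : κ * κ ^ 3 ≤ 1 * κ ^ 3 := mul_le_mul_of_nonneg_right k1 (by positivity)
    linarith
  have r2 : (B * ρ) ^ 2 ≤ B ^ 2 * θ ^ 2 := by
    rw [mul_pow]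
    exact mul_le_mul_of_nonneg_left (pow_le_pow_left₀ hρ hρθ 2) (by positivity)
  set P := (1 + B) ^ 4
  have q1 : (B * ρ) ^ 2 * (B * D + κ) ≤ P * (D * θ ^ 2 + κ * θ ^ 2) := by
    have h5 : (B * ρ) ^ 2 * (B * D + κ) ≤ B ^ 2 * θ ^ 2 * (B * D + κ) :=
      mul_le_mul_of_nonneg_right r2 (by positivity)
    have h6 : B ^ 2 * θ ^ 2 * (B * D + κ) = B ^ 3 * (D * θ ^ 2) + B ^ 2 * (κ * θ ^ 2) := by ring
    have h7 := mul_le_mul_of_nonneg_right p3 (show 0 ≤ D * θ ^ 2 by positivity)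
    have h8 := mul_le_mul_of_nonneg_right p2 (show 0 ≤ κ * θ ^ 2 by positivity)
    linarith
  have q2 : 4 * (B ^ 3 * (17 / 2 * (D * θ ^ 2)) + κ ^ 3) ≤
      34 * (P * (D * θ ^ 2)) + 4 * (P * (κ * θ ^ 2)) := by
    have h7 := mul_le_mul_of_nonneg_right p3 (show 0 ≤ D * θ ^ 2 by positivity)
    have h8 := mul_le_mul_of_nonneg_right hP (show 0 ≤ κ * θ ^ 2 by positivity)
    linarith
  have q3 : μ * (4 * (B ^ 3 * θ ^ 3 + κ ^ 3)) ≤
      4 * (P * (μ * θ ^ 3)) + 4 * (P * (κ * θ ^ 2)) := by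
    have h7 := mul_le_mul_of_nonneg_right p3 (show 0 ≤ μ * θ ^ 3 by positivity)
    have h8 := mul_le_mul_of_nonneg_right hP (show 0 ≤ κ * θ ^ 2 by positivity)
    have h9 : μ * κ ^ 3 ≤ 1 * κ ^ 3 := mul_le_mul_of_nonneg_right hμ1 (by positivity)
    nlinarith
  have q4 : 8 * (B ^ 4 * θ ^ 4 + κ ^ 4) ≤ 8 * (P * θ ^ 4) + 8 * (P * (κ * θ ^ 2)) := by
    have h7 := mul_le_mul_of_nonneg_right p4 (show 0 ≤ θ ^ 4 by positivity)
    have h8 := mul_le_mul_of_nonneg_right hP (show 0 ≤ κ * θ ^ 2 by positivity)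
    linarith
  have n1 : 0 ≤ P * (D * θ ^ 2) := by positivity
  have n2 : 0 ≤ P * (μ * θ ^ 3) := by positivity
  have n3 : 0 ≤ P * θ ^ 4 := by positivity
  have n4 : 0 ≤ P * (κ * θ ^ 2) := by positivity
  have e9 : 50000000000 * P * (D * θ ^ 2 + μ * θ ^ 3 + θ ^ 4 + κ * θ ^ 2) =
      50000000000 * (P * (D * θ ^ 2)) + 50000000000 * (P * (μ * θ ^ 3)) +
      50000000000 * (P * θ ^ 4) + 50000000000 * (P * (κ * θ ^ 2)) := by ring
  rw [e9]
  linarith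

/-- **The third chaos of a row of the SK system, all upper levels kept.** -/
theorem one_level_sk' (hm : Em K m) {l : ℕ} (hl : l ≤ K) (i : Fin n)
    {θ D ρ κ μ : ℝ} (H : Hy n K m b w l θ D ρ κ) (hμ0 : 0 < μ) (hμ : m l ≤ μ) (hμ1 : μ ≤ 1)
    (I : ℕ → Cd n K) :
    |6 * H379.Row.NL K m b w l i - (bt2 n b l * ρ) ^ 3 * (skS n K m b w).Ex
      (fun z _ => kl (skS n K m b w) (fun x => sp x i) I l 3 z ^ 2)| ≤
      e1 (bt2 n b l) θ D κ μ := by
  have h := linS_sk (n := n) hm b w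
  have hS := h.reg
  have hmK : m K ≤ 1 := (hm.mono K le_rfl).trans hm.mK.le
  have hs : ∀ x : Fin n → ℤˣ, sp x i ^ 2 = 1 := fun x => by
    rw [← sq_abs, abs_sp, one_pow]
  have hε : ∀ e ∈ rwl K i l, fE i e = -1 := fun e he => by
    rw [mem_rwl] at he
    unfold fE
    rw [if_pos he.2]
  have hAl : ∀ e ∈ rwl K i l, (skS n K m b w).lev e ≤ l := fun e he => (mem_rwl.1 he).1
  have hsy := sys_flip (n := n) hm b w i
  have ho : ∀ z, (skS n K m b w).T l (fun _ x => sp x i) (gz (Equiv.refl _) (fE i) z) =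
      -(skS n K m b w).T l (fun _ x => sp x i) z := fun z =>
    hsy.T_odd l (f := fun x => sp x i) (fun x => by rw [fX_symm, sp_fX_self]) z
  have ha : ∀ (x : Fin n → ℤˣ), ∀ e ∈ rwl K i l, aSK n K b w x e = sp x i * ph K b w i x e := by
    intro x e _
    unfold ph
    have := hs x
    rw [← mul_assoc, ← sq, this, one_mul]
  have hg1 : ∀ e ∈ rwl K i l, PD e (fun z => Real.exp (VL (skS n K m b w) l z / 2) *
      (skS n K m b w).T l (fun _ x => sp x i) z) (gD m b w l i e) := fun e he =>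
    pd_gg hm b w hl i (mem_rwl.1 he).1
  have hB0 : 0 ≤ bt2 n b l := bt2_nonneg n b l
  have hBs := bs_of hS hl (φ := sp) (C := CC (rwl K i l) (ph K b w i)) hB0 H.κ0 H.κθ H.θ0 H.θ1
    H.D0 H.ρ0 H.ρθ (fun x y => (hC_sk hl i x y).trans H.wκ) H.h4 H.h2
  have h1 := one_level' h (mm_sk hm) hmK hs hl (mv_flip m b w i l) hε hAl ho
    (fun z => hsy.VL l z) ha (mul_nonneg hB0 H.ρ0) hg1 hBs hμ0 hμ hμ1 I
  have e0 : NL (skS n K m b w) (fun x => sp x i) l (rwl K i l) (gD m b w l i) =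
      H379.Row.NL K m b w l i := rfl
  rw [e0] at h1
  exact h1.trans (num1 hB0 H.θ0.le H.θ1 H.κ0 H.κθ H.ρ0 H.ρθ H.D0.le hμ0.le hμ1)

lemma Rov_self (hn : 0 < n) (x : Fin n → ℤˣ) : Rov sp x x = 1 := by
  have s1 : ∀ j : Fin n, sp x j * sp x j = 1 := fun j => by
    rw [← abs_mul_abs_self, abs_sp, one_mul]
  have hn' : (n : ℝ) ≠ 0 := by exact_mod_cast hn.ne'
  unfold Rov
  simp only [s1, Finset.sum_const, Finset.card_univ, Fintype.card_fin, nsmul_eq_mul, mul_one]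
  field_simp

lemma rw_sk (hm : Em K m) (b w : ℕ → ℝ) (i : Fin n) :
    Rw (skS n K m b w) (aSK n K b w) (fun _ => 0) (fun x => sp x i) (rwl K i K) (ph K b w i)
      (fX i) (bt2 n b K + sw w K - ∑ q : Fin K, b (q + 1) ^ 2) where
  ls := linS_sk hm b w
  sq := fun x => by rw [← sq_abs, abs_sp, one_pow]
  odd := fun x => sp_fX_self i x
  row := fun x e _ => by
    unfold ph
    rw [← mul_assoc, ← abs_mul_abs_self, abs_sp, one_mul, one_mul]
  ev := fun x e he => by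
    unfold ph aSK
    rw [sp_fX_self, st_fX, if_pos (mem_rwl.1 he).2]
    ring
  off := fun x e he => by
    have h1 : ¬ tch i e.1 := fun h => he (mem_rwl.2 ⟨e.2.2, h⟩)
    unfold aSK
    rw [st_fX, if_neg h1, one_mul]
  cst := fun _ => rfl
  var := fun x => by
    have h1 := CC_sk (b := b) (w := w) i (le_refl K) x x
    have hn : 0 < n := by have := i.2; omega
    rw [Rov_self hn, mul_one, ← abs_mul_abs_self (sp x i), abs_sp, one_mul, mul_one] at h1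
    rw [← h1]
    unfold CC
    exact Finset.sum_congr rfl fun e _ => sq _

lemma Rl'_sk (m b w : ℕ → ℝ) (i : Fin n) (j : ℕ) :
    Rl' (skS n K m b w) (rwl K i K) j = rwl K i j := by
  ext e
  rw [mem_Rl', mem_rwl, mem_rwl]
  exact ⟨fun h => ⟨h.2, h.1.2⟩, fun h => ⟨⟨e.2.2, h.2⟩, h.1⟩⟩

lemma sw_mono (w : ℕ → ℝ) {l0 l : ℕ} (h : l0 ≤ l) : sw w l0 ≤ sw w l := by
  unfold sw
  rw [Fin.sum_univ_eq_sum_range (fun q => w (q + 1) ^ 2),
    Fin.sum_univ_eq_sum_range (fun q => w (q + 1) ^ 2)]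
  exact Finset.sum_le_sum_of_subset_of_nonneg (Finset.range_mono h) fun q _ _ => by positivity

/-- first absolute moments from fourth moments -/
lemma pairEx_abs_of4 {ι X : Type} [Fintype ι] [DecidableEq ι] [Fintype X] [Nonempty X]
    [DecidableEq X] {S : Sy ι X} (hS : S.Reg) {l : ℕ} (hl : l ≤ S.K) {ψ : X → X → ℝ} {θ : ℝ}
    (hθ : 0 < θ) (h : S.pairEx l (fun x y => ψ x y ^ 4) ≤ θ ^ 4) :
    S.pairEx l (fun x y => |ψ x y|) ≤ θ := by
  have key : ∀ t : ℝ, t ≤ 1 / (4 * θ ^ 3) * t ^ 4 + 3 * θ / 4 := by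
    intro t
    have h1 : 0 ≤ (t - θ) ^ 2 * ((t + θ) ^ 2 + 2 * θ ^ 2) := by positivity
    have h2 : 1 / (4 * θ ^ 3) * t ^ 4 + 3 * θ / 4 - t =
        (t - θ) ^ 2 * ((t + θ) ^ 2 + 2 * θ ^ 2) / (4 * θ ^ 3) := by
      field_simp
      ring
    have h3 : 0 ≤ (t - θ) ^ 2 * ((t + θ) ^ 2 + 2 * θ ^ 2) / (4 * θ ^ 3) := by positivity
    linarith
  have h1 : S.pairEx l (fun x y => |ψ x y|) ≤
      S.pairEx l (fun x y => 1 / (4 * θ ^ 3) * ψ x y ^ 4 + 3 * θ / 4) := by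
    refine hS.pairEx_mono hl fun x y => ?_
    have h3 := key |ψ x y|
    have e4 : |ψ x y| ^ 4 = ψ x y ^ 4 := Even.pow_abs (by decide) _
    rwa [e4] at h3
  rw [hS.pairEx_add hl (fun x y => 1 / (4 * θ ^ 3) * ψ x y ^ 4) (fun _ _ => 3 * θ / 4),
    hS.pairEx_const hl, hS.pairEx_const_mul] at h1
  have h2 := mul_le_mul_of_nonneg_left h (show 0 ≤ 1 / (4 * θ ^ 3) by positivity)
  have h3 : 1 / (4 * θ ^ 3) * θ ^ 4 = θ / 4 := by field_simp
  linarith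

/-- the error of the overlaps at the levels `≥ l` -/
noncomputable def eD (n K : ℕ) (m b w : ℕ → ℝ) (l : ℕ) (r : ℕ → ℝ) : ℝ :=
  ∑ j ∈ Finset.Ico l (K + 1), (m (j + 1) - m j) *
    (skS n K m b w).pairEx j (fun x y => |bt2 n b j * Rov sp x y - r j|) +
    (sw w K + bt2 n b K / n)

/-- the error of the identification of the symbol -/
noncomputable def e2 (bb θ κ μ δ E : ℝ) : ℝ :=
  210000000 * Real.exp (5 * bb ^ 2 + 2) * (1 + bb ^ 2) * (√(θ + κ + μ) + δ + (μ + E) / δ ^ 4)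

lemma num2 {bb θ κ μ δ E B M : ℝ} (hθ : 0 ≤ θ) (hκ : 0 ≤ κ) (hM : 0 ≤ M) (hMμ : M ≤ μ)
    (hμ1 : μ ≤ 1) (hδ : 0 < δ) (hE : 0 ≤ E) (hB : B ≤ bb ^ 2) :
    414 * (√(6 * (6144 ^ 2 * (B * θ + κ)) + 9 / 2 * (384 ^ 2 * (4 * (M ^ 2 * bb ^ 2)))) +
      501000 * δ + 16 * Real.exp (2 * bb ^ 2 + 2) / δ ^ 4 *
        (2 * bb ^ 2 * M + Real.exp (5 / 2 * bb ^ 2) * E)) ≤ e2 bb θ κ μ δ E := by
  unfold e2
  have hμ : 0 ≤ μ := hM.trans hMμ
  have hb : 0 ≤ bb ^ 2 := sq_nonneg _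
  set β := bb ^ 2 with hβ
  have hp := pow_pos hδ 4
  have x1 : (1 : ℝ) ≤ Real.exp (5 * β + 2) := Real.one_le_exp (by positivity)
  set Y := Real.exp (5 * β + 2) * (1 + β) with hY
  have Y1 : 1 + β ≤ Y := by
    have := mul_le_mul_of_nonneg_right x1 (show 0 ≤ 1 + β by positivity)
    linarith
  have s1 : √(6 * (6144 ^ 2 * (B * θ + κ)) + 9 / 2 * (384 ^ 2 * (4 * (M ^ 2 * β)))) ≤
      15050 * (1 + β) * √(θ + κ + μ) := by
    have hs := Real.sq_sqrt (show 0 ≤ θ + κ + μ by positivity)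
    refine Real.sqrt_le_iff.2 ⟨by positivity, ?_⟩
    rw [mul_pow, hs]
    have m2 : M ^ 2 ≤ μ := by nlinarith
    have a1 : B * θ ≤ β * θ := mul_le_mul_of_nonneg_right hB hθ
    have a2 : M ^ 2 * β ≤ μ * β := mul_le_mul_of_nonneg_right m2 hb
    have a3 : β * θ + κ + μ * β ≤ (1 + β) ^ 2 * (θ + κ + μ) := by
      have a4 : (1 + β) * (θ + κ + μ) ≤ (1 + β) ^ 2 * (θ + κ + μ) :=
        mul_le_mul_of_nonneg_right (by nlinarith) (by positivity)
      have a5 : 0 ≤ β * κ := by positivity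
      nlinarith
    have a6 : 0 ≤ μ * β := by positivity
    have a7 : 0 ≤ (1 + β) ^ 2 * (θ + κ + μ) := by positivity
    nlinarith
  have s2 : 16 * Real.exp (2 * β + 2) / δ ^ 4 * (2 * β * M + Real.exp (5 / 2 * β) * E) ≤
      32 * Y * ((μ + E) / δ ^ 4) := by
    have a1 : Real.exp (2 * β + 2) ≤ Real.exp (5 * β + 2) := Real.exp_le_exp.2 (by linarith)
    have a2 : Real.exp (2 * β + 2) * Real.exp (5 / 2 * β) ≤ Real.exp (5 * β + 2) := by
      rw [← Real.exp_add]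
      exact Real.exp_le_exp.2 (by linarith)
    have a3 : Real.exp (2 * β + 2) * (2 * β * M) ≤ 2 * Y * μ := by
      have a4 : β * M ≤ (1 + β) * μ := mul_le_mul (by linarith) hMμ hM (by positivity)
      have a5 := mul_le_mul a1 a4 (by positivity) (Real.exp_pos _).le
      rw [hY]
      linarith
    have a6 : Real.exp (2 * β + 2) * (Real.exp (5 / 2 * β) * E) ≤ 2 * Y * E := by
      rw [← mul_assoc]
      refine mul_le_mul_of_nonneg_right (a2.trans ?_) hE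
      have a7 := mul_le_mul_of_nonneg_left (show (1 : ℝ) ≤ 1 + β by linarith)
        (Real.exp_pos (5 * β + 2)).le
      rw [hY]
      linarith [Real.exp_pos (5 * β + 2)]
    have e1 : 16 * Real.exp (2 * β + 2) / δ ^ 4 * (2 * β * M + Real.exp (5 / 2 * β) * E) =
        16 * (Real.exp (2 * β + 2) * (2 * β * M) +
          Real.exp (2 * β + 2) * (Real.exp (5 / 2 * β) * E)) / δ ^ 4 := by ring
    have e2 : 32 * Y * ((μ + E) / δ ^ 4) = 16 * (2 * Y * μ + 2 * Y * E) / δ ^ 4 := by ring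
    rw [e1, e2]
    exact div_le_div_of_nonneg_right (by linarith) hp.le
  have s3 : (1 + β) * √(θ + κ + μ) ≤ Y * √(θ + κ + μ) :=
    mul_le_mul_of_nonneg_right Y1 (Real.sqrt_nonneg _)
  have s4 : 1 * δ ≤ Y * δ := mul_le_mul_of_nonneg_right (by linarith) hδ.le
  have n1 : 0 ≤ Y * √(θ + κ + μ) := by positivity
  have n2 : 0 ≤ Y * δ := by positivity
  have n3 : 0 ≤ Y * ((μ + E) / δ ^ 4) := by positivity
  have e3 : 210000000 * Real.exp (5 * β + 2) * (1 + β) * (√(θ + κ + μ) + δ + (μ + E) / δ ^ 4) =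
      210000000 * (Y * √(θ + κ + μ)) + 210000000 * (Y * δ) +
        210000000 * (Y * ((μ + E) / δ ^ 4)) := by
    rw [hY]
    ring
  rw [e3]
  linarith

lemma eD_nonneg (hm : Em K m) (b w : ℕ → ℝ) (l : ℕ) (r : ℕ → ℝ) : 0 ≤ eD n K m b w l r := by
  have hS := (linS_sk (n := n) hm b w).reg
  unfold eD
  have h1 := sw_nonneg w K
  have h2 := bt2_nonneg n b K
  refine add_nonneg (Finset.sum_nonneg fun j hj => ?_) (by positivity)
  have hjK : j ≤ K := by have := (Finset.mem_Ico.1 hj).2; omega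
  exact mul_nonneg (sub_nonneg.2 (hm.mono j hjK))
    (hS.pairEx_nonneg (l := j) hjK fun _ _ => abs_nonneg _)

/-- `|κ| ≤ 30` -/
theorem abs_kap_le (hm : Em K m) {r : ℕ → ℝ} (hr : Path K r) (h0 : r 0 = 0) :
    |kap K m r| ≤ 30 :=
  abs_kap (regD (linS_sk (n := 0) hm (fun _ => 0) (fun _ => 0))) hr h0

/-- **The symbol of the SK system.** -/
theorem kl_kap_sk (hm : Em K m) {l : ℕ} (hl1 : 1 ≤ l) (hl : l ≤ K) (hw : w l ≠ 0) (i : Fin n)
    {θ κ μ bb δ : ℝ} {r : ℕ → ℝ} (hθ : 0 < θ) (hκ : sw w l + bt2 n b l / n ≤ κ)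
    (h4 : (skS n K m b w).pairEx l (fun x y => Rov sp x y ^ 4) ≤ θ ^ 4) (hr : Path K r)
    (h0 : r 0 = 0) (hb : r K ≤ bb ^ 2) (hv : bt2 n b K + sw w K ≤ bb ^ 2)
    (hμ : m l ≤ μ) (hμ1 : μ ≤ 1) (hδ : 0 < δ) (hδ1 : δ ≤ 1 / 2) (I : ℕ → Cd n K) :
    |(skS n K m b w).Ex (fun z _ => kl (skS n K m b w) (fun x => sp x i) I l 3 z ^ 2) -
      kap K m r ^ 2| ≤ e2 bb θ κ μ δ (eD n K m b w l r) := by
  have h := rw_sk hm b w i
  have hS := h.ls.reg
  have hn : (0 : ℝ) < n := by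
    have := i.2
    exact_mod_cast (by omega : 0 < n)
  have hB0 := bt2_nonneg n b l
  have hκ0 : 0 ≤ κ := le_trans (add_nonneg (sw_nonneg w l) (by positivity)) hκ
  have hv' : bt2 n b K + sw w K - ∑ q : Fin K, b (q + 1) ^ 2 ≤ bb ^ 2 := by
    have : 0 ≤ ∑ q : Fin K, b (q + 1) ^ 2 := Finset.sum_nonneg fun q _ => sq_nonneg _
    linarith
  obtain ⟨l', rfl⟩ : ∃ l', l = l' + 1 := ⟨l - 1, by omega⟩
  have key := h.kl_kap (l := l' + 1) hl (e0 := (Sum.inr i, ⟨l', by omega⟩))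
    (mem_rwl.2 ⟨hl, rfl⟩) le_rfl hw (fun x => by
      show sp x i * (w (l' + 1) * sp x i) = w (l' + 1)
      rw [mul_left_comm, ← abs_mul_abs_self, abs_sp, one_mul, mul_one]) hr h0 hb hv' hδ hδ1 I
    (γ := bt2 n b (l' + 1) * θ + κ) (E := eD n K m b w (l' + 1) r)
    (by
      rw [Rl'_sk]
      have h1 := pairEx_abs_of4 hS (l := l' + 1) hl hθ h4
      have h2 : (skS n K m b w).pairEx (l' + 1)
          (fun x y => |CC (rwl K i (l' + 1)) (ph K b w i) x y|) ≤ (skS n K m b w).pairEx (l' + 1)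
          (fun x y => bt2 n b (l' + 1) * |Rov sp x y| + κ) := by
        refine hS.pairEx_mono (l := l' + 1) hl fun x y => ?_
        have h3 := (hC_sk (b := b) (w := w) hl i x y).trans hκ
        have h5 := abs_sub_abs_le_abs_sub (CC (rwl K i (l' + 1)) (ph K b w i) x y)
          (bt2 n b (l' + 1) * Rov sp x y)
        rw [abs_mul, abs_of_nonneg hB0] at h5
        linarith
      rw [hS.pairEx_add (l := l' + 1) hl (fun x y => bt2 n b (l' + 1) * |Rov sp x y|)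
        (fun _ _ => κ), hS.pairEx_const (l := l' + 1) hl, hS.pairEx_const_mul] at h2
      linarith [mul_le_mul_of_nonneg_left h1 hB0])
    (by
      unfold eD
      have h1 : ∀ j ∈ Finset.Ico (l' + 1) (K + 1), (skS n K m b w).p j *
          (skS n K m b w).pairEx j (eps (skS n K m b w) (rwl K i K) (ph K b w i) r j) ≤
          (m (j + 1) - m j) * (skS n K m b w).pairEx j
            (fun x y => |bt2 n b j * Rov sp x y - r j|) +
          (m (j + 1) - m j) * (sw w K + bt2 n b K / n) := by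
        intro j hj
        have hjK : j ≤ K := by have := (Finset.mem_Ico.1 hj).2; omega
        rw [← mul_add]
        refine mul_le_mul_of_nonneg_left ?_ (sub_nonneg.2 (hm.mono j hjK))
        rw [← hS.pairEx_const (l := j) hjK (sw w K + bt2 n b K / n),
          ← hS.pairEx_add (l := j) hjK]
        refine hS.pairEx_mono (l := j) hjK fun x y => ?_
        unfold eps
        rw [Rl'_sk]
        have h3 := hC_sk (b := b) (w := w) hjK i x y
        have h5 := abs_sub_le (CC (rwl K i j) (ph K b w i) x y) (bt2 n b j * Rov sp x y) (r j)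
        have h6 := sw_mono w hjK
        have h7 : bt2 n b j / n ≤ bt2 n b K / n :=
          div_le_div_of_nonneg_right (bt2_mono n b hjK) hn.le
        linarith
      refine (Finset.sum_le_sum h1).trans ?_
      rw [Finset.sum_add_distrib, ← Finset.sum_mul,
        Finset.sum_Ico_sub m (show l' + 1 ≤ K + 1 by omega), hm.mK]
      have h2 : 0 ≤ m (l' + 1) := (hS.m_pos (l := l' + 1) (by omega)
        (by simp only [skS_K]; omega)).le
      have h3 : 0 ≤ sw w K + bt2 n b K / n := by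
        have := sw_nonneg w K
        have := bt2_nonneg n b K
        positivity
      nlinarith)
  refine key.trans (num2 hθ.le hκ0 ?_ hμ hμ1 hδ (eD_nonneg hm b w _ r) ?_)
  · exact (hS.m_pos (l := l' + 1) (by omega) (by simp only [skS_K]; omega)).le
  · have h1 := bt2_mono n b hl
    have h2 := sw_nonneg w K
    linarith

/-- **ID1: the cubic term of the row equation.** -/
theorem id1 (hm : Em K m) {l : ℕ} (hl1 : 1 ≤ l) (hl : l ≤ K) (hw : w l ≠ 0) (i : Fin n)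
    {θ D ρ κ μ bb δ : ℝ} {r : ℕ → ℝ} (H : Hy n K m b w l θ D ρ κ) (hr : Path K r)
    (h0 : r 0 = 0) (hb : r K ≤ bb ^ 2) (hv : bt2 n b K + sw w K ≤ bb ^ 2) (hμ0 : 0 < μ)
    (hμ : m l ≤ μ) (hμ1 : μ ≤ 1) (hδ : 0 < δ) (hδ1 : δ ≤ 1 / 2) :
    |6 * H379.Row.NL K m b w l i - (bt2 n b l * ρ) ^ 3 * kap K m r ^ 2| ≤
      e1 (bt2 n b l) θ D κ μ + (bt2 n b l * ρ) ^ 3 * e2 bb θ κ μ δ (eD n K m b w l r) := by
  obtain ⟨I⟩ : Nonempty (ℕ → Cd n K) := ⟨fun _ => (Sum.inr i, ⟨0, by omega⟩)⟩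
  have h1 := one_level_sk' hm hl i H hμ0 hμ hμ1 I
  have h2 := kl_kap_sk hm hl1 hl hw i H.θ0 H.wκ H.h4 hr h0 hb hv hμ hμ1 hδ hδ1 I
  have h3 : 0 ≤ (bt2 n b l * ρ) ^ 3 := pow_nonneg (mul_nonneg (bt2_nonneg n b l) H.ρ0) 3
  set Y := (skS n K m b w).Ex (fun z _ => kl (skS n K m b w) (fun x => sp x i) I l 3 z ^ 2)
  have h4 : |(bt2 n b l * ρ) ^ 3 * Y - (bt2 n b l * ρ) ^ 3 * kap K m r ^ 2| ≤
      (bt2 n b l * ρ) ^ 3 * e2 bb θ κ μ δ (eD n K m b w l r) := by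
    rw [← mul_sub, abs_mul, abs_of_nonneg h3]
    exact mul_le_mul_of_nonneg_left h2 h3
  exact (abs_sub_le _ _ _).trans (add_le_add h1 h4)

end Vale.Agent.N146.Cut
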