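import Vale.Agent.P146.H758.Sand

/-!
# P146: removal of the deep levels of the SK system (helper86)

`fe_tr`: the free energy of `skS n K m b w` lies between the free energy of the system of the
levels `≤ Q` and the same plus the annealed contribution `(nP ∑ b_j² + n ∑ w_j²) / 2` of the
levels `Q < j ≤ K`.  `sandwichD`: the sandwich between two pure laws, for laws whose exponents of
the levels `≤ Q` lie in `[y, Y]` and which have only fields on the levels above `Q`.
-/

open MeasureTheory ProbabilityTheory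

namespace Vale.Agent.N146.Deep

open Vale.Agent.P157 Vale.Agent.P157.Lv Vale.Agent.P157.Lv.Sy
open Vale.Agent.P146
open Vale.Agent.P146.H425 Vale.Agent.P146.H325 Vale.Agent.P146.R1 Vale.Agent.P146.U
open Vale.Agent.P146.H93 Vale.Agent.P146.H479
open Vale.Agent.P146.H66 (cm em_cm fe_mono_m nP)
open Vale.Agent.P146.H758 (tv tv_nonneg Pu Ex2 sandwich em_mono)

set_option linter.unusedSectionVars false

section gauss

variable {κ : Type} [Fintype κ]

lemma int_lin (v : κ → ℝ) :
    ∫ z, Real.exp (∑ e, v e * z e) ∂(gI κ) = Real.exp ((∑ e, v e ^ 2) / 2) := by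
  have h := H425.gI_shift v (fun z => Real.exp (∑ e, v e * z e))
  rw [h]
  have e : ∀ z : κ → ℝ, Real.exp (-(∑ i, v i * z i) - (∑ i, v i ^ 2) / 2) *
      Real.exp (∑ e, v e * (z + v) e) = Real.exp ((∑ e, v e ^ 2) / 2) := by
    intro z
    rw [← Real.exp_add]
    congr 1
    have : ∑ e, v e * (z + v) e = (∑ i, v i * z i) + ∑ i, v i ^ 2 := by
      rw [← Finset.sum_add_distrib]
      exact Finset.sum_congr rfl fun i _ => by simp only [Pi.add_apply]; ring
    rw [this]
    ring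
  simp_rw [e]
  simp

lemma integrable_lin (v : κ → ℝ) :
    Integrable (fun z : κ → ℝ => Real.exp (∑ e, v e * z e)) (gI κ) := by
  have h : Lip fun z : κ → ℝ => ∑ e, v e * z e :=
    Lip.sum _ fun e _ => (Lip.coord e).const_mul _
  have h2 := (h.exp_eg 1).integrable
  simpa only [one_mul] using h2

variable {F G : (κ → ℝ) → ℝ} {m m' : ℕ → ℝ} {v : ℕ → κ → ℝ}

/-- a chain is monotone in the function and commutes with constants -/
lemma VG_le (hF : Lip F) (hG : Lip G) {r : ℝ} (h : ∀ y, F y ≤ G y + r) : ∀ d l, Pm m l d →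
    ∀ y, VG m v F l d y ≤ VG m v G l d y + r
  | 0, _, _, y => h y
  | d + 1, l, hp, y => by
    rw [VG_succ, VG_succ]
    exact VW_le (Lip.VG hF d (l + 1) hp.tail) (Lip.VG hG d (l + 1) hp.tail) hp.head
      (fun z => VG_le hF hG h d (l + 1) hp.tail _) _

lemma VG_congr' : ∀ d l, (∀ j, l < j → j ≤ l + d → m j = m' j) → VG m v F l d = VG m' v F l d
  | 0, _, _ => rfl
  | d + 1, l, h => by
    rw [VG_succ, VG_succ, h (l + 1) (by omega) (by omega),
      VG_congr' d (l + 1) fun j h1 h2 => h j (by omega) (by omega)]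

end gauss

variable {n K Q : ℕ} {m b w : ℕ → ℝ} {β x y Y : ℝ}

lemma exp_F0 (u : Es n → ℝ) : Real.exp (F0 n u) = ∑ σ, ew u σ := by
  unfold F0
  exact Real.exp_log (sum_ew_pos u)

lemma ew_add (u v z : Es n → ℝ) (σ : Fin n → ℤˣ) :
    ew (u + v * z) σ = ew u σ * Real.exp (∑ e, (st e σ * v e) * z e) := by
  unfold ew
  rw [← Real.exp_add, ← Finset.sum_add_distrib]
  congr 1
  refine Finset.sum_congr rfl fun e _ => ?_
  simp only [Pi.add_apply, Pi.mul_apply]
  ring

/-- the annealed layer -/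
lemma int_F0 (u v : Es n → ℝ) : ∫ z, Real.exp (F0 n (u + v * z)) ∂(gI (Es n)) =
    Real.exp (F0 n u + (∑ e, v e ^ 2) / 2) := by
  simp only [exp_F0, ew_add]
  rw [integral_finsetSum _ fun σ _ => (integrable_lin _).const_mul _, Real.exp_add, exp_F0,
    Finset.sum_mul]
  refine Finset.sum_congr rfl fun σ _ => ?_
  rw [integral_const_mul, int_lin]
  congr 3
  refine Finset.sum_congr rfl fun e _ => ?_
  rw [mul_pow, ← sq_abs (st e σ), abs_st]
  ring

/-- one layer adds at most the annealed contribution -/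
lemma VW_F0_le (hx : 0 < x) (hx1 : x ≤ 1) (v u : Es n → ℝ) :
    VW x v (F0 n) u ≤ F0 n u + (∑ e, v e ^ 2) / 2 := by
  obtain ⟨B, hB⟩ : ∃ B, B = F0 n u + (∑ e, v e ^ 2) / 2 := ⟨_, rfl⟩
  rw [← hB]
  have g1 := (egv (F0_lip n) u v x).integrable
  have g2 : Integrable (fun z => Real.exp (F0 n (u + v * z))) (gI (Es n)) := by
    simpa only [one_mul] using (egv (F0_lip n) u v 1).integrable
  have h1 : ∀ z, Real.exp (x * F0 n (u + v * z)) ≤ Real.exp (x * B) * ((1 - x) + x *
      (Real.exp (-B) * Real.exp (F0 n (u + v * z)))) := by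
    intro z
    have h2 := exp_mul_le_tangent hx.le hx1 (F0 n (u + v * z) - B)
    have h3 : Real.exp (-B) * Real.exp (F0 n (u + v * z)) = Real.exp (F0 n (u + v * z) - B) := by
      rw [← Real.exp_add]; congr 1; ring
    rw [h3]
    refine le_trans ?_ (mul_le_mul_of_nonneg_left h2 (Real.exp_pos _).le)
    rw [← Real.exp_add]
    refine Real.exp_le_exp.2 (le_of_eq ?_)
    ring
  have h4 : ∫ z, Real.exp (x * F0 n (u + v * z)) ∂(gI (Es n)) ≤ Real.exp (x * B) := by
    calc ∫ z, Real.exp (x * F0 n (u + v * z)) ∂(gI (Es n))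
        ≤ ∫ z, Real.exp (x * B) * ((1 - x) + x *
          (Real.exp (-B) * Real.exp (F0 n (u + v * z)))) ∂(gI (Es n)) :=
          integral_mono g1 (((integrable_const (1 - x)).add
            ((g2.const_mul _).const_mul _)).const_mul _) h1
      _ = Real.exp (x * B) * ((1 - x) + x * (Real.exp (-B) * Real.exp B)) := by
          rw [integral_const_mul, integral_add (integrable_const _)
            ((g2.const_mul _).const_mul _), integral_const_mul, integral_const_mul, int_F0, ← hB]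
          simp
      _ = Real.exp (x * B) := by
          rw [← Real.exp_add]
          simp
  rw [← exp_VW (F0_lip n) hx] at h4
  exact le_of_mul_le_mul_left (Real.exp_le_exp.1 h4) hx

/-- the tangent plane of the log-partition function -/
lemma F0_tangent (u v z : Es n → ℝ) :
    F0 n u + ∑ e, ((∑ σ, mu0 σ u * st e σ) * v e) * z e ≤ F0 n (u + v * z) := by
  obtain ⟨t, ht⟩ : ∃ t : (Fin n → ℤˣ) → ℝ, t = fun σ => ∑ e, (st e σ * v e) * z e := ⟨_, rfl⟩
  obtain ⟨a, ha⟩ : ∃ a, a = ∑ σ, mu0 σ u * t σ := ⟨_, rfl⟩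
  have hZ := sum_ew_pos u
  have e1 : ∑ e, ((∑ σ, mu0 σ u * st e σ) * v e) * z e = a := by
    rw [ha, ht]
    simp only [Finset.sum_mul, Finset.mul_sum]
    rw [Finset.sum_comm]
    exact Finset.sum_congr rfl fun σ _ => Finset.sum_congr rfl fun e _ => by ring
  have e2 : ∀ σ, ew u σ = (∑ σ', ew u σ') * mu0 σ u := by
    intro σ
    unfold mu0
    field_simp
  have e3 : ∑ σ, mu0 σ u = 1 := by
    unfold mu0
    rw [← Finset.sum_div, div_self hZ.ne']
  rw [e1, ← Real.exp_le_exp, Real.exp_add, exp_F0, exp_F0]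
  have h1 : ∀ σ, (∑ σ', ew u σ') * Real.exp a * (mu0 σ u * (1 + t σ - a)) ≤ ew (u + v * z) σ := by
    intro σ
    rw [ew_add]
    have e4 : ∑ e, (st e σ * v e) * z e = t σ := by rw [ht]
    rw [e4]
    have h2 : 1 + t σ - a ≤ Real.exp (t σ - a) := by
      have := Real.add_one_le_exp (t σ - a)
      linarith
    have h3 : Real.exp (t σ) = Real.exp a * Real.exp (t σ - a) := by
      rw [← Real.exp_add]; congr 1; ring
    have h4 := mul_le_mul_of_nonneg_left h2 (show 0 ≤ ew u σ * Real.exp a from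
      mul_nonneg (ew_pos u σ).le (Real.exp_pos a).le)
    rw [h3]
    calc (∑ σ', ew u σ') * Real.exp a * (mu0 σ u * (1 + t σ - a))
        = ((∑ σ', ew u σ') * mu0 σ u) * Real.exp a * (1 + t σ - a) := by ring
      _ = ew u σ * Real.exp a * (1 + t σ - a) := by rw [← e2]
      _ ≤ _ := by linarith
  have h5 := Finset.sum_le_sum fun σ (_ : σ ∈ Finset.univ) => h1 σ
  rw [← Finset.mul_sum] at h5
  have e5 : ∑ σ, mu0 σ u * (1 + t σ - a) = 1 := by
    have : ∀ σ, mu0 σ u * (1 + t σ - a) = (1 - a) * mu0 σ u + mu0 σ u * t σ := fun σ => by ring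
    simp only [this]
    rw [Finset.sum_add_distrib, ← Finset.mul_sum, e3, ← ha]
    ring
  rw [e5, mul_one] at h5
  exact h5

/-- one layer does not decrease the log-partition function -/
lemma le_VW_F0 (hx : 0 < x) (v u : Es n → ℝ) : F0 n u ≤ VW x v (F0 n) u := by
  obtain ⟨a, ha⟩ : ∃ a : Es n → ℝ, a = fun e => x * ((∑ σ, mu0 σ u * st e σ) * v e) := ⟨_, rfl⟩
  have h1 : ∀ z, Real.exp (x * F0 n u) * Real.exp (∑ e, a e * z e) ≤
      Real.exp (x * F0 n (u + v * z)) := by
    intro z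
    rw [← Real.exp_add]
    refine Real.exp_le_exp.2 ?_
    have h2 := mul_le_mul_of_nonneg_left (F0_tangent u v z) hx.le
    have e : ∑ e, a e * z e = x * ∑ e, ((∑ σ, mu0 σ u * st e σ) * v e) * z e := by
      rw [Finset.mul_sum, ha]
      exact Finset.sum_congr rfl fun e _ => by ring
    rw [e]
    linarith
  have h3 := integral_mono ((integrable_lin a).const_mul (Real.exp (x * F0 n u)))
    (egv (F0_lip n) u v x).integrable h1
  rw [integral_const_mul, int_lin, ← exp_VW (F0_lip n) hx, ← Real.exp_add] at h3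
  have h4 := Real.exp_le_exp.1 h3
  have h5 : 0 ≤ (∑ e, a e ^ 2) / 2 := by positivity
  exact le_of_mul_le_mul_left (by linarith) hx

/-- a chain of layers with exponents in `(0, 1]` on the log-partition function -/
lemma VG_F0 (v : ℕ → Es n → ℝ) : ∀ d l, Pm m l d → (∀ j, l < j → j ≤ l + d → m j ≤ 1) → ∀ u,
    F0 n u ≤ VG m v (F0 n) l d u ∧ VG m v (F0 n) l d u ≤
      F0 n u + (∑ j ∈ Finset.Ico l (l + d), ∑ e, v (j + 1) e ^ 2) / 2
  | 0, l, _, _, u => by simp
  | d + 1, l, hp, h1, u => by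
    have ih := VG_F0 v d (l + 1) hp.tail fun j h2 h3 => h1 j (by omega) (by omega)
    have hL := Lip.VG (v := v) (F0_lip n) d (l + 1) hp.tail
    rw [VG_succ]
    constructor
    · refine (le_VW_F0 hp.head (v (l + 1)) u).trans ?_
      have h2 := VW_le (F0_lip n) hL hp.head (r := 0) (y := u) (y' := u)
        (fun z => by rw [add_zero]; exact (ih _).1) (v (l + 1))
      rwa [add_zero] at h2
    · have h2 := VW_le hL (F0_lip n) hp.head (y := u) (y' := u) (fun z => (ih _).2) (v (l + 1))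
      have h3 := VW_F0_le hp.head (h1 (l + 1) (by omega) (by omega)) (v (l + 1)) u
      rw [Finset.sum_eq_sum_Ico_succ_bot (show l < l + (d + 1) by omega),
        show l + (d + 1) = l + 1 + d by omega]
      linarith

/-- the exponents of the levels `≤ Q` -/
noncomputable def tr (Q : ℕ) (m : ℕ → ℝ) (j : ℕ) : ℝ := if j ≤ Q then m j else 1

lemma tr_lo {j : ℕ} (h : j ≤ Q) : tr Q m j = m j := if_pos h

lemma em_le1 (hm : Em K m) {j : ℕ} (hj : j ≤ K + 1) : m j ≤ 1 := by
  have := em_mono hm hj le_rfl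
  rwa [hm.mK] at this

lemma em_tr (hm : Em K m) (hQ : 1 ≤ Q) (hQK : Q ≤ K) : Em Q (tr Q m) where
  m0 := by rw [tr_lo (Nat.zero_le _)]; exact hm.m0
  mK := if_neg (by omega)
  mono := by
    intro l hl
    rw [tr_lo hl]
    by_cases h : l + 1 ≤ Q
    · rw [tr_lo h]
      exact hm.mono l (by omega)
    · have : tr Q m (l + 1) = 1 := if_neg h
      rw [this]
      exact em_le1 hm (by omega)
  pos := by rw [tr_lo hQ]; exact hm.pos

/-- the total variance of the levels `Q + 1, …, K` -/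
def dv (Q K : ℕ) (w : ℕ → ℝ) : ℝ := ∑ j ∈ Finset.Ico Q K, w (j + 1) ^ 2

lemma dv_nonneg (Q K : ℕ) (w : ℕ → ℝ) : 0 ≤ dv Q K w := Finset.sum_nonneg fun _ _ => sq_nonneg _

lemma dv_zero (h : ∀ j, Q < j → j ≤ K → b j = 0) : dv Q K b = 0 := by
  refine Finset.sum_eq_zero fun j hj => ?_
  rw [Finset.mem_Ico] at hj
  rw [h (j + 1) (by omega) (by omega)]
  ring

lemma tv_add_dv (hQK : Q ≤ K) (w : ℕ → ℝ) : tv Q w + dv Q K w = tv K w := by
  unfold tv dv
  rw [Finset.range_eq_Ico, Finset.range_eq_Ico,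
    Finset.sum_Ico_consecutive _ (Nat.zero_le _) hQK]

/-- **Removal of the levels above `Q`.** -/
theorem fe_tr (hm : Em K m) (hQ : 1 ≤ Q) (hQK : Q ≤ K) (b w : ℕ → ℝ) :
    (skS n Q (tr Q m) b w).fe ≤ (skS n K m b w).fe ∧
      (skS n K m b w).fe ≤ (skS n Q (tr Q m) b w).fe + (nP n * dv Q K b + n * dv Q K w) / 2 := by
  have hp := Em.pm hm
  obtain ⟨d, rfl⟩ : ∃ d, K = Q + d := ⟨K - Q, by omega⟩
  have hp1 : Pm m 0 Q := hp.mono le_rfl (by omega)
  have hp2 : Pm m Q d := hp.mono (Nat.zero_le _) (by omega)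
  have k := VG_F0 (n := n) (va b w) d Q hp2 fun j h1 h2 => em_le1 hm (by omega)
  have hL := Lip.VG (v := va b w) (F0_lip n) d Q hp2
  have e1 : (skS n Q (tr Q m) b w).fe = VG m (va b w) (F0 n) 0 Q 0 := by
    rw [fe_eq (em_tr hm hQ hQK), VG_congr' Q 0 fun j _ h2 => tr_lo (by omega)]
  have e2 : (skS n (Q + d) m b w).fe = VG m (va b w) (VG m (va b w) (F0 n) Q d) 0 Q 0 := by
    have h := VG_add (m := m) (v := va b w) (F0 n) d Q 0
    rw [Nat.zero_add] at h
    rw [fe_eq hm, h]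
  have e3 : ∑ j ∈ Finset.Ico Q (Q + d), ∑ e : Es n, va b w (j + 1) e ^ 2 =
      nP n * dv Q (Q + d) b + n * dv Q (Q + d) w := by
    unfold dv
    rw [Finset.mul_sum, Finset.mul_sum, ← Finset.sum_add_distrib]
    refine Finset.sum_congr rfl fun j _ => ?_
    rw [Fintype.sum_sum_type]
    simp only [va_inl, va_inr, Finset.sum_const, Finset.card_univ, Fintype.card_fin, nsmul_eq_mul]
  rw [e1, e2]
  constructor
  · have h := VG_le (m := m) (v := va b w) (F0_lip n) hL (r := 0)
      (fun u => by rw [add_zero]; exact (k u).1) Q 0 hp1 0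
    rwa [add_zero] at h
  · rw [← e3]
    exact VG_le (m := m) (v := va b w) hL (F0_lip n) (fun u => (k u).2) Q 0 hp1 0

/-- the exponents of the levels `1, …, Q` lie in `[y, Y]`; the levels above `Q` are free -/
structure ExD (K Q : ℕ) (m : ℕ → ℝ) (y Y : ℝ) : Prop where
  em : Em K m
  Q1 : 1 ≤ Q
  QK : Q ≤ K
  y0 : 0 < y
  Y1 : Y ≤ 1
  ge : y ≤ m 1
  le : m Q ≤ Y

lemma ExD.ex2 (h : ExD K Q m y Y) : Ex2 Q (tr Q m) y Y where
  em := em_tr h.em h.Q1 h.QK
  K1 := h.Q1
  y0 := h.y0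
  Y1 := h.Y1
  ge := by rw [tr_lo h.Q1]; exact h.ge
  le := by rw [tr_lo le_rfl]; exact h.le

/-- **The sandwich with deep levels.** -/
theorem sandwichD (h : ExD K Q m y Y) (hβ : 0 ≤ β) (hb : tv Q b = β ^ 2 / n)
    (hb0 : ∀ j, Q < j → j ≤ K → b j = 0) :
    Pu n β y (tv Q w) ≤ (skS n K m b w).fe ∧
      (skS n K m b w).fe ≤ Pu n β Y (tv Q w) + n / 2 * dv Q K w := by
  obtain ⟨h1, h2⟩ := sandwich (w := w) h.ex2 hβ hb
  obtain ⟨h3, h4⟩ := fe_tr (n := n) h.em h.Q1 h.QK b w
  rw [dv_zero hb0] at h4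
  constructor <;> linarith

end Vale.Agent.N146.Deep
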