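import Vale.Agent.N146.FourA

/-!
# P146: the fourth moment of the overlap below a cut level (helper86)

`sk_four_cut`: for two replicas of `skS n K m b w` which split at a level `l < Q ≤ K`,
`E R⁴ ≤ 540 (A / q)² + 2 / n²`, `q = κ m_1 m_Q (n (n - 1) / 2) b_Q²`, where
`(1 + κ) m_Q ≤ m_(Q+1)` and `A ≥ max(1, m_1 (fe(exponent of the level Q times 1 + κ) - fe))`.
-/

open MeasureTheory ProbabilityTheory

namespace Vale.Agent.N146.Four

open Vale.Agent.P157 Vale.Agent.P157.Lv Vale.Agent.P157.Lv.Sy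
open Vale.Agent.P146.H784 Vale.Agent.P146.H425 Vale.Agent.P146.H785
open Vale.Agent.P146.H66
open Vale.Agent.P146

set_option linter.unusedSectionVars false
set_option linter.unusedVariables false

section general

variable {ι X : Type} [Fintype ι] [DecidableEq ι] [Fintype X] [DecidableEq X] [Nonempty X]
  {S : Sy ι X} {a : X → ι → ℝ} {c : X → ℝ} {N Q : ℕ} {φ : X → Fin N → ℝ} {zc : Fin N → ι}
  {s κ : ℝ}

lemma splQ_m_Q1 : (splQ S N Q).m (Q + 1) = S.m Q := by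
  show (if Q + 1 ≤ Q then S.m (Q + 1) else S.m (Q + 1 - 1)) = S.m Q
  rw [if_neg (by omega)]
  rfl

lemma splQ_m_Q2 : (splQ S N Q).m (Q + 1 + 1) = S.m (Q + 1) := by
  show (if Q + 1 + 1 ≤ Q then S.m (Q + 1 + 1) else S.m (Q + 1 + 1 - 1)) = S.m (Q + 1)
  rw [if_neg (by omega)]
  rfl

/-- the increment of the free energy of the cut system -/
lemma incr_splQ (hS : S.Reg) (hQ : 1 ≤ Q) (hQK : Q ≤ S.K) (hκ : 0 ≤ κ)
    (h2 : (1 + κ) * S.m Q ≤ S.m (Q + 1)) {A : ℝ}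
    (hA : ∀ z, S.m 1 * ((wm S (upQ Q κ S.m)).lg 0 z - S.lg 0 z) ≤ A) (z : Ind S N → ℝ) :
    (splQ S N Q).m 1 * ((wm (splQ S N Q) (upQ (Q + 1) κ (splQ S N Q).m)).lg 0 z -
      (splQ S N Q).lg 0 z) ≤ A := by
  have hmK : 0 < S.m Q := hS.m_pos hQ (by omega)
  have hreg' := splQ_reg (N := N) hS hQ hQK
  have hreg2 := upQ_reg hS hQ hQK hκ h2
  have e1 : (splQ S N Q).m 1 = S.m 1 := if_pos hQ
  have e0 : gQ Q 0 = 0 := if_pos (by omega)
  have e2 : (splQ S N Q).lg 0 z = S.lg 0 (pjQ S N Q z) := by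
    have := (pb_splQ (N := N) hS hQ hQK).lg hS hreg' 0 (Nat.zero_le _) z
    rwa [e0] at this
  have hreg3 : (wm (splQ S N Q) (upQ (Q + 1) κ (splQ S N Q).m)).Reg :=
    upQ_reg hreg' (Nat.le_add_left 1 _) (show Q + 1 ≤ S.K + 1 by omega) hκ
      (by rw [splQ_m_Q1, splQ_m_Q2]; exact h2)
  have hreg4 : (splQ (wm S (upQ Q κ S.m)) N Q).Reg :=
    splQ_reg (S := wm S (upQ Q κ S.m)) hreg2 hQ hQK
  have e3 : (splQ (wm S (upQ Q κ S.m)) N Q).lg 0 z =
      (wm S (upQ Q κ S.m)).lg 0 (pjQ S N Q z) := by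
    have h3 := (pb_splQ (S := wm S (upQ Q κ S.m)) (N := N) hreg2 hQ hQK).lg hreg2 hreg4 0
      (Nat.zero_le _) z
    rw [e0] at h3
    exact h3
  have h4 : (wm (splQ S N Q) (upQ (Q + 1) κ (splQ S N Q).m)).lg 0 z ≤
      (splQ (wm S (upQ Q κ S.m)) N Q).lg 0 z := by
    have h5 := lg_mono_m (S := wm (splQ S N Q) (upQ (Q + 1) κ (splQ S N Q).m))
      (m' := fun j => if j ≤ Q then upQ Q κ S.m j else upQ Q κ S.m (j - 1)) hreg3 hreg4 (by
        intro j hj1 hj2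
        show upQ (Q + 1) κ (splQ S N Q).m j ≤
          (if j ≤ Q then upQ Q κ S.m j else upQ Q κ S.m (j - 1))
        have hd : upQ (Q + 1) κ (splQ S N Q).m j = if j = Q + 1 then (1 + κ) * S.m Q else
            (if j ≤ Q then S.m j else S.m (j - 1)) := by
          unfold upQ
          rw [splQ_m_Q1]
          rfl
        rw [hd]
        by_cases h6 : j = Q + 1
        · rw [if_pos h6, if_neg (by omega), h6]
          unfold upQ
          rw [if_pos (by omega)]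
        · rw [if_neg h6]
          by_cases h7 : j ≤ Q
          · rw [if_pos h7, if_pos h7]
            unfold upQ
            split_ifs with h8
            · rw [h8]
              have := mul_nonneg hκ hmK.le
              linarith
            · exact le_rfl
          · rw [if_neg h7, if_neg h7]
            unfold upQ
            rw [if_neg (by omega)]) 0 (Nat.zero_le _) z
    exact h5
  rw [e1, e2]
  refine le_trans ?_ (hA (pjQ S N Q z))
  refine mul_le_mul_of_nonneg_left ?_ hS.pos.le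
  rw [e3] at h4
  linarith

/-- **The fourth moment**, for replicas which split at the level `Q - 1`. -/
theorem pair_sq_lastQ (h : LinS S a c) (hQ : 1 ≤ Q) (hQK : Q ≤ S.K) (hκ : 0 < κ) (hκ1 : κ ≤ 1)
    (h2 : (1 + κ) * S.m Q ≤ S.m (Q + 1)) (hL : LsQ S a φ zc s Q) {A : ℝ} (hA1 : 1 ≤ A)
    (hA : ∀ z, S.m 1 * ((wm S (upQ Q κ S.m)).lg 0 z - S.lg 0 z) ≤ A) {l : ℕ} (hl : l + 1 = Q) :
    S.pairEx l (fun x x' => Rov φ x x' ^ 2) ≤
      270 * (A / (κ * (S.m 1 * S.m Q * (N * s ^ 2)))) ^ 2 := by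
  have hS := h.reg
  have hN' : (0 : ℝ) < N := by exact_mod_cast hL.N0
  have hs := hL.s0
  have hm1 : 0 < S.m 1 := hS.pos
  have hmK : 0 < S.m Q := hS.m_pos hQ (by omega)
  have hm1K : S.m 1 ≤ S.m Q := hS.m_mono hQ (by omega)
  have hreg' := splQ_reg (N := N) hS hQ hQK
  have hF := fld_splQ h hQ hQK hL
  have hL' := lsQ_splQ hL
  have hlin' := linS_splQ (N := N) h hQ hQK
  have hlK : l < S.K := by omega
  have hlK' : l < (splQ S N Q).K := by
    show l < S.K + 1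
    omega
  have hml : (splQ S N Q).m (l + 1) = S.m Q := by
    show (if l + 1 ≤ Q then S.m (l + 1) else S.m (l + 1 - 1)) = S.m Q
    rw [if_pos (by omega), hl]
  have hmo : (splQ S N Q).m 1 = S.m 1 := if_pos hQ
  have hrs : (rh * s) ^ 2 = s ^ 2 / 2 := by
    rw [mul_pow, rh_sq]; ring
  obtain ⟨q, hq⟩ : ∃ q, q = κ * (S.m 1 * S.m Q * (N * s ^ 2)) := ⟨_, rfl⟩
  have hq0 : 0 < q := by rw [hq]; positivity
  rw [← hq]
  have hmom := fun p : ℕ => rho_momentQ (S := splQ S N Q) (Q := Q + 1) hlin'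
    (Nat.le_add_left 1 _) (show Q + 1 ≤ S.K + 1 by omega) hκ
    (by rw [splQ_m_Q1, splQ_m_Q2]; exact h2) hL' hA1 (incr_splQ hS hQ hQK hκ.le h2 hA)
    (l := l + 1) (by omega) p
  have hk4 : 2 * A / (κ * ((splQ S N Q).m 1 * (splQ S N Q).m (Q + 1) * (N * (rh * s) ^ 2))) =
      4 * A / q := by
    rw [splQ_m_Q1, hmo, hrs, hq]
    field_simp
    ring
  have he : Real.exp 1 < 2.7182818286 := Real.exp_one_lt_d9
  have m1 : (splQ S N Q).Ex (fun z _ => rho (splQ S N Q) φ (l + 1) z) ≤ 11 * (A / q) := by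
    have h3 := hmom 1
    rw [hk4] at h3
    simp only [pow_one, Nat.factorial_one, Nat.cast_one, mul_one] at h3
    have h4 : 0 ≤ A / q := by positivity
    have h5 : 4 * A / q = 4 * (A / q) := by ring
    rw [h5] at h3
    nlinarith
  have m2 : (splQ S N Q).Ex (fun z _ => rho (splQ S N Q) φ (l + 1) z ^ 2) ≤
      87 * (A / q) ^ 2 := by
    have h3 := hmom 2
    rw [hk4] at h3
    have h4 : 0 ≤ (A / q) ^ 2 := by positivity
    have h5 : (4 * A / q) ^ 2 = 16 * (A / q) ^ 2 := by ring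
    rw [h5] at h3
    simp only [Nat.factorial_two, Nat.cast_ofNat] at h3
    nlinarith
  have hx : ∀ z, X4 (splQ S N Q) φ l z ≤ 8 / (N * s ^ 2 * S.m Q ^ 2) *
        (splQ S N Q).T l (fun z _ => rho (splQ S N Q) φ (l + 1) z) z +
      2 * (splQ S N Q).T l (fun z _ => rho (splQ S N Q) φ (l + 1) z) z ^ 2 := by
    intro z
    have h3 := X4_le hF hlK' (inj_zsQ hL hl) (by
      show 0 < (if l + 1 = Q then rh * s else 0)
      rw [if_pos hl]
      exact hL'.s0) z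
    have e1 : (fun j => if j = Q then rh * s else 0) (l + 1) = rh * s := if_pos hl
    simp only at e1
    rw [e1, hml, hrs] at h3
    refine h3.trans (le_of_eq ?_)
    have e2 : 4 / ((N : ℝ) * (s ^ 2 / 2) * S.m Q ^ 2) = 8 / (N * s ^ 2 * S.m Q ^ 2) := by
      field_simp
      ring
    rw [e2]
  have er : EG (rho (splQ S N Q) φ (l + 1)) := H784.eg_rho hreg' hlK'
  have et : EG ((splQ S N Q).T l (fun z _ => rho (splQ S N Q) φ (l + 1) z)) :=
    hreg'.eg_T hlK'.le (Nh.fst er)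
  have h5 := hreg'.Ex_mono (Nh.fst (eg_X4 (φ := φ) hreg' hlK'.le))
    (Nh.add (Nh.fst (et.const_mul (8 / (N * s ^ 2 * S.m Q ^ 2))))
      (Nh.fst ((et.pow 2).const_mul 2))) fun z _ => hx z
  rw [hreg'.Ex_add (Nh.fst (et.const_mul _)) (Nh.fst ((et.pow 2).const_mul 2)),
    Ex_const_mul, Ex_const_mul, hreg'.Ex_T hlK'.le (Nh.fst er)] at h5
  have h6 : (splQ S N Q).Ex (fun z _ =>
      (splQ S N Q).T l (fun z _ => rho (splQ S N Q) φ (l + 1) z) z ^ 2) ≤
      (splQ S N Q).Ex (fun z _ => rho (splQ S N Q) φ (l + 1) z ^ 2) := by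
    rw [← hreg'.Ex_T hlK'.le (Nh.fst (er.pow 2))]
    exact hreg'.Ex_mono (Nh.fst (et.pow 2)) (Nh.fst (hreg'.eg_T hlK'.le (Nh.fst (er.pow 2))))
      fun z _ => hreg'.sq_T_le hlK'.le (Nh.fst er) z
  have e7 : (splQ S N Q).pairEx l (fun x x' => Rov φ x x' ^ 2) =
      S.pairEx l (fun x x' => Rov φ x x' ^ 2) := by
    have h8 := (pb_splQ (N := N) hS hQ hQK).pairEx hS hreg' hlK.le (fun x x' => Rov φ x x' ^ 2)
    have e8 : gQ Q l = l := if_pos (by omega)
    rwa [e8] at h8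
  have e9 : (splQ S N Q).pairEx l (fun x x' => Rov φ x x' ^ 2) =
      (splQ S N Q).Ex (fun z _ => X4 (splQ S N Q) φ l z) := by
    rw [hF.pairEx_Rov_sq hlK'.le, ← Ex_const_mul]
    rfl
  rw [← e7, e9]
  have h10 : 8 / (N * s ^ 2 * S.m Q ^ 2) ≤ 8 / q := by
    refine div_le_div_of_nonneg_left (by norm_num) hq0 ?_
    rw [hq]
    have h11 : S.m 1 * S.m Q ≤ S.m Q ^ 2 := by nlinarith
    have h12 := mul_le_mul_of_nonneg_right h11 (by positivity : 0 ≤ (N : ℝ) * s ^ 2)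
    have h13 : κ * (S.m 1 * S.m Q * (N * s ^ 2)) ≤ 1 * (S.m 1 * S.m Q * (N * s ^ 2)) :=
      mul_le_mul_of_nonneg_right hκ1 (by positivity)
    linarith
  have h12 : 0 ≤ (splQ S N Q).Ex (fun z _ => rho (splQ S N Q) φ (l + 1) z) := by
    have h13 := hreg'.Ex_mono (f := fun _ _ => (0 : ℝ)) (Nh.snd fun _ => 0) (Nh.fst er)
      fun z _ => (rho_bd hreg' hL.N0 hL.norm hlK' z).1
    rwa [hreg'.Ex_const] at h13
  have h14 := mul_le_mul h10 m1 h12 (by positivity)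
  have h15 : 8 / q * (11 * (A / q)) ≤ 88 * (A / q) ^ 2 := by
    have e1 : 8 / q * (11 * (A / q)) = 88 * (A / q ^ 2) := by
      field_simp
      ring
    have e2 : (A / q) ^ 2 = A * (A / q ^ 2) := by
      field_simp
    rw [e1, e2]
    have : 0 ≤ A / q ^ 2 := by positivity
    nlinarith
  have h16 : 0 ≤ (A / q) ^ 2 := by positivity
  linarith

/-- **The fourth moment**, for replicas which split at any level `l < Q`. -/
theorem pair_sq_leQ (h : LinS S a c) (hQ : 1 ≤ Q) (hQK : Q ≤ S.K) (hκ : 0 < κ) (hκ1 : κ ≤ 1)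
    (h2 : (1 + κ) * S.m Q ≤ S.m (Q + 1)) (hL : LsQ S a φ zc s Q) {A : ℝ} (hA1 : 1 ≤ A)
    (hA : ∀ z, S.m 1 * ((wm S (upQ Q κ S.m)).lg 0 z - S.lg 0 z) ≤ A) {l : ℕ} (hl : l < Q) :
    S.pairEx l (fun x x' => Rov φ x x' ^ 2) ≤
      270 * (A / (κ * (S.m 1 * S.m Q * (N * s ^ 2)))) ^ 2 := by
  have hS := h.reg
  have hreg' := splQ_reg (N := N) hS hQ hQK
  have hF := fld_splQ h hQ hQK hL
  have h1 := pair_sq_lastQ (l := Q - 1) h hQ hQK hκ hκ1 h2 hL hA1 hA (by omega)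
  have e7 : ∀ j, j < Q → (splQ S N Q).Ex (fun z _ => X4 (splQ S N Q) φ j z) =
      S.pairEx j (fun x x' => Rov φ x x' ^ 2) := by
    intro j hj
    have h8 := (pb_splQ (N := N) hS hQ hQK).pairEx hS hreg' (show j ≤ S.K by omega)
      (fun x x' => Rov φ x x' ^ 2)
    have e8 : gQ Q j = j := if_pos hj
    rw [e8] at h8
    rw [← h8, hF.pairEx_Rov_sq (show j ≤ S.K + 1 by omega), ← Ex_const_mul]
    rfl
  rw [← e7 l hl]
  rw [← e7 (Q - 1) (by omega)] at h1
  exact (X4_mono hreg' (by omega) (show Q - 1 ≤ S.K + 1 by omega)).trans h1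

end general

section sk

open Vale.Agent.P146.H325 Vale.Agent.P146.H93

variable {n K Q : ℕ} {m b w : ℕ → ℝ} {κ : ℝ}

/-- the coordinates of the bonds of the level `Q` -/
noncomputable def zbQ (hQ : 1 ≤ Q) (hQK : Q ≤ K) (i : Fin (nP n)) : Cd n K :=
  (Sum.inl ((Fintype.equivFin (Pair n)).symm i), ⟨Q - 1, by omega⟩)

/-- the bonds of the level `Q` -/
lemma lsQ_sk (hn : 2 ≤ n) (hQ : 1 ≤ Q) (hQK : Q ≤ K) (hb : 0 < b Q) :
    LsQ (skS n K m b w) (aSK n K b w) (ps n) (zbQ hQ hQK) (b Q) Q where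
  N0 := by
    have h := nP_eq n
    have hn' : (2 : ℝ) ≤ n := by exact_mod_cast hn
    have h2 : (0 : ℝ) < nP n := by rw [h]; nlinarith
    exact_mod_cast h2
  s0 := hb
  norm := by
    intro x
    simp only [ps_sq, Finset.sum_const, Finset.card_univ, Fintype.card_fin, nsmul_eq_mul, mul_one]
  inj := by
    intro i j hij
    unfold zbQ at hij
    simp only [Prod.mk.injEq, Sum.inl.injEq, and_true] at hij
    exact (Fintype.equivFin (Pair n)).symm.injective hij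
  lev := by
    intro i
    show Q - 1 + 1 = Q
    omega
  a := by
    intro i x
    show am b w (Sum.inl ((Fintype.equivFin (Pair n)).symm i)) (Q - 1 + 1) * _ = b Q * ps n x i
    rw [show Q - 1 + 1 = Q by omega]
    rfl

lemma em_upQ (hQ : 1 ≤ Q) (hQK : Q ≤ K) (hm : Em K m) (hκ : 0 ≤ κ)
    (h2 : (1 + κ) * m Q ≤ m (Q + 1)) : Em K (upQ Q κ m) := by
  have h := upQ_reg (Q := Q) (linS_sk (n := 2) hm (fun _ => 0) (fun _ => 0)).reg hQ
    (show Q ≤ (skS 2 K m (fun _ => 0) (fun _ => 0)).K from hQK) hκ h2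
  exact ⟨h.m0, h.mK, h.mono, h.pos⟩

/-- **The fourth moment of the overlap below the cut level `Q`, SK system.** -/
theorem sk_four_cut (hn : 2 ≤ n) (hQ : 1 ≤ Q) (hQK : Q ≤ K) (hm : Em K m) (hb : 0 < b Q)
    (hκ : 0 < κ) (hκ1 : κ ≤ 1) (h2 : (1 + κ) * m Q ≤ m (Q + 1)) {A : ℝ} (hA1 : 1 ≤ A)
    (hA : m 1 * ((skS n K (upQ Q κ m) b w).fe - (skS n K m b w).fe) ≤ A) {l : ℕ} (hl : l < Q) :
    (skS n K m b w).pairEx l (fun x x' => Rov (fun x i => sp x i) x x' ^ 4) ≤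
      540 * (A / (κ * (m 1 * m Q * (nP n * b Q ^ 2)))) ^ 2 + 2 / (n : ℝ) ^ 2 := by
  have hlin := linS_sk hm b w (n := n)
  have hS := hlin.reg
  have hL := lsQ_sk (m := m) (w := w) hn hQ hQK hb
  have hA' : ∀ z, (skS n K m b w).m 1 * ((wm (skS n K m b w) (upQ Q κ (skS n K m b w).m)).lg 0 z -
      (skS n K m b w).lg 0 z) ≤ A := by
    intro z
    have e1 : (wm (skS n K m b w) (upQ Q κ (skS n K m b w).m)).lg 0 z =
        (skS n K (upQ Q κ m) b w).lg 0 z := rfl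
    rw [e1, lg0_eq_fe (em_upQ hQ hQK hm hκ.le h2), lg0_eq_fe hm]
    exact hA
  have h1 := pair_sq_leQ (κ := κ) hlin hQ hQK hκ hκ1 h2 hL hA1 hA' hl
  have h4 : (skS n K m b w).pairEx l (fun x x' => Rov (fun x i => sp x i) x x' ^ 4) ≤
      (skS n K m b w).pairEx l (fun x x' => 2 * Rov (ps n) x x' ^ 2 + 2 / (n : ℝ) ^ 2) :=
    hS.pairEx_mono (show l ≤ K by omega) fun x x' => pow_four_le hn x x'
  rw [hS.pairEx_add (show l ≤ K by omega), hS.pairEx_const_mul, hS.pairEx_const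
    (show l ≤ K by omega)] at h4
  have h5 : (skS n K m b w).m 1 = m 1 := rfl
  have h6 : (skS n K m b w).m Q = m Q := rfl
  rw [h5, h6] at h1
  linarith

end sk

end Vale.Agent.N146.Four
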