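import Vale.Agent.N146.DeepA
import Vale.Agent.N146.DeepV
import Vale.Agent.N146.FourB
import Vale.Agent.P146.H758.Box
import Vale.Agent.P146.H479.Der

/-!
# P146: a priori bounds and selection of the fields for laws with deep levels (helper86)

The laws `skS n K m b w` have their exponents of the levels `≤ Q` in `[y, Y]` and only fields on the
levels above `Q` (`ExD`, `b j = 0` for `j > Q`).

* `nearD`, `fe_diffD`: the free energy from the a priori bound `Ap` of the two pure laws.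
* `sk_fourD`: the fourth moment of the overlap at the levels below `Q`.
* `respD`: the responses of the fields of the levels `≤ Q`.
* `sel_ggB`: the selection with one radius and one oscillation per field.
* `sel_boxD`: one point of the box with small deficits for all fields and all laws.
-/

open MeasureTheory ProbabilityTheory

namespace Vale.Agent.N146.Deep

open Vale.Agent.P157 Vale.Agent.P157.Lv Vale.Agent.P157.Lv.Sy
open Vale.Agent.P146
open Vale.Agent.P146.H425 Vale.Agent.P146.H325 Vale.Agent.P146.R1 Vale.Agent.P146.U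
open Vale.Agent.P146.H93 Vale.Agent.P146.H479
open Vale.Agent.P146.H66 (nP)
open Vale.Agent.P146.H758 (tv tv_nonneg Pu Ex2 Ap em_mono)
open Vale.Agent.P146.H186 (amp amp_mem amp_update cSK VSK SK_resp VSK_le wc gg_SK)
open Vale.Agent.N146.Four (upQ em_upQ sk_four_cut)

set_option linter.unusedSectionVars false

variable {n K Q : ℕ} {m b w : ℕ → ℝ} {β y Y V1 A E D κ : ℝ}

/-- the free energy of every law with deep levels -/
theorem nearD (hA : Ap n β y Y V1 A E) (h : ExD K Q m y Y) (hβ : 0 ≤ β)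
    (hb : tv Q b = β ^ 2 / n) (hb0 : ∀ j, Q < j → j ≤ K → b j = 0) (hV : tv Q w ≤ V1) :
    A + n / β / 2 * tv Q w - E ≤ (skS n K m b w).fe ∧
      (skS n K m b w).fe ≤ A + n / β / 2 * tv Q w + E + n / 2 * dv Q K w := by
  obtain ⟨h1, h2⟩ := sandwichD (w := w) h hβ hb hb0
  have h3 := hA.lo _ (tv_nonneg Q w) hV
  have h4 := hA.up _ (tv_nonneg Q w) hV
  constructor <;> linarith

/-- two laws with the same total field variance of the low levels -/
theorem fe_diffD (hA : Ap n β y Y V1 A E) {K' Q' : ℕ} {m' b' w' : ℕ → ℝ} (h : ExD K Q m y Y)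
    (h' : ExD K' Q' m' y Y) (hβ : 0 ≤ β) (hb : tv Q b = β ^ 2 / n)
    (hb0 : ∀ j, Q < j → j ≤ K → b j = 0) (hb' : tv Q' b' = β ^ 2 / n)
    (hb0' : ∀ j, Q' < j → j ≤ K' → b' j = 0) (hV : tv Q w ≤ V1) (hw : tv Q' w' = tv Q w) :
    (skS n K' m' b' w').fe - (skS n K m b w).fe ≤ 2 * E + n / 2 * dv Q' K' w' := by
  have h1 := (nearD hA h hβ hb hb0 hV).1
  have h2 := (nearD hA h' hβ hb' hb0' (w := w') (by rw [hw]; exact hV)).2
  rw [hw] at h2
  linarith

lemma ExD.up (h : ExD K Q m y Y) (hκ : 0 ≤ κ) (h2 : (1 + κ) * m Q ≤ m (Q + 1))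
    (h3 : (1 + κ) * m Q ≤ Y) : ExD K Q (upQ Q κ m) y Y where
  em := em_upQ h.Q1 h.QK h.em hκ h2
  Q1 := h.Q1
  QK := h.QK
  y0 := h.y0
  Y1 := h.Y1
  ge := by
    unfold upQ
    split_ifs with h4
    · have h5 := h.ge
      have h6 := h.em.pos
      rw [h4] at h5 h6
      nlinarith
    · exact h.ge
  le := by
    unfold upQ
    rw [if_pos rfl]
    exact h3

/-- **The fourth moment of the overlap at the levels below `Q`.** -/
theorem sk_fourD (hn : 2 ≤ n) (hA : Ap n β y Y V1 A E) (h : ExD K Q m y Y) (hβ : 0 ≤ β)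
    (hb : tv Q b = β ^ 2 / n) (hb0 : ∀ j, Q < j → j ≤ K → b j = 0) (hV : tv Q w ≤ V1)
    (hbQ : 0 < b Q) (hκ : 0 < κ) (hκ1 : κ ≤ 1) (h2 : (1 + κ) * m Q ≤ m (Q + 1))
    (h3 : (1 + κ) * m Q ≤ Y) {B : ℝ} (hB1 : 1 ≤ B) (hB : m 1 * (2 * E + n / 2 * dv Q K w) ≤ B)
    {l : ℕ} (hl : l < Q) :
    (skS n K m b w).pairEx l (fun x x' => Rov (fun x i => H325.sp x i) x x' ^ 4) ≤
      540 * (B / (κ * (m 1 * m Q * (nP n * b Q ^ 2)))) ^ 2 + 2 / (n : ℝ) ^ 2 :=
  sk_four_cut hn h.Q1 h.QK h.em hbQ hκ hκ1 h2 hB1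
    ((mul_le_mul_of_nonneg_left (fe_diffD hA h (h.up hκ.le h2 h3) hβ hb hb0 hb hb0 hV rfl)
      h.em.pos.le).trans hB) hl

/-! ### the responses -/

lemma QW_mem (hm : Em K m) {l : ℕ} (hl : l ≤ K) : 0 ≤ QW n K m b w l ∧ QW n K m b w l ≤ n := by
  have hR := (linS_sk (n := n) hm b w).reg
  constructor
  · unfold QW H186.rl
    rw [← hR.Ex_const 0]
    refine hR.Ex_mono (Nh.fst (EG.const 0)) (Nh.fst (EG.sum _ fun k _ =>
      (hR.eg_T (show l ≤ K from hl) (Nh.snd fun x => H325.sp x k)).pow 2)) fun z _ => ?_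
    positivity
  · have h1 : QW n K m b w l = (skS n K m b w).pairEx l fun x x' => ∑ i, H325.sp x i * H325.sp x' i :=
      rl_pair hm hl fun x i => H325.sp x i
    have h2 : (skS n K m b w).pairEx l (fun x x' => ∑ i, H325.sp x i * H325.sp x' i) ≤
        (skS n K m b w).pairEx l (fun _ _ => (n : ℝ)) := by
      refine hR.pairEx_mono (show l ≤ K from hl) fun x x' => ?_
      calc ∑ i, H325.sp x i * H325.sp x' i ≤ ∑ _i : Fin n, (1 : ℝ) := Finset.sum_le_sum fun i _ => by
            have := le_abs_self (H325.sp x i * H325.sp x' i)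
            rwa [abs_mul, H325.abs_sp, H325.abs_sp, mul_one] at this
        _ = n := by simp
    rw [hR.pairEx_const (show l ≤ K from hl)] at h2
    rw [h1]
    exact h2

/-- every response lies in `[0, n]` -/
theorem cSK_mem (hm : Em K m) {p : ℕ} (hp : p ≤ K + 1) :
    0 ≤ cSK n K m b w p ∧ cSK n K m b w p ≤ n := by
  rw [cSK_eq]
  have hg : ∀ l ∈ Finset.Ico p (K + 1), 0 ≤ m (l + 1) - m l := fun l hl =>
    sub_nonneg.2 (hm.mono l (by have := (Finset.mem_Ico.1 hl).2; omega))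
  have hq : ∀ l ∈ Finset.Ico p (K + 1), 0 ≤ QW n K m b w l ∧ QW n K m b w l ≤ n := fun l hl =>
    QW_mem hm (by have := (Finset.mem_Ico.1 hl).2; omega)
  constructor
  · have h1 : ∑ l ∈ Finset.Ico p (K + 1), (m (l + 1) - m l) * QW n K m b w l ≤
        ∑ l ∈ Finset.Ico p (K + 1), (m (l + 1) - m l) * n :=
      Finset.sum_le_sum fun l hl => mul_le_mul_of_nonneg_left (hq l hl).2 (hg l hl)
    rw [← Finset.sum_mul, Finset.sum_Ico_sub _ hp, hm.mK] at h1
    have h2 : 0 ≤ m p := H94.Osc.em_nonneg hm hp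
    have h3 : (0 : ℝ) ≤ n := Nat.cast_nonneg n
    nlinarith
  · have h1 : 0 ≤ ∑ l ∈ Finset.Ico p (K + 1), (m (l + 1) - m l) * QW n K m b w l :=
      Finset.sum_nonneg fun l hl => mul_nonneg (hg l hl) (hq l hl).1
    linarith

variable {P : Finset ℕ}

/-- the response from the free energy along one variance -/
theorem cSK_line (hm : Em K m) (hP : ∀ p ∈ P, 1 ≤ p ∧ p ≤ K) (v : {p // p ∈ P} → ℝ)
    (p : {p // p ∈ P}) {R a g : ℝ} (hR : 0 < R) (hv : R < v p)
    (hE : ∀ s, |s - v p| ≤ R →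
      |(skS n K m b (amp w P (Function.update v p s))).fe - (a + g / 2 * s)| ≤ E) :
    |cSK n K m b (amp w P v) p - g| ≤ 4 * E / R := by
  have h0 : 0 < v p - R := by linarith
  have key := H94.Osc.abs_sub_le
    (F := fun t => (skS n K m b (amp w P (Function.update v p t))).fe)
    (χ := fun t => cSK n K m b (amp w P (Function.update v p t)) p) (t := v p) (R := R) (E := E)
    (A := a) (g := g) hR
    (fun s hs => (H94.Osc.fe_deriv (n := n) (b := b) (w := w) hm hP v p (h0.trans_le hs.1)).1)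
    (H94.Osc.cSK_anti (n := n) (b := b) (w := w) hm hP v p h0)
    (fun s hs => hE s (abs_le.2 ⟨by linarith [hs.1], by linarith [hs.2]⟩))
  have e3 : Function.update v p (v p) = v := Function.update_eq_self p v
  simp only [e3] at key
  exact key

lemma amp_sq_le {v v' : {p // p ∈ P} → ℝ} (h0 : ∀ p, 0 ≤ v p) (h : ∀ p, v p ≤ v' p) (j : ℕ) :
    amp w P v j ^ 2 ≤ amp w P v' j ^ 2 := by
  unfold amp
  by_cases hj : j ∈ P
  · rw [dif_pos hj, dif_pos hj, Real.sq_sqrt (h0 _), Real.sq_sqrt ((h0 _).trans (h _))]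
    exact h _
  · rw [dif_neg hj, dif_neg hj]

lemma tv_amp_le {v v' : {p // p ∈ P} → ℝ} (h0 : ∀ p, 0 ≤ v p) (h : ∀ p, v p ≤ v' p) :
    tv Q (amp w P v) ≤ tv Q (amp w P v') :=
  Finset.sum_le_sum fun _ _ => amp_sq_le h0 h _

lemma dv_amp_le {v v' : {p // p ∈ P} → ℝ} (h0 : ∀ p, 0 ≤ v p) (h : ∀ p, v p ≤ v' p) :
    dv Q K (amp w P v) ≤ dv Q K (amp w P v') :=
  Finset.sum_le_sum fun _ _ => amp_sq_le h0 h _

lemma tv_update (f : ℕ → ℝ) {p : ℕ} (hp : 1 ≤ p) (hpQ : p ≤ Q) (t : ℝ) :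
    tv Q (Function.update f p t) = tv Q f - f p ^ 2 + t ^ 2 := by
  unfold tv
  have hm : p - 1 ∈ Finset.range Q := Finset.mem_range.2 (by omega)
  rw [← Finset.add_sum_erase _ _ hm, ← Finset.add_sum_erase _ (fun j => f (j + 1) ^ 2) hm]
  have e : p - 1 + 1 = p := by omega
  rw [e, Function.update_self]
  have e2 : ∑ j ∈ (Finset.range Q).erase (p - 1), Function.update f p t (j + 1) ^ 2 =
      ∑ j ∈ (Finset.range Q).erase (p - 1), f (j + 1) ^ 2 := by
    refine Finset.sum_congr rfl fun j hj => ?_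
    have := Finset.ne_of_mem_erase hj
    rw [Function.update_of_ne (by omega)]
  rw [e2]
  ring

/-- **The responses of the fields of the levels `≤ Q`.** -/
theorem respD (hA : Ap n β y Y V1 A E) (h : ExD K Q m y Y) (hβ : 0 ≤ β)
    (hb : tv Q b = β ^ 2 / n) (hb0 : ∀ j, Q < j → j ≤ K → b j = 0)
    (hP : ∀ p ∈ P, 1 ≤ p ∧ p ≤ K) {c R : {p // p ∈ P} → ℝ} (hR : ∀ p, 0 < R p)
    (hc : ∀ p, 2 * R p < c p) (hV : tv Q (amp w P fun p => c p + 2 * R p) ≤ V1)
    (hD : dv Q K (amp w P fun p => c p + 2 * R p) ≤ D) {v : {p // p ∈ P} → ℝ}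
    (hv : v ∈ BxA c R) (p : {p // p ∈ P}) (hp : (p : ℕ) ≤ Q) :
    |cSK n K m b (amp w P v) p - n / β| ≤ (4 * E + n * D) / R p := by
  have hvp := abs_le.1 (hv p)
  have hn0 : (0 : ℝ) ≤ n := Nat.cast_nonneg n
  have key := cSK_line (n := n) (b := b) (w := w) (E := E + n / 4 * D) h.em hP v p (hR p)
    (a := A + n / β / 2 * (tv Q (amp w P v) - v p) + n / 4 * D) (g := n / β)
    (by linarith [hc p, hR p]) (fun s hs => by
      have hs' := abs_le.1 hs
      have u0 : ∀ q, 0 ≤ Function.update v p s q := by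
        intro q
        by_cases hq : q = p
        · subst hq
          rw [Function.update_self]
          linarith [hc q, hR q]
        · rw [Function.update_of_ne hq]
          linarith [(abs_le.1 (hv q)).1, hc q, hR q]
      have u1 : ∀ q, Function.update v p s q ≤ c q + 2 * R q := by
        intro q
        by_cases hq : q = p
        · subst hq
          rw [Function.update_self]
          linarith
        · rw [Function.update_of_ne hq]
          linarith [(abs_le.1 (hv q)).2, hR q]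
      have s0 : 0 ≤ s := by linarith [hc p, hR p]
      have v0 : 0 ≤ v p := by linarith [hc p, hR p]
      have e : tv Q (amp w P (Function.update v p s)) = tv Q (amp w P v) - v p + s := by
        rw [amp_update, tv_update _ (hP p p.2).1 hp, amp_mem, Real.sq_sqrt s0, Real.sq_sqrt v0]
      obtain ⟨k1, k2⟩ := nearD (w := amp w P (Function.update v p s)) hA h hβ hb hb0
        ((tv_amp_le u0 u1).trans hV)
      have k3 := mul_le_mul_of_nonneg_left ((dv_amp_le (Q := Q) (K := K) (w := w) u0 u1).trans hD)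
        (show (0 : ℝ) ≤ n / 2 by positivity)
      have k4 := mul_nonneg (show (0 : ℝ) ≤ n / 2 by positivity)
        (dv_nonneg Q K (amp w P (Function.update v p s)))
      rw [e] at k1 k2
      rw [abs_le]
      constructor <;> linarith)
  refine key.trans (le_of_eq ?_)
  ring

lemma em_pos' (hm : Em K m) {p : ℕ} (h1 : 1 ≤ p) (h2 : p ≤ K + 1) : 0 < m p :=
  hm.pos.trans_le (em_mono hm h1 h2)

/-- **Selection of one vector of variances for finitely many laws**, with one radius and one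
oscillation per field. -/
theorem sel_ggB {J : Type} [Fintype J] [Nonempty J] (hn : 0 < n) {K : J → ℕ} {m b w : J → ℕ → ℝ}
    (hm : ∀ j, Em (K j) (m j)) (hP : ∀ j, ∀ p ∈ P, 1 ≤ p ∧ p ≤ K j)
    {c R δ : {p // p ∈ P} → ℝ} (hR : ∀ p, 0 < R p) (hδ : ∀ p, 0 < δ p) (hc : ∀ p, R p < c p)
    (hb : ∀ j, ∀ v ∈ BxA c R, ∀ p : {p // p ∈ P},
      |cSK n (K j) (m j) (b j) (amp (w j) P v) p - cSK n (K j) (m j) (b j) (amp (w j) P c) p| ≤
        δ p) :
    ∃ v : {p // p ∈ P} → ℝ, (∀ p, |v p - c p| < R p) ∧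
      ∀ j, ∀ zc : ℕ → Fin n → Cd n (K j), ∀ p : {p // p ∈ P}, zc p = wc (hP j p p.2) →
        H295.gg (skS n (K j) (m j) (b j) (amp (w j) P v)) (fun x i => H325.sp x i) zc
          (amp (w j) P v) p p ≤ 8 * Fintype.card J * δ p / (m j p * n ^ 2 * R p) := by
  have hpos : ∀ v ∈ BxA c R, ∀ p : {p // p ∈ P}, 0 < v p := by
    intro v hv p
    have := abs_le.1 (hv p)
    linarith [hc p]
  have hmp : ∀ j, ∀ p : {p // p ∈ P}, 0 < m j p := fun j p =>
    em_pos' (hm j) (hP j p p.2).1 (by have := (hP j p p.2).2; omega)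
  have key : ∀ j, ∀ v ∈ BxA c R, ∀ p : {p // p ∈ P},
      HasDerivAt (fun t => (skS n (K j) (m j) (b j) (amp (w j) P (Function.update v p t))).fe)
        (cSK n (K j) (m j) (b j) (amp (w j) P v) p / 2) (v p) ∧
      ∃ χ' : ℝ, HasDerivAt (fun t => cSK n (K j) (m j) (b j)
        (amp (w j) P (Function.update v p t)) p) χ' (v p) ∧
      m j p * (n - VSK (n := n) (m j) (b j) (amp (w j) P v) (hP j p p.2)) ≤ -(2 * v p * χ') := by
    intro j v hv p
    have h := SK_resp (n := n) (m := m j) (b := b j) (w := amp (w j) P v) (hm j) (hP j p p.2)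
      (hpos v hv p)
    simp only [← amp_update] at h
    have e2 : amp (w j) P (Function.update v p (v p)) = amp (w j) P v := by
      rw [Function.update_eq_self]
    simp only [e2] at h
    exact h
  choose! χ' hχ' using fun j v hv p => (key j v hv p).2
  obtain ⟨v, hv, h⟩ := win_allB
    (Φ := fun j v => (skS n (K j) (m j) (b j) (amp (w j) P v)).fe)
    (χ := fun j p v => cSK n (K j) (m j) (b j) (amp (w j) P v) p)
    (χ' := fun j p v => χ' j v p) (c := c) hR hδ
    (fun j v hv p => (key j v hv p).1) (fun j v hv p => (hχ' j v hv p).1)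
    (fun j v hv p => by
      have h1 := (hχ' j v hv p).2
      have h2 : 0 ≤ n - VSK (n := n) (m j) (b j) (amp (w j) P v) (hP j p p.2) := by
        linarith [VSK_le (n := n) (b := b j) (w := amp (w j) P v) (hm j) (hP j p p.2)]
      have h4 := mul_nonneg (hmp j p).le h2
      have h5 := hpos v hv p
      by_contra h6
      push Not at h6
      have := mul_pos (mul_pos (by norm_num : (0 : ℝ) < 2) h5) h6
      linarith)
    hb
  refine ⟨v, hv, fun j zc p hz => ?_⟩
  have hvB : v ∈ BxA c R := fun p => (hv p).le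
  have hn' : (0 : ℝ) < n := by exact_mod_cast hn
  have hvp := hpos v hvB p
  have hw : 0 < amp (w j) P v p := by rw [amp_mem]; exact Real.sqrt_pos.2 hvp
  have hw2 : amp (w j) P v p ^ 2 = v p := by rw [amp_mem]; exact Real.sq_sqrt hvp.le
  have h1 : m j p * (n - VSK (n := n) (m j) (b j) (amp (w j) P v) (hP j p p.2)) ≤
      2 * v p * (4 * (Fintype.card J * δ p) / R p) := by
    have h1 := (hχ' j v hvB p).2
    have h4 : 2 * v p * -χ' j v p ≤ 2 * v p * (4 * (Fintype.card J * δ p) / R p) :=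
      mul_le_mul_of_nonneg_left (h j p) (by positivity)
    linarith
  have hmj := hmp j p
  have hRp := hR p
  rw [gg_SK (m := m j) (b := b j) hn (hP j p p.2) hz rfl hw, hw2]
  rw [div_le_div_iff₀ (by positivity) (by positivity)]
  have h2 : m j p * (n - VSK (n := n) (m j) (b j) (amp (w j) P v) (hP j p p.2)) * R p ≤
      2 * v p * (4 * (Fintype.card J * δ p)) := by
    have := mul_le_mul_of_nonneg_right h1 hRp.le
    rw [mul_assoc (2 * v p), div_mul_cancel₀ _ hRp.ne'] at this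
    exact this
  nlinarith [mul_le_mul_of_nonneg_right h2 (sq_nonneg (n : ℝ))]

/-- **The selection for laws with deep levels.**  The fields of the levels `p ≤ Q0` have the
deficits `≤ 16 |J| (4 E + n D) / (m_p n² R_p²)`, the others `≤ 8 |J| / (m_p n R_p)`. -/
theorem sel_boxD {J : Type} [Fintype J] [Nonempty J] (hn : 0 < n) (hβ : 0 ≤ β) {K Q : J → ℕ}
    {m b w : J → ℕ → ℝ} {y Y A : J → ℝ} (hE : 0 < E) (hA : ∀ j, Ap n β (y j) (Y j) V1 (A j) E)
    (h : ∀ j, ExD (K j) (Q j) (m j) (y j) (Y j)) (hb : ∀ j, tv (Q j) (b j) = β ^ 2 / n)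
    (hb0 : ∀ j l, Q j < l → l ≤ K j → b j l = 0) (hP : ∀ j, ∀ p ∈ P, 1 ≤ p ∧ p ≤ K j)
    {Q0 : ℕ} (hQ0 : ∀ j, Q0 ≤ Q j) {c R : {p // p ∈ P} → ℝ} (hR : ∀ p, 0 < R p)
    (hc : ∀ p, 2 * R p < c p) (hV : ∀ j, tv (Q j) (amp (w j) P fun p => c p + 2 * R p) ≤ V1)
    (hD : ∀ j, dv (Q j) (K j) (amp (w j) P fun p => c p + 2 * R p) ≤ D) :
    ∃ v : {p // p ∈ P} → ℝ, (∀ p, |v p - c p| < R p) ∧
      (∀ j, tv (Q j) (amp (w j) P v) ≤ V1) ∧ (∀ j, dv (Q j) (K j) (amp (w j) P v) ≤ D) ∧
      (∀ j, ∀ p : {p // p ∈ P}, (p : ℕ) ≤ Q j →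
        |cSK n (K j) (m j) (b j) (amp (w j) P v) p - n / β| ≤ (4 * E + n * D) / R p) ∧
      ∀ j, ∀ zc : ℕ → Fin n → Cd n (K j), ∀ p : {p // p ∈ P}, zc p = wc (hP j p p.2) →
        H295.gg (skS n (K j) (m j) (b j) (amp (w j) P v)) (fun x i => H325.sp x i) zc
          (amp (w j) P v) p p ≤
          if (p : ℕ) ≤ Q0 then 16 * Fintype.card J * (4 * E + n * D) / (m j p * n ^ 2 * R p ^ 2)
          else 8 * Fintype.card J / (m j p * n * R p) := by
  have hn' : (0 : ℝ) < n := by exact_mod_cast hn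
  have hD0 : 0 ≤ D := (dv_nonneg _ _ _).trans (hD (Classical.arbitrary J))
  have hcB : c ∈ BxA c R := fun p => by simpa using (hR p).le
  obtain ⟨v, hv, hg⟩ := sel_ggB (n := n) (w := w) (b := b) (c := c)
    (δ := fun p => if (p : ℕ) ≤ Q0 then 2 * ((4 * E + n * D) / R p) else n) hn
    (fun j => (h j).em) hP hR
    (fun p => by
      have := hR p
      split_ifs
      · positivity
      · exact hn')
    (fun p => by linarith [hc p, hR p])
    (fun j v hv p => by
      split_ifs with hp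
      · have h1 := abs_le.1 (respD (hA j) (h j) hβ (hb j) (hb0 j) (hP j) hR hc (hV j) (hD j) hv p
          (hp.trans (hQ0 j)))
        have h2 := abs_le.1 (respD (hA j) (h j) hβ (hb j) (hb0 j) (hP j) hR hc (hV j) (hD j) hcB p
          (hp.trans (hQ0 j)))
        rw [abs_le]
        constructor <;> linarith [h1.1, h1.2, h2.1, h2.2]
      · have hp' : (p : ℕ) ≤ K j + 1 := by have := (hP j p p.2).2; omega
        have h1 := cSK_mem (n := n) (b := b j) (w := amp (w j) P v) (h j).em hp'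
        have h2 := cSK_mem (n := n) (b := b j) (w := amp (w j) P c) (h j).em hp'
        rw [abs_le]
        constructor <;> linarith [h1.1, h1.2, h2.1, h2.2])
  have hvB : v ∈ BxA c R := fun p => (hv p).le
  have hv0 : ∀ p, 0 ≤ v p := fun p => by linarith [(abs_le.1 (hvB p)).1, hc p, hR p]
  have hv1 : ∀ p, v p ≤ c p + 2 * R p := fun p => by linarith [(abs_le.1 (hvB p)).2, hR p]
  refine ⟨v, hv, fun j => (tv_amp_le hv0 hv1).trans (hV j),
    fun j => (dv_amp_le hv0 hv1).trans (hD j),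
    fun j p hp => respD (hA j) (h j) hβ (hb j) (hb0 j) (hP j) hR hc (hV j) (hD j) hvB p hp,
    fun j zc p hz => (hg j zc p hz).trans_eq ?_⟩
  have hRp := hR p
  have hmp : 0 < m j p := em_pos' (h j).em (hP j p p.2).1 (by have := (hP j p p.2).2; omega)
  split_ifs
  · field_simp
    ring
  · field_simp

end Vale.Agent.N146.Deep
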