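import Vale.Agent.P146.H610.Win

/-!
# P146: selection of the field variances on a box with one radius per field (helper86)

`win_allA`: the statement `H610.Win.win_all` on the box `|w p - c p| ≤ R p`.
-/

open Filter Topology Set

namespace Vale.Agent.N146.Deep

open Vale.Agent.P146.H610.Win (Bx win_all)

variable {ι : Type} [Fintype ι] [DecidableEq ι]

/-- the closed box with one radius per coordinate -/
def BxA (c R : ι → ℝ) : Set (ι → ℝ) := {w | ∀ p, |w p - c p| ≤ R p}

/-- the rescaling of the unit box -/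
def scl (c R t : ι → ℝ) : ι → ℝ := fun p => c p + R p * t p

omit [Fintype ι] in
lemma scl_update (c R t : ι → ℝ) (p : ι) (s : ℝ) :
    scl c R (Function.update t p s) = Function.update (scl c R t) p (c p + R p * s) := by
  funext q
  by_cases h : q = p
  · subst h
    simp [scl]
  · simp [scl, Function.update_of_ne h]

omit [Fintype ι] [DecidableEq ι] in
lemma scl_mem {c R t : ι → ℝ} (hR : ∀ p, 0 < R p) (ht : t ∈ Bx (fun _ => (0 : ℝ)) 1) :
    scl c R t ∈ BxA c R := by
  intro p
  have h := ht p
  simp only [sub_zero] at h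
  unfold scl
  rw [add_sub_cancel_left, abs_mul, abs_of_pos (hR p)]
  exact mul_le_of_le_one_right (hR p).le h

omit [Fintype ι] [DecidableEq ι] in
lemma scl_zero (c R : ι → ℝ) : scl c R (fun _ => (0 : ℝ)) = c := by
  funext p
  simp [scl]

/-- **one point for finitely many functions at once**, one radius per variable -/
theorem win_allA {J : Type} [Fintype J] [Nonempty J] {Φ : J → (ι → ℝ) → ℝ}
    {χ χ' : J → ι → (ι → ℝ) → ℝ} {c R : ι → ℝ} {δ : ℝ} (hR : ∀ p, 0 < R p) (hδ : 0 < δ)
    (hd : ∀ j, ∀ w ∈ BxA c R, ∀ p,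
      HasDerivAt (fun t => Φ j (Function.update w p t)) (χ j p w / 2) (w p))
    (hd' : ∀ j, ∀ w ∈ BxA c R, ∀ p,
      HasDerivAt (fun t => χ j p (Function.update w p t)) (χ' j p w) (w p))
    (hneg : ∀ j, ∀ w ∈ BxA c R, ∀ p, χ' j p w ≤ 0)
    (hb : ∀ j, ∀ w ∈ BxA c R, ∀ p, R p * |χ j p w - χ j p c| ≤ δ) :
    ∃ w : ι → ℝ, (∀ p, |w p - c p| < R p) ∧
      ∀ j p, -χ' j p w ≤ 4 * (Fintype.card J * δ) / R p ^ 2 := by
  have haff : ∀ (t : ι → ℝ) (p : ι), HasDerivAt (fun s : ℝ => c p + R p * s) (R p) (t p) := by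
    intro t p
    simpa using ((hasDerivAt_id (t p)).const_mul (R p)).const_add (c p)
  obtain ⟨t, ht, h⟩ := win_all (J := J) (Φ := fun j t => Φ j (scl c R t))
    (χ := fun j p t => R p * χ j p (scl c R t)) (χ' := fun j p t => R p ^ 2 * χ' j p (scl c R t))
    (c := fun _ => (0 : ℝ)) (R := 1) (δ := δ) one_pos hδ
    (fun j t ht p => by
      have h1 := hd j _ (scl_mem hR ht) p
      have h2 : HasDerivAt (fun s => Φ j (Function.update (scl c R t) p s))
          (χ j p (scl c R t) / 2) (c p + R p * t p) := h1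
      have h3 := h2.comp (t p) (haff t p)
      simp only [scl_update]
      refine HasDerivAt.congr_deriv (f := fun s => Φ j (Function.update (scl c R t) p
        (c p + R p * s))) h3 ?_
      ring)
    (fun j t ht p => by
      have h1 := hd' j _ (scl_mem hR ht) p
      have h2 : HasDerivAt (fun s => χ j p (Function.update (scl c R t) p s))
          (χ' j p (scl c R t)) (c p + R p * t p) := h1
      have h3 := (h2.comp (t p) (haff t p)).const_mul (R p)
      simp only [scl_update]
      refine HasDerivAt.congr_deriv (f := fun s => R p * χ j p (Function.update (scl c R t) p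
        (c p + R p * s))) h3 ?_
      ring)
    (fun j t ht p => mul_nonpos_of_nonneg_of_nonpos (sq_nonneg _) (hneg j _ (scl_mem hR ht) p))
    (fun j t ht p => by
      rw [scl_zero, ← mul_sub, abs_mul, abs_of_pos (hR p)]
      exact hb j _ (scl_mem hR ht) p)
  refine ⟨scl c R t, fun p => ?_, fun j p => ?_⟩
  · have h1 := ht p
    simp only [sub_zero] at h1
    unfold scl
    rw [add_sub_cancel_left, abs_mul, abs_of_pos (hR p)]
    exact mul_lt_of_lt_one_right (hR p) h1
  · have h1 := h j p
    have h2 : 0 < R p ^ 2 := pow_pos (hR p) 2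
    rw [le_div_iff₀ h2]
    rw [div_one] at h1
    linarith

end Vale.Agent.N146.Deep
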