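import Vale.Agent.P146.Defs

/-!
# P146: one infinite array of couplings for all sizes
-/

open MeasureTheory ProbabilityTheory

namespace Vale.Agent.N146

open Vale.Agent.P146

/-- The law of an infinite array `(ω (i, j))` of independent standard Gaussian variables. -/
noncomputable def arr : Measure (ℕ × ℕ → ℝ) := Measure.infinitePi fun _ => gaussianReal 0 1

/-- The couplings `g_{ij} = ω (i, j)`, `i < j`, among the first `n` sites. -/
def rn (n : ℕ) (ω : ℕ × ℕ → ℝ) : Pair n → ℝ := fun p => ω (p.1.1, p.1.2)

/-- The array which keeps the couplings of `ω` among the first `n` sites and takes all the others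
from `ω'`. -/
def splice (n : ℕ) (ω ω' : ℕ × ℕ → ℝ) : ℕ × ℕ → ℝ :=
  fun q => if q.1 < n ∧ q.2 < n then ω q else ω' q

end Vale.Agent.N146
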