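import Vale.Agent.P146.H66.M4SK

/-!
# P146: one level of a layered system cut in two halves (helper86)

`splQ S N Q`: every coordinate `z_e` of the level `Q` of `S` is replaced by `(z_e + z'_e) / √2`,
with `z_e` in the level `Q` and `z'_e` in the new level `Q + 1` (exponent `m_Q`); the levels above
`Q` are shifted by one.  This is `H66.spl` for an arbitrary level `1 ≤ Q ≤ K`.
-/

open MeasureTheory ProbabilityTheory

namespace Vale.Agent.N146.Four

open Vale.Agent.P157 Vale.Agent.P157.Lv Vale.Agent.P157.Lv.Sy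
open Vale.Agent.P146.H784 Vale.Agent.P146.H425 Vale.Agent.P146.H785
open Vale.Agent.P146.H66
open Vale.Agent.P146

set_option linter.unusedSectionVars false
set_option linter.unusedVariables false

section split

variable {ι X : Type} [Fintype ι] [Fintype X] [Nonempty X]

/-- the map of the coordinates -/
noncomputable def pjQ (S : Sy ι X) (N Q : ℕ) (z : Ind S N → ℝ) : ι → ℝ := fun e =>
  (if S.lev e = Q then rh else 1) * z (Sum.inl (Sum.inl e)) +
    (if S.lev e = Q then rh else 0) * z (Sum.inl (Sum.inr e))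

/-- the system with the level `Q` cut in two halves -/
noncomputable def splQ (S : Sy ι X) (N Q : ℕ) : Sy (Ind S N) X where
  lev := Sum.elim (Sum.elim (fun e => if S.lev e ≤ Q then S.lev e else S.lev e + 1)
    fun _ => Q + 1) fun p => p.1
  K := S.K + 1
  m := fun j => if j ≤ Q then S.m j else S.m (j - 1)
  H := fun z x => S.H (pjQ S N Q z) x

/-- the correspondence of the levels -/
def gQ (Q l : ℕ) : ℕ := if l < Q then l else l + 1

variable {S : Sy ι X} {N Q : ℕ}

lemma mp_pjQ : MeasurePreserving (pjQ S N Q) (gI (Ind S N)) (gI ι) := by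
  have h1 := mp_rot (ι := ι) (c := fun e => if S.lev e = Q then rh else 1)
    (s := fun e => if S.lev e = Q then rh else 0) (by
      intro e
      split_ifs
      · rw [rh_sq]; norm_num
      · norm_num)
  exact (h1.comp (mp_pair (α := ι) (β := ι))).comp
    (mp_inl (α := ι ⊕ ι) (β := Fin (S.K + 2) × Fin N))

lemma pjQ_sub (z y : Ind S N → ℝ) : pjQ S N Q z - pjQ S N Q y = pjQ S N Q (z - y) := by
  funext e
  simp only [pjQ, Pi.sub_apply]
  ring

lemma norm_pjQ (z : Ind S N → ℝ) : ‖pjQ S N Q z‖ ≤ 2 * ‖z‖ := by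
  refine (pi_norm_le_iff_of_nonneg (by positivity)).2 fun e => ?_
  have h1 : |z (Sum.inl (Sum.inl e))| ≤ ‖z‖ := norm_le_pi_norm z _
  have h2 : |z (Sum.inl (Sum.inr e))| ≤ ‖z‖ := norm_le_pi_norm z _
  have h3 := rh_nonneg
  have h4 := rh_le
  have h5 := norm_nonneg z
  rw [Real.norm_eq_abs]
  unfold pjQ
  split_ifs
  · refine (abs_add_le _ _).trans ?_
    rw [abs_mul, abs_mul, abs_of_nonneg h3]
    nlinarith [mul_le_mul h4 h1 (abs_nonneg _) (by norm_num : (0 : ℝ) ≤ 1),
      mul_le_mul h4 h2 (abs_nonneg _) (by norm_num : (0 : ℝ) ≤ 1)]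
  · rw [one_mul, zero_mul, add_zero]
    linarith

lemma eg_pjQ {h : (ι → ℝ) → ℝ} (hh : EG h) : EG fun z : Ind S N → ℝ => h (pjQ S N Q z) := by
  obtain ⟨C, a, hC, ha, hb⟩ := hh.bdd
  refine ⟨hh.meas.comp mp_pjQ.measurable, C, a * 2, hC, by positivity, fun z => (hb _).trans ?_⟩
  refine mul_le_mul_of_nonneg_left (Real.exp_le_exp.2 ?_) hC
  rw [mul_assoc]
  exact mul_le_mul_of_nonneg_left (norm_pjQ z) ha

lemma lip_pjQ {h : (ι → ℝ) → ℝ} (hh : Lip h) : Lip fun z : Ind S N → ℝ => h (pjQ S N Q z) := by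
  obtain ⟨L, hL, hb⟩ := hh
  refine ⟨L * 2, by positivity, fun z y => (hb _ _).trans ?_⟩
  rw [pjQ_sub, mul_assoc]
  exact mul_le_mul_of_nonneg_left (norm_pjQ _) hL

lemma splQ_reg (hS : S.Reg) (hQ : 1 ≤ Q) (hQK : Q ≤ S.K) : (splQ S N Q).Reg where
  m0 := by
    show (if 0 ≤ Q then S.m 0 else S.m (0 - 1)) = 0
    rw [if_pos (Nat.zero_le _)]
    exact hS.m0
  mK := by
    show (if S.K + 1 + 1 ≤ Q then S.m (S.K + 1 + 1) else S.m (S.K + 1 + 1 - 1)) = 1
    rw [if_neg (by omega)]
    exact hS.mK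
  mono := by
    intro l hl
    have hl' : l ≤ S.K + 1 := hl
    show (if l ≤ Q then S.m l else S.m (l - 1)) ≤
      (if l + 1 ≤ Q then S.m (l + 1) else S.m (l + 1 - 1))
    by_cases h1 : l ≤ Q
    · by_cases h2 : l + 1 ≤ Q
      · rw [if_pos h1, if_pos h2]
        exact hS.mono l (by omega)
      · rw [if_pos h1, if_neg h2]
        exact le_of_eq (by congr 1)
    · rw [if_neg h1, if_neg (by omega)]
      have h2 := hS.mono (l - 1) (by omega)
      have e : l - 1 + 1 = l + 1 - 1 := by omega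
      rwa [e] at h2
  pos := by
    show 0 < (if 1 ≤ Q then S.m 1 else S.m (1 - 1))
    rw [if_pos hQ]
    exact hS.pos
  lev := by
    rintro ((e | e) | p)
    · show (if S.lev e ≤ Q then S.lev e else S.lev e + 1) ≤ S.K + 1
      have := hS.lev e
      split_ifs <;> omega
    · show Q + 1 ≤ S.K + 1
      omega
    · show (p.1 : ℕ) ≤ S.K + 1
      have := p.1.2
      omega
  lip := fun x => lip_pjQ (hS.lip x)

lemma mix_pjQ (l : ℕ) (z w : Ind S N → ℝ) :
    pjQ S N Q (mix (splQ S N Q).lev (gQ Q l) z w) = mix S.lev l (pjQ S N Q z) (pjQ S N Q w) := by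
  funext e
  have e1 : mix (splQ S N Q).lev (gQ Q l) z w (Sum.inl (Sum.inl e)) =
      if (if S.lev e ≤ Q then S.lev e else S.lev e + 1) ≤ gQ Q l then z (Sum.inl (Sum.inl e))
        else w (Sum.inl (Sum.inl e)) := rfl
  have e2 : mix (splQ S N Q).lev (gQ Q l) z w (Sum.inl (Sum.inr e)) =
      if Q + 1 ≤ gQ Q l then z (Sum.inl (Sum.inr e)) else w (Sum.inl (Sum.inr e)) := rfl
  have e3 : mix S.lev l (pjQ S N Q z) (pjQ S N Q w) e =
      if S.lev e ≤ l then pjQ S N Q z e else pjQ S N Q w e := rfl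
  have e4 : ((if S.lev e ≤ Q then S.lev e else S.lev e + 1) ≤ gQ Q l) ↔ S.lev e ≤ l := by
    unfold gQ
    split_ifs <;> omega
  have e5 : S.lev e = Q → (Q + 1 ≤ gQ Q l ↔ S.lev e ≤ l) := by
    intro h
    unfold gQ
    split_ifs <;> omega
  rw [e3]
  unfold pjQ
  rw [e1, e2]
  by_cases hq : S.lev e = Q
  · by_cases h : S.lev e ≤ l
    · rw [if_pos (e4.2 h), if_pos ((e5 hq).2 h), if_pos h]
    · rw [if_neg (fun h' => h (e4.1 h')), if_neg (fun h' => h ((e5 hq).1 h')), if_neg h]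
  · by_cases h : S.lev e ≤ l
    · rw [if_pos (e4.2 h), if_pos h]
      simp only [if_neg hq, zero_mul, add_zero]
    · rw [if_neg (fun h' => h (e4.1 h')), if_neg h]
      simp only [if_neg hq, zero_mul, add_zero]

/-- the cut system is a pull-back -/
theorem pb_splQ (hS : S.Reg) (hQ : 1 ≤ Q) (hQK : Q ≤ S.K) :
    PB S (splQ S N Q) (pjQ S N Q) (gQ Q) where
  gK := by
    show (if S.K < Q then S.K else S.K + 1) = S.K + 1
    rw [if_neg (by omega)]
  g0 := by
    show (if 0 < Q then 0 else 0 + 1) = 0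
    rw [if_pos (by omega)]
  mono := by
    intro l hl
    unfold gQ
    split_ifs <;> omega
  gle := by
    intro l hl
    show (if l < Q then l else l + 1) ≤ S.K + 1
    split_ifs <;> omega
  m := by
    intro l hl j h1 h2
    have h1' : (if l < Q then l else l + 1) ≤ j := h1
    have h2' : j < (if l + 1 < Q then l + 1 else l + 1 + 1) := h2
    show (if j + 1 ≤ Q then S.m (j + 1) else S.m (j + 1 - 1)) = S.m (l + 1)
    by_cases h3 : j + 1 ≤ Q
    · rw [if_pos h3]
      congr 1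
      split_ifs at h1' h2' <;> omega
    · rw [if_neg h3]
      congr 1
      split_ifs at h1' h2' <;> omega
  H := fun z x => rfl
  eg := fun h hh => eg_pjQ hh
  int := fun h hh => mp_int mp_pjQ hh
  J := by
    intro l hl h hh z
    unfold Lv.J
    simp only [mix_pjQ l]
    exact mp_int mp_pjQ (H425.eg_mixr hh S.lev l (pjQ S N Q z))

end split

variable {ι X : Type} [Fintype ι] [DecidableEq ι] [Fintype X] [DecidableEq X] [Nonempty X]
  {S : Sy ι X} {a : X → ι → ℝ} {c : X → ℝ} {N Q : ℕ} {φ : X → Fin N → ℝ} {zc : Fin N → ι}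
  {s κ : ℝ}

/-- the coefficients of the cut system -/
noncomputable def aspQ (S : Sy ι X) (N Q : ℕ) (a : X → ι → ℝ) (x : X) : Ind S N → ℝ :=
  Sum.elim (Sum.elim (fun e => (if S.lev e = Q then rh else 1) * a x e)
    fun e => (if S.lev e = Q then rh else 0) * a x e) fun _ => 0

lemma linS_splQ (h : LinS S a c) (hQ : 1 ≤ Q) (hQK : Q ≤ S.K) :
    LinS (splQ S N Q) (aspQ S N Q a) c where
  reg := splQ_reg h.reg hQ hQK
  H := by
    intro z x
    have e1 : (splQ S N Q).H z x = S.H (pjQ S N Q z) x := rfl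
    rw [e1, h.H, Fintype.sum_sum_type, Fintype.sum_sum_type]
    congr 1
    have e2 : ∑ p : Fin (S.K + 2) × Fin N, aspQ S N Q a x (Sum.inr p) * z (Sum.inr p) = 0 :=
      Finset.sum_eq_zero fun p _ => by
        show (0 : ℝ) * _ = 0
        ring
    rw [e2, add_zero, ← Finset.sum_add_distrib]
    refine Finset.sum_congr rfl fun e _ => ?_
    show a x e * pjQ S N Q z e = (if S.lev e = Q then rh else 1) * a x e * _ +
      (if S.lev e = Q then rh else 0) * a x e * _
    unfold pjQ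
    ring

/-- The coordinates `s φ` in the level `Q`. -/
structure LsQ (S : Sy ι X) (a : X → ι → ℝ) (φ : X → Fin N → ℝ) (zc : Fin N → ι) (s : ℝ) (Q : ℕ) :
    Prop where
  N0 : 0 < N
  s0 : 0 < s
  norm : ∀ x, ∑ i, φ x i ^ 2 = N
  inj : Function.Injective zc
  lev : ∀ i, S.lev (zc i) = Q
  a : ∀ i x, a x (zc i) = s * φ x i

/-- the field coordinates of the cut system -/
def zsQ (S : Sy ι X) (Q : ℕ) (zc : Fin N → ι) (j : ℕ) (i : Fin N) : Ind S N :=
  if j = Q then Sum.inl (Sum.inl (zc i)) else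
    if h : j < S.K + 2 then Sum.inr (⟨j, h⟩, i) else Sum.inl (Sum.inl (zc i))

lemma fld_splQ (h : LinS S a c) (hQ : 1 ≤ Q) (hQK : Q ≤ S.K) (hL : LsQ S a φ zc s Q) :
    Fld (splQ S N Q) (fun e _ x => aspQ S N Q a x e) φ (zsQ S Q zc)
      (fun j => if j = Q then rh * s else 0) where
  reg := H93.regD (linS_splQ h hQ hQK)
  N0 := hL.N0
  norm := hL.norm
  lev := by
    intro l hl i
    have hl' : l ≤ S.K + 1 := hl
    unfold zsQ
    by_cases h1 : l = Q
    · rw [if_pos h1, h1]
      show (if S.lev (zc i) ≤ Q then S.lev (zc i) else S.lev (zc i) + 1) = Q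
      rw [hL.lev i, if_pos le_rfl]
    · rw [if_neg h1, dif_pos (by omega)]
      rfl
  D := by
    intro l hl i z x
    have hl' : l ≤ S.K + 1 := hl
    unfold zsQ
    by_cases h1 : l = Q
    · rw [if_pos h1, if_pos h1]
      show (if S.lev (zc i) = Q then rh else 1) * a x (zc i) = _
      rw [hL.lev i, if_pos rfl, hL.a]
      ring
    · rw [if_neg h1, dif_pos (by omega), if_neg h1]
      show (0 : ℝ) = 0 * _
      ring
  pos := by
    intro l hl
    split_ifs
    · exact mul_nonneg rh_nonneg hL.s0.le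
    · exact le_rfl

lemma inj_zsQ (hL : LsQ S a φ zc s Q) {l : ℕ} (hl : l + 1 = Q) :
    Function.Injective (zsQ S Q zc (l + 1)) := by
  intro i j hij
  unfold zsQ at hij
  rw [if_pos hl, if_pos hl] at hij
  exact hL.inj (Sum.inl.inj (Sum.inl.inj hij))

lemma rh_pos : 0 < rh := by
  have h := rh_sq
  have h0 := rh_nonneg
  refine lt_of_le_of_ne h0 ?_
  intro h2
  rw [← h2] at h
  norm_num at h

/-- the upper half level of the cut system -/
lemma lsQ_splQ (hL : LsQ S a φ zc s Q) :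
    LsQ (splQ S N Q) (aspQ S N Q a) φ (fun i => Sum.inl (Sum.inr (zc i))) (rh * s) (Q + 1) where
  N0 := hL.N0
  s0 := mul_pos rh_pos hL.s0
  norm := hL.norm
  inj := fun i j hij => hL.inj (Sum.inr.inj (Sum.inl.inj hij))
  lev := fun i => rfl
  a := by
    intro i x
    show (if S.lev (zc i) = Q then rh else 0) * a x (zc i) = _
    rw [hL.lev, if_pos rfl, hL.a]
    ring

/-- the exponent of the level `Q` multiplied by `1 + κ` -/
noncomputable def upQ (Q : ℕ) (κ : ℝ) (m : ℕ → ℝ) (j : ℕ) : ℝ :=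
  if j = Q then (1 + κ) * m Q else m j

lemma upQ_reg (hS : S.Reg) (hQ : 1 ≤ Q) (hQK : Q ≤ S.K) (hκ : 0 ≤ κ)
    (h2 : (1 + κ) * S.m Q ≤ S.m (Q + 1)) : (wm S (upQ Q κ S.m)).Reg where
  m0 := by
    show (if 0 = Q then (1 + κ) * S.m Q else S.m 0) = 0
    rw [if_neg (by omega)]
    exact hS.m0
  mK := by
    show (if S.K + 1 = Q then (1 + κ) * S.m Q else S.m (S.K + 1)) = 1
    rw [if_neg (by omega)]
    exact hS.mK
  mono := by
    intro l hl
    have hl' : l ≤ S.K := hl
    have hp : 0 < S.m Q := hS.m_pos hQ (by omega)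
    show (if l = Q then (1 + κ) * S.m Q else S.m l) ≤
      (if l + 1 = Q then (1 + κ) * S.m Q else S.m (l + 1))
    by_cases h1 : l = Q
    · rw [if_pos h1, if_neg (by omega), h1]
      exact h2
    · rw [if_neg h1]
      have := hS.mono l hl'
      split_ifs with h3
      · rw [h3] at this
        have := mul_nonneg hκ hp.le
        linarith
      · exact this
  pos := by
    show 0 < (if 1 = Q then (1 + κ) * S.m Q else S.m 1)
    have hp : 0 < S.m Q := hS.m_pos hQ (by omega)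
    split_ifs
    · positivity
    · exact hS.pos
  lev := hS.lev
  lip := hS.lip

/-- the slope in the exponent of the level `Q` is at least `N s² / 2` times the conditional
overlap -/
lemma kf_lsQ (h : LinS S a c) (hQK : Q ≤ S.K) (hL : LsQ S a φ zc s Q) {l : ℕ} (hl : l + 1 = Q)
    (z : ι → ℝ) : N * s ^ 2 / 2 * rho S φ l z ≤ kf S l z := by
  have h1 := LinS.kf_ge h (show l < S.K by omega) z
  have h2 : ∑ i, (s * S.mg φ l i z) ^ 2 ≤
      ∑ e, (if S.lev e = l + 1 then S.T l (fun _ x => a x e) z ^ 2 else 0) := by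
    have h3 : ∑ i, (s * S.mg φ l i z) ^ 2 = ∑ e ∈ Finset.univ.map ⟨zc, hL.inj⟩,
        (if S.lev e = l + 1 then S.T l (fun _ x => a x e) z ^ 2 else 0) := by
      rw [Finset.sum_map]
      refine Finset.sum_congr rfl fun i _ => ?_
      show _ = (if S.lev (zc i) = l + 1 then S.T l (fun _ x => a x (zc i)) z ^ 2 else 0)
      rw [if_pos (by rw [hL.lev, hl])]
      simp only [hL.a]
      rw [T_const_mul S l s (fun _ x => φ x i)]
      rfl
    rw [h3]
    exact Finset.sum_le_sum_of_subset_of_nonneg (Finset.subset_univ _) fun e _ _ => by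
      split_ifs
      · positivity
      · exact le_rfl
  have h4 : ∑ i, (s * S.mg φ l i z) ^ 2 = s ^ 2 * (N * rho S φ l z) := by
    rw [← rho_eq_sum S φ hL.N0, Finset.mul_sum]
    exact Finset.sum_congr rfl fun i _ => by ring
  rw [h4] at h2
  linarith

/-- **All moments of the conditional overlap** `rho_{Q-1}`. -/
theorem rho_momentQ (h : LinS S a c) (hQ : 1 ≤ Q) (hQK : Q ≤ S.K) (hκ : 0 < κ)
    (h2 : (1 + κ) * S.m Q ≤ S.m (Q + 1)) (hL : LsQ S a φ zc s Q) {A : ℝ} (hA1 : 1 ≤ A)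
    (hA : ∀ z, S.m 1 * ((wm S (upQ Q κ S.m)).lg 0 z - S.lg 0 z) ≤ A) {l : ℕ} (hl : l + 1 = Q)
    (p : ℕ) :
    S.Ex (fun z _ => rho S φ l z ^ p) ≤
      Real.exp 1 * p.factorial * (2 * A / (κ * (S.m 1 * S.m Q * (N * s ^ 2)))) ^ p := by
  have hS := h.reg
  have hl' : l < S.K := by omega
  have hN' : (0 : ℝ) < N := by exact_mod_cast hL.N0
  have hs := hL.s0
  have hm1 : 0 < S.m 1 := hS.pos
  have hmK : 0 < S.m Q := hS.m_pos hQ (by omega)
  obtain ⟨C, hC⟩ : ∃ C, C = κ * S.m Q * (N * s ^ 2 / 2) := ⟨_, rfl⟩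
  have hC0 : 0 < C := by rw [hC]; positivity
  have hdm : upQ Q κ S.m (l + 1) = (1 + κ) * S.m Q := by
    unfold upQ
    rw [if_pos hl]
  have hml : S.m (l + 1) = S.m Q := by rw [hl]
  have e1 := Ex_exp_le (m' := upQ Q κ S.m) (f := fun z => C * rho S φ l z) h
    (upQ_reg hS hQ hQK hκ.le h2) hl'
    (fun j hj => by unfold upQ; rw [if_neg (by omega)])
    (by rw [hdm, hml]; nlinarith)
    (fun t => eg_exp_rho hS hL.N0 hL.norm hl'.le C t)
    (by
      intro z w
      show C * rho S φ l _ = C * rho S φ l _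
      rw [H784.dep_rho S φ l z w])
    (fun z => by
      rw [hdm, hml]
      have h3 := mul_le_mul_of_nonneg_left (kf_lsQ h hQK hL hl z) (mul_pos hκ hmK).le
      rw [hC]
      linarith) hA
  have e2 := Ex_pow_le (Y := fun z => S.m 1 * (C * rho S φ l z)) hS
    (((H784.eg_rho hS hl'.le).const_mul C).const_mul _)
    (eg_exp_rho hS hL.N0 hL.norm hl'.le C (S.m 1))
    (fun z => mul_nonneg hm1.le (mul_nonneg hC0.le (rho_bd hS hL.N0 hL.norm hl'.le z).1))
    hA1 e1 p
  have e3 : (fun (z : ι → ℝ) (_ : X) => (S.m 1 * (C * rho S φ l z)) ^ p) =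
      fun z _ => (S.m 1 * C) ^ p * rho S φ l z ^ p := by
    funext z _
    rw [← mul_assoc, mul_pow]
  rw [e3, Ex_const_mul] at e2
  have e4 : 2 * A / (κ * (S.m 1 * S.m Q * (N * s ^ 2))) = A / (S.m 1 * C) := by
    rw [hC]
    field_simp
  rw [e4, div_pow, ← mul_div_assoc, le_div_iff₀ (by positivity)]
  linarith

end Vale.Agent.N146.Four
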