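import Vale.Agent.P146.R3.H316.Par3
import Vale.Agent.P146.H826.Kab
import Vale.Agent.P146.H93.TlSK

/-!
# P146: the cascade is Lipschitz in the distribution function of its law (helper75)

`casc_l1`: two cascades with arbitrary numbers of levels differ, up to the gauge `r K / 2`, by at
most one half of the `L¹` distance of the distribution functions `xs`.  `d4_cmp`: the fourth
derivatives at the origin of two close cascades are close.
-/

open MeasureTheory ProbabilityTheory Filter Topology Set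

namespace Vale.Agent.N146.Kap

open Vale.Agent.P157.Par (Path Exponents cascade gstep cascade_succ_def spinPart)
open Vale.Agent.P146.Gap
open Vale.Agent.P146.R3.H952 (xs)
open Vale.Agent.P146.H93 (Em)

/-- the data of a cascade which ends before the time `T` -/
structure Dat (K : ℕ) (m r : ℕ → ℝ) (T : ℝ) : Prop where
  m0 : m 0 = 0
  pos : ∀ l, 1 ≤ l → l ≤ K + 1 → 0 < m l
  le1 : ∀ l, 1 ≤ l → l ≤ K + 1 → m l ≤ 1
  r0 : r 0 = 0
  mono : ∀ l < K, r l ≤ r (l + 1)
  top : r K ≤ T

lemma Dat.le {K : ℕ} {m r : ℕ → ℝ} {T : ℝ} (h : Dat K m r T) {l : ℕ} (hl : l ≤ K) :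
    r l ≤ r K := minb_mono h.mono hl le_rfl

lemma Dat.nonneg {K : ℕ} {m r : ℕ → ℝ} {T : ℝ} (h : Dat K m r T) : 0 ≤ r K := by
  have := h.le (Nat.zero_le K)
  rwa [h.r0] at this

lemma ind_mono (a : ℝ) : Monotone fun u : ℝ => if a < u then (1 : ℝ) else 0 := by
  intro u v huv
  by_cases h : a < u
  · simp only [if_pos h, if_pos (h.trans_le huv), le_refl]
  · simp only [if_neg h]
    split_ifs <;> norm_num

lemma xs_ii (K : ℕ) (m r : ℕ → ℝ) (a c : ℝ) : IntervalIntegrable (xs K m r) volume a c := by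
  unfold xs
  have h := IntervalIntegrable.sum (μ := volume) (a := a) (b := c) (Finset.range (K + 1))
    (f := fun l u => (m (l + 1) - m l) * if r l < u then (1 : ℝ) else 0)
    (fun l _ => (ind_mono (r l)).intervalIntegrable.const_mul _)
  have e : (fun u => ∑ l ∈ Finset.range (K + 1), (m (l + 1) - m l) *
      if r l < u then (1 : ℝ) else 0) = ∑ l ∈ Finset.range (K + 1),
        fun u => (m (l + 1) - m l) * if r l < u then (1 : ℝ) else 0 := by
    funext u
    rw [Finset.sum_apply]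
  rw [e]
  exact h

lemma xs_top {K : ℕ} {m r : ℕ → ℝ} {T : ℝ} (h : Dat K m r T) {u : ℝ} (hu : r K < u) :
    xs K m r u = m (K + 1) := by
  unfold xs
  rw [Finset.sum_congr rfl fun l hl => by
    rw [if_pos ((h.le (Nat.lt_succ_iff.1 (Finset.mem_range.1 hl))).trans_lt hu), mul_one]]
  rw [Finset.sum_range_sub, h.m0, sub_zero]

lemma xs_succ (K : ℕ) (m r : ℕ → ℝ) {u : ℝ} (hu : u ≤ r (K + 1)) :
    xs (K + 1) m r u = xs K m r u := by
  unfold xs
  rw [Finset.sum_range_succ, if_neg (not_lt.2 hu), mul_zero, add_zero]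

lemma gstep_exp_abs {C g g' v : ℝ} {F : ℝ → ℝ} (h : Adm C F) (hg : 0 < g) (hg1 : g ≤ 1)
    (hg' : 0 < g') (hg'1 : g' ≤ 1) (hv : 0 ≤ v) (x : ℝ) :
    |gstep g v F x - gstep g' v F x| ≤ 1 / 2 * (|g - g'| * v) := by
  rcases le_total g g' with hle | hle
  · have h1 := gstep_exp_mono h hg hle hg'1 hv x
    have h2 := gstep_exp_lip h hg hle hg'1 hv x
    rw [abs_sub_comm g g', abs_of_nonneg (sub_nonneg.2 hle), abs_le]
    constructor <;> nlinarith [mul_nonneg (sub_nonneg.2 hle) hv]
  · have h1 := gstep_exp_mono h hg' hle hg1 hv x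
    have h2 := gstep_exp_lip h hg' hle hg1 hv x
    rw [abs_of_nonneg (sub_nonneg.2 hle), abs_le]
    constructor <;> nlinarith [mul_nonneg (sub_nonneg.2 hle) hv]

/-- the statement of the comparison -/
def Cmp (K K' : ℕ) : Prop :=
  ∀ (m r m' r' : ℕ → ℝ) (T C C' e : ℝ) (F F' : ℝ → ℝ), Dat K m r T → Dat K' m' r' T →
    Adm C F → Adm C' F' → (∀ x, |F x - F' x| ≤ e) → ∀ x,
    |cascade m r K (gstep (m (K + 1)) (T - r K) F) x -
      cascade m' r' K' (gstep (m' (K' + 1)) (T - r' K') F') x| ≤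
      e + 1 / 2 * ∫ u in (0 : ℝ)..T, |xs K m r u - xs K' m' r' u|

lemma cmp_step {K K' : ℕ} (ih : ∀ K0, K = K0 + 1 → Cmp K0 K') {m r m' r' : ℕ → ℝ}
    {T C C' e : ℝ} {F F' : ℝ → ℝ} (h : Dat K m r T) (h' : Dat K' m' r' T) (hF : Adm C F)
    (hF' : Adm C' F') (he : ∀ x, |F x - F' x| ≤ e) (hle : r' K' ≤ r K) (x : ℝ) :
    |cascade m r K (gstep (m (K + 1)) (T - r K) F) x -
      cascade m' r' K' (gstep (m' (K' + 1)) (T - r' K') F') x| ≤
      e + 1 / 2 * ∫ u in (0 : ℝ)..T, |xs K m r u - xs K' m' r' u| := by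
  have g0 := h.pos (K + 1) (by omega) le_rfl
  have g1 := h.le1 (K + 1) (by omega) le_rfl
  have g0' := h'.pos (K' + 1) (by omega) le_rfl
  have g1' := h'.le1 (K' + 1) (by omega) le_rfl
  have hT : 0 ≤ T - r K := sub_nonneg.2 h.top
  have hs : 0 ≤ r K - r' K' := sub_nonneg.2 hle
  have hG := hF.step g0 g1 hT
  have hG' := hF'.step g0' g1' hT
  have e1 : gstep (m' (K' + 1)) (T - r' K') F' =
      gstep (m' (K' + 1)) (r K - r' K') (gstep (m' (K' + 1)) (T - r K) F') := by
    rw [gstep_add hF' g0' hs hT]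
    congr 1
    ring
  have hd : ∀ y, |gstep (m (K + 1)) (T - r K) F y - gstep (m' (K' + 1)) (T - r K) F' y| ≤
      e + 1 / 2 * (|m (K + 1) - m' (K' + 1)| * (T - r K)) := by
    intro y
    have a1 := gstep_exp_abs hF g0 g1 g0' g1' hT y
    have a2 := gstep_nonexp hF hF' g0' (T - r K) he y
    have a3 := abs_sub_le (gstep (m (K + 1)) (T - r K) F y) (gstep (m' (K' + 1)) (T - r K) F y)
      (gstep (m' (K' + 1)) (T - r K) F' y)
    linarith
  have ii : ∀ a c : ℝ, IntervalIntegrable (fun u => |xs K m r u - xs K' m' r' u|) volume a c :=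
    fun a c => ((xs_ii K m r a c).sub (xs_ii K' m' r' a c)).abs
  have e2 : ∫ u in (0 : ℝ)..T, |xs K m r u - xs K' m' r' u| =
      (∫ u in (0 : ℝ)..r K, |xs K m r u - xs K' m' r' u|) +
        |m (K + 1) - m' (K' + 1)| * (T - r K) := by
    rw [← intervalIntegral.integral_add_adjacent_intervals (ii 0 (r K)) (ii (r K) T)]
    congr 1
    have e3 : ∫ u in r K..T, |xs K m r u - xs K' m' r' u| =
        ∫ _u in r K..T, |m (K + 1) - m' (K' + 1)| := by
      refine intervalIntegral.integral_congr_ae (Eventually.of_forall fun u hu => ?_)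
      rw [uIoc_of_le h.top] at hu
      rw [xs_top h hu.1, xs_top h' (hle.trans_lt hu.1)]
    rw [e3, intervalIntegral.integral_const, smul_eq_mul, mul_comm]
  rw [e1, e2]
  rcases K with _ | K0
  · have hr0 : r' K' = 0 := le_antisymm (by rw [← h.r0]; exact hle) h'.nonneg
    have hfl : ∀ l ≤ K', r' l = r' 0 := by
      intro l hl
      have a1 := h'.le hl
      have a2 := minb_mono h'.mono (Nat.zero_le l) hl
      rw [h'.r0] at a2 ⊢
      linarith
    rw [minb_flat (fun l h1 h2 => (h'.pos l h1 (by omega)).ne') hfl, h.r0, hr0, sub_self,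
      ex_gstep_zero g0'.ne', intervalIntegral.integral_same]
    have := hd x
    rw [h.r0] at this
    rw [zero_add (|m (0 + 1) - m' (K' + 1)| * (T - 0))]
    exact this
  · have hD : Dat K0 m r (r (K0 + 1)) :=
      ⟨h.m0, fun l h1 h2 => h.pos l h1 (by omega), fun l h1 h2 => h.le1 l h1 (by omega), h.r0,
        fun l hl => h.mono l (by omega), h.mono K0 (by omega)⟩
    have hD' : Dat K' m' r' (r (K0 + 1)) := ⟨h'.m0, h'.pos, h'.le1, h'.r0, h'.mono, hle⟩
    have key := ih K0 rfl m r m' r' (r (K0 + 1)) _ _ _ _ _ hD hD' hG hG' hd x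
    have e4 : ∫ u in (0 : ℝ)..r (K0 + 1), |xs (K0 + 1) m r u - xs K' m' r' u| =
        ∫ u in (0 : ℝ)..r (K0 + 1), |xs K0 m r u - xs K' m' r' u| := by
      refine intervalIntegral.integral_congr_ae (Eventually.of_forall fun u hu => ?_)
      rw [uIoc_of_le h.nonneg] at hu
      rw [xs_succ K0 m r hu.2]
    rw [cascade_succ_def, e4]
    linarith

lemma cmp_all : ∀ N K K' : ℕ, K + K' = N → Cmp K K' := by
  intro N
  induction N using Nat.strong_induction_on with
  | _ N ih =>
    intro K K' hN m r m' r' T C C' e F F' h h' hF hF' he x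
    rcases le_total (r' K') (r K) with hle | hle
    · exact cmp_step (fun K0 hK => ih (K0 + K') (by omega) K0 K' rfl) h h' hF hF' he hle x
    · have := cmp_step (fun K0 hK => ih (K0 + K) (by omega) K0 K rfl) h' h hF' hF
        (e := e) (fun y => by rw [abs_sub_comm]; exact he y) hle x
      rw [abs_sub_comm]
      simp only [abs_sub_comm (xs K m r _)]
      exact this

lemma em_le {K : ℕ} {m : ℕ → ℝ} (hm : Em K m) {i j : ℕ} (hij : i ≤ j) (hj : j ≤ K + 1) :
    m i ≤ m j := minb_mono (n := K + 1) (fun l hl => hm.mono l (by omega)) hij hj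

lemma em_pos {K : ℕ} {m : ℕ → ℝ} (hm : Em K m) {l : ℕ} (h1 : 1 ≤ l) (h2 : l ≤ K + 1) :
    0 < m l := hm.pos.trans_le (em_le hm h1 h2)

lemma em_le1 {K : ℕ} {m : ℕ → ℝ} (hm : Em K m) {l : ℕ} (h2 : l ≤ K + 1) : m l ≤ 1 := by
  rw [← hm.mK]
  exact em_le hm h2 le_rfl

lemma em_of_exp {K : ℕ} {m : ℕ → ℝ} (hm : Exponents K m) : Em K m :=
  ⟨hm.1, hm.2.1, fun l hl => (hm.2.2 l hl).le, by
    have := hm.2.2 0 (Nat.zero_le _)
    rwa [hm.1] at this⟩

lemma casc_top {K : ℕ} {m r : ℕ → ℝ} {T : ℝ} (hm : Em K m) (hr : Path K r) (hT : r K ≤ T)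
    (x : ℝ) : cascade m r K (gstep (m (K + 1)) (T - r K) lc) x =
      cascade m r K lc x + (T - r K) / 2 := by
  rw [hm.mK, minb_lc_step (sub_nonneg.2 hT), minb_cascade_const
    (fun l h1 h2 => em_pos hm h1 (by omega)) (fun l _ h2 => em_le1 hm (by omega)) hr.2 adm_lc]

/-- **The cascade is Lipschitz in the distribution function.** -/
theorem casc_l1 {K K' : ℕ} {m r m' r' : ℕ → ℝ} {T : ℝ} (hm : Em K m) (hm' : Em K' m')
    (hr : Path K r) (hr' : Path K' r') (h0 : r 0 = 0) (h0' : r' 0 = 0) (hT : r K ≤ T)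
    (hT' : r' K' ≤ T) (x : ℝ) :
    |cascade m r K lc x - r K / 2 - (cascade m' r' K' lc x - r' K' / 2)| ≤
      1 / 2 * ∫ u in (0 : ℝ)..T, |xs K m r u - xs K' m' r' u| := by
  have h := cmp_all _ K K' rfl m r m' r' T 2 2 0 lc lc
    ⟨hm.m0, fun l h1 h2 => em_pos hm h1 h2, fun l _ h2 => em_le1 hm h2, h0, hr.2, hT⟩
    ⟨hm'.m0, fun l h1 h2 => em_pos hm' h1 h2, fun l _ h2 => em_le1 hm' h2, h0', hr'.2, hT'⟩
    adm_lc adm_lc (fun y => by simp) x
  rw [casc_top hm hr hT, casc_top hm' hr' hT', zero_add] at h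
  refine le_trans (le_of_eq ?_) h
  congr 1
  ring

/-! ### The fourth derivative -/

section d4

open Vale.Agent.P157 Vale.Agent.P157.Lv Vale.Agent.P157.Lv.Sy
open Vale.Agent.P146.H826 Vale.Agent.P146.H784 Vale.Agent.P146.R3.H501.Tr

/-- the system without coordinates and with one configuration -/
def S0 (K : ℕ) (m : ℕ → ℝ) : Sy (Fin 0) Unit where
  lev := fun _ => 0
  K := K
  m := m
  H := fun _ _ => 0

lemma S0_regD {K : ℕ} {m : ℕ → ℝ} (hm : Em K m) : (S0 K m).RegD (fun _ _ _ => 0) where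
  m0 := hm.m0
  mK := hm.mK
  mono := hm.mono
  pos := hm.pos
  lev := fun _ => Nat.zero_le _
  lip := fun _ => Lip.const 0
  pd := fun e => e.elim0
  md := fun e => e.elim0
  bd := ⟨0, fun e => e.elim0⟩

/-- the cascade as the free energy of one spin -/
lemma casc_fe {K : ℕ} {m r : ℕ → ℝ} (hm : Em K m) (hr : Path K r) (h0 : r 0 = 0) (h : ℝ) :
    (ah (SI (S0 K m) (fun _ : Fin 0 => 0) (fun _ _ => 0) (fun _ => 1) r 0 0)
      (fun x => sgn x.2 * (fun _ => (1 : ℝ)) x.1) h).fe =
      (S0 K m).fe + Real.log 2 + cascade m r K lc h := by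
  rw [← SI_ah]
  exact end_tree (S0_regD hm) (fun _ => Nat.zero_le _) hr h0 (fun _ => by norm_num) h

/-- **Comparison of the fourth derivatives of two close cascades.** -/
theorem d4_cmp {K K' : ℕ} {m r m' r' : ℕ → ℝ} (hm : Em K m) (hm' : Em K' m')
    (hr : Path K r) (hr' : Path K' r') (h0 : r 0 = 0) (h0' : r' 0 = 0) {c e δ : ℝ} (hδ : 0 < δ)
    (he : ∀ h, |cascade m r K lc h - cascade m' r' K' lc h - c| ≤ e) :
    |iteratedDeriv 4 (cascade m r K lc) 0 - iteratedDeriv 4 (cascade m' r' K' lc) 0| ≤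
      16 * e / δ ^ 4 + 144 * 270 * δ := by
  have hf : ∀ x : Unit × Bool, |sgn x.2 * (fun _ => (1 : ℝ)) x.1| ≤ 1 := by
    intro x
    rw [mul_one, abs_sgn]
  have e2 : ∀ {K : ℕ} {m r : ℕ → ℝ}, Em K m → Path K r → r 0 = 0 →
      iteratedDeriv 4 (cascade m r K lc) 0 =
      Dk 3 (SI (S0 K m) (fun _ : Fin 0 => 0) (fun _ _ => 0) (fun _ => 1) r 0 0)
        (fun x => sgn x.2 * (fun _ => (1 : ℝ)) x.1)
        (fun x => sgn x.2 * (fun _ => (1 : ℝ)) x.1) 0 := by
    intro K m r hm hr h0
    rw [← it_casc m r K ((S0 K m).fe + Real.log 2) (cascade m r K lc)]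
    have e : (fun h => (S0 K m).fe + Real.log 2 + cascade m r K lc h) =
        fun h => (ah (SI (S0 K m) (fun _ : Fin 0 => 0) (fun _ _ => 0) (fun _ => 1) r 0 0)
          (fun x => sgn x.2 * (fun _ => (1 : ℝ)) x.1) h).fe := by
      funext h
      rw [casc_fe hm hr h0]
    rw [e, it_fe (SI_reg (S0_regD hm).toReg (fun _ => Nat.zero_le _) 0 0)]
  rw [e2 hm hr h0, e2 hm' hr' h0']
  refine fe_cmp (SI_reg (S0_regD hm).toReg (fun _ => Nat.zero_le _) 0 0)
    (SI_reg (S0_regD hm').toReg (fun _ => Nat.zero_le _) 0 0) hf hf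
    (c := (S0 K m).fe - (S0 K' m').fe + c) hδ fun h _ => ?_
  rw [casc_fe hm hr h0, casc_fe hm' hr' h0']
  refine le_trans (le_of_eq ?_) (he h)
  congr 1
  ring

end d4

/-! ### Monotone functions with close primitives -/

/-- monotone functions with values in `[0, 1]` and close primitives are close in `L¹` -/
theorem l1_of_prim {x x' : ℝ → ℝ} (hx : Monotone x) (hx' : Monotone x')
    (h01 : ∀ u, x u ∈ Icc (0 : ℝ) 1) (h01' : ∀ u, x' u ∈ Icc (0 : ℝ) 1) {ε h : ℝ}
    (hh : 0 < h) (hh1 : h ≤ 1)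
    (hε : ∀ y ∈ Icc (0 : ℝ) 1, |(∫ u in y..1, x u) - ∫ u in y..1, x' u| ≤ ε) :
    ∫ u in (0 : ℝ)..1, |x u - x' u| ≤ 3 * h + 2 * ε / h := by
  have hε0 : 0 ≤ ε := (abs_nonneg _).trans (hε 0 ⟨le_rfl, zero_le_one⟩)
  have one : ∀ {x x' : ℝ → ℝ}, Monotone x → Monotone x' →
      (∀ y ∈ Icc (0 : ℝ) 1, |(∫ u in y..1, x u) - ∫ u in y..1, x' u| ≤ ε) →
      ∀ u ∈ Icc (0 : ℝ) (1 - h), x u ≤ x' (u + h) + 2 * ε / h := by
    intro x x' hx hx' hε u hu
    have i : ∀ a c : ℝ, IntervalIntegrable x volume a c := fun a c => hx.intervalIntegrable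
    have i' : ∀ a c : ℝ, IntervalIntegrable x' volume a c := fun a c => hx'.intervalIntegrable
    have a1 := abs_le.1 (hε u ⟨hu.1, by linarith [hu.2]⟩)
    have a2 := abs_le.1 (hε (u + h) ⟨by linarith [hu.1], by linarith [hu.2]⟩)
    have a3 := intervalIntegral.integral_add_adjacent_intervals (i u (u + h)) (i (u + h) 1)
    have a4 := intervalIntegral.integral_add_adjacent_intervals (i' u (u + h)) (i' (u + h) 1)
    have a5 := intervalIntegral.integral_mono_on (f := fun _ => x u) (by linarith : u ≤ u + h)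
      intervalIntegrable_const (i u (u + h)) fun v hv => hx hv.1
    have a6 := intervalIntegral.integral_mono_on (g := fun _ => x' (u + h))
      (by linarith : u ≤ u + h) (i' u (u + h)) intervalIntegrable_const fun v hv => hx' hv.2
    rw [intervalIntegral.integral_const, smul_eq_mul, add_sub_cancel_left] at a5 a6
    have a7 : h * x u ≤ h * (x' (u + h) + 2 * ε / h) := by
      rw [mul_add, mul_div_cancel₀ _ hh.ne']
      linarith [a1.2, a2.1]
    exact le_of_mul_le_mul_left a7 hh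
  have two : ∀ {x : ℝ → ℝ}, Monotone x → (∀ u, x u ∈ Icc (0 : ℝ) 1) →
      ∫ u in (0 : ℝ)..(1 - h), (x (u + h) - x u) ≤ h := by
    intro x hx h01
    have i : ∀ a c : ℝ, IntervalIntegrable x volume a c := fun a c => hx.intervalIntegrable
    have hx2 : Monotone fun u => x (u + h) := fun u v huv => hx (by linarith)
    rw [intervalIntegral.integral_sub hx2.intervalIntegrable (i _ _),
      intervalIntegral.integral_comp_add_right, zero_add, sub_add_cancel]
    have a3 := intervalIntegral.integral_add_adjacent_intervals (i 0 h) (i h 1)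
    have a4 := intervalIntegral.integral_add_adjacent_intervals (i 0 (1 - h)) (i (1 - h) 1)
    have a5 : 0 ≤ ∫ u in (0 : ℝ)..h, x u :=
      intervalIntegral.integral_nonneg hh.le fun u _ => (h01 u).1
    have a6 := intervalIntegral.integral_mono_on (g := fun _ => (1 : ℝ))
      (by linarith : 1 - h ≤ 1) (i (1 - h) 1) intervalIntegrable_const fun v _ => (h01 v).2
    rw [intervalIntegral.integral_const, smul_eq_mul, sub_sub_cancel, mul_one] at a6
    linarith
  have ii : ∀ a c : ℝ, IntervalIntegrable (fun u => |x u - x' u|) volume a c := fun a c =>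
    (hx.intervalIntegrable.sub hx'.intervalIntegrable).abs
  have hx2 : Monotone fun u => x (u + h) := fun u v huv => hx (by linarith)
  have hx2' : Monotone fun u => x' (u + h) := fun u v huv => hx' (by linarith)
  have j1 : IntervalIntegrable (fun u => x (u + h) - x u) volume 0 (1 - h) :=
    hx2.intervalIntegrable.sub hx.intervalIntegrable
  have j2 : IntervalIntegrable (fun u => x' (u + h) - x' u) volume 0 (1 - h) :=
    hx2'.intervalIntegrable.sub hx'.intervalIntegrable
  have b1 := intervalIntegral.integral_mono_on (by linarith : (0 : ℝ) ≤ 1 - h) (ii 0 (1 - h))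
    (g := fun u => ((x (u + h) - x u) + (x' (u + h) - x' u)) + 2 * ε / h)
    ((j1.add j2).add intervalIntegrable_const) fun u hu => by
      have c1 := one hx hx' hε u hu
      have c2 := one hx' hx (fun y hy => by rw [abs_sub_comm]; exact hε y hy) u hu
      have c3 : x u ≤ x (u + h) := hx (by linarith)
      have c4 : x' u ≤ x' (u + h) := hx' (by linarith)
      rw [abs_le]
      constructor <;> linarith
  rw [intervalIntegral.integral_add (j1.add j2) intervalIntegrable_const,
    intervalIntegral.integral_add j1 j2, intervalIntegral.integral_const, smul_eq_mul] at b1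
  have b2 := intervalIntegral.integral_mono_on (g := fun _ => (1 : ℝ))
    (by linarith : 1 - h ≤ 1) (ii (1 - h) 1) intervalIntegrable_const fun v _ => by
      have c1 := h01 v
      have c2 := h01' v
      rw [abs_le]
      constructor <;> linarith [c1.1, c1.2, c2.1, c2.2]
  rw [intervalIntegral.integral_const, smul_eq_mul, sub_sub_cancel, mul_one] at b2
  have b3 := intervalIntegral.integral_add_adjacent_intervals (ii 0 (1 - h)) (ii (1 - h) 1)
  have b4 := two hx h01
  have b5 := two hx' h01'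
  have b6 : (1 - h - 0) * (2 * ε / h) ≤ 2 * ε / h := by
    have : 0 ≤ 2 * ε / h := by positivity
    nlinarith
  linarith

end Vale.Agent.N146.Kap
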