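import Vale.Agent.N146.KapA

/-!
# P146: the fourth derivative of the cascade is universal along near minimisers (helper75)

`kap_univ`: there is `κ < 0` such that for all near minimisers `(m, q)` of the Parisi functional
the fourth derivative at the origin of the cascade with the path `β² q` is close to `κ`.
-/

open MeasureTheory ProbabilityTheory Filter Topology Set

namespace Vale.Agent.N146.Kap

open Vale.Agent.P157.Par (Path Exponents cascade gstep cascade_succ_def spinPart)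
open Vale.Agent.P146.Gap Vale.Agent.P146.Sh
open Vale.Agent.P146.R3.H952 (xs MinProf path_le)
open Vale.Agent.P146.H93 (Em)

variable {K K' : ℕ} {m m' q q' : ℕ → ℝ} {be : ℝ}

lemma wt_nn (hm : Em K m) {l : ℕ} (hl : l ∈ Finset.range (K + 1)) : 0 ≤ m (l + 1) - m l :=
  sub_nonneg.2 (hm.mono l (Nat.lt_succ_iff.1 (Finset.mem_range.1 hl)))

lemma wt_one (hm : Em K m) : ∑ l ∈ Finset.range (K + 1), (m (l + 1) - m l) = 1 := by
  rw [Finset.sum_range_sub, hm.mK, hm.m0, sub_zero]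

lemma xs_mono' (hm : Em K m) (q : ℕ → ℝ) : Monotone (xs K m q) := by
  intro u v huv
  exact Finset.sum_le_sum fun l hl =>
    mul_le_mul_of_nonneg_left (ind_mono (q l) huv) (wt_nn hm hl)

lemma xs_mem' (hm : Em K m) (q : ℕ → ℝ) (u : ℝ) : xs K m q u ∈ Icc (0 : ℝ) 1 := by
  constructor
  · refine Finset.sum_nonneg fun l hl => mul_nonneg (wt_nn hm hl) ?_
    split_ifs <;> norm_num
  · rw [← wt_one hm]
    refine Finset.sum_le_sum fun l hl => mul_le_of_le_one_right (wt_nn hm hl) ?_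
    split_ifs <;> norm_num

lemma xs_scale {c : ℝ} (hc : 0 < c) (u : ℝ) :
    xs K m (fun l => c * q l) (c * u) = xs K m q u := by
  unfold xs
  refine Finset.sum_congr rfl fun l _ => ?_
  simp only [mul_lt_mul_iff_right₀ hc]

lemma path_mul {c : ℝ} (hc : 0 ≤ c) (hq : Path K q) : Path K fun l => c * q l :=
  ⟨mul_nonneg hc hq.1, fun l hl => mul_le_mul_of_nonneg_left (hq.2 l hl) hc⟩

/-- the comparison of two cascades in terms of the overlaps -/
theorem casc_q {c : ℝ} (hc : 0 < c) (hm : Em K m) (hm' : Em K' m') (hq : Path K q)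
    (hq' : Path K' q') (h0 : q 0 = 0) (h0' : q' 0 = 0) (h1 : q K ≤ 1) (h1' : q' K' ≤ 1) (x : ℝ) :
    |cascade m (fun l => c * q l) K lc x - c * q K / 2 -
      (cascade m' (fun l => c * q' l) K' lc x - c * q' K' / 2)| ≤
      c / 2 * ∫ u in (0 : ℝ)..1, |xs K m q u - xs K' m' q' u| := by
  have h := casc_l1 (T := c) hm hm' (path_mul hc.le hq) (path_mul hc.le hq')
    (by simp only [h0, mul_zero]) (by simp only [h0', mul_zero])
    (by have := mul_le_mul_of_nonneg_left h1 hc.le; simpa using this)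
    (by have := mul_le_mul_of_nonneg_left h1' hc.le; simpa using this) x
  refine h.trans (le_of_eq ?_)
  have e := intervalIntegral.integral_comp_mul_left (a := 0) (b := 1)
    (fun u => |xs K m (fun l => c * q l) u - xs K' m' (fun l => c * q' l) u|) hc.ne'
  simp only [xs_scale hc, mul_zero, mul_one, smul_eq_mul] at e
  rw [e]
  field_simp

/-- the strictly increasing approximation of the exponents -/
noncomputable def ms (K : ℕ) (m : ℕ → ℝ) (η : ℝ) (l : ℕ) : ℝ :=
  (1 - η) * m l + η * ((l : ℝ) / (K + 1))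

lemma em_grid (K : ℕ) : Em K fun l => (l : ℝ) / (K + 1) where
  m0 := by simp
  mK := by
    push_cast
    exact div_self (by positivity)
  mono := fun l _ => by
    push_cast
    exact div_le_div_of_nonneg_right (by linarith) (by positivity)
  pos := by
    push_cast
    positivity

lemma ms_exp (hm : Em K m) {η : ℝ} (h0 : 0 < η) (h1 : η ≤ 1) : Exponents K (ms K m η) := by
  refine ⟨?_, ?_, fun l hl => ?_⟩
  · unfold ms
    rw [hm.m0]
    simp
  · unfold ms
    rw [hm.mK, (em_grid K).mK]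
    ring
  · unfold ms
    have a1 := mul_le_mul_of_nonneg_left (hm.mono l hl) (sub_nonneg.2 h1)
    have a2 : (l : ℝ) / (K + 1) < ((l + 1 : ℕ) : ℝ) / (K + 1) := by
      push_cast
      exact div_lt_div_of_pos_right (by linarith) (by positivity)
    have a3 := mul_lt_mul_of_pos_left a2 h0
    linarith

lemma sum_ms (η : ℝ) (f : ℕ → ℝ) :
    ∑ l ∈ Finset.range (K + 1), (ms K m η (l + 1) - ms K m η l) * f l =
      (1 - η) * ∑ l ∈ Finset.range (K + 1), (m (l + 1) - m l) * f l +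
        η * ∑ l ∈ Finset.range (K + 1),
          (((l + 1 : ℕ) : ℝ) / (K + 1) - (l : ℝ) / (K + 1)) * f l := by
  rw [Finset.mul_sum, Finset.mul_sum, ← Finset.sum_add_distrib]
  refine Finset.sum_congr rfl fun l _ => ?_
  unfold ms
  ring

lemma xs_ms (hm : Em K m) {η : ℝ} (h0 : 0 ≤ η) (u : ℝ) :
    |xs K (ms K m η) q u - xs K m q u| ≤ η := by
  have e : xs K (ms K m η) q u = (1 - η) * xs K m q u +
      η * xs K (fun l => (l : ℝ) / (K + 1)) q u := sum_ms η _
  have a1 := xs_mem' hm q u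
  have a2 := xs_mem' (em_grid K) q u
  rw [e, abs_le]
  constructor <;> nlinarith [a1.1, a1.2, a2.1, a2.2]

lemma int_ms (hm : Em K m) {η : ℝ} (h0 : 0 ≤ η) :
    ∫ u in (0 : ℝ)..1, |xs K (ms K m η) q u - xs K m q u| ≤ η := by
  have h := intervalIntegral.integral_mono_on (g := fun _ => η) zero_le_one
    ((xs_ii K (ms K m η) q 0 1).sub (xs_ii K m q 0 1)).abs intervalIntegrable_const
    fun u _ => xs_ms hm h0 u
  simpa using h

lemma par_ms (hb : 0 < be) (hm : Em K m) (hq : Path K q) (h0 : q 0 = 0) (h1 : q K ≤ 1)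
    {η : ℝ} (hη : 0 < η) (hη1 : η ≤ 1) :
    SKpar be K (ms K m η) q ≤ SKpar be K m q + be ^ 2 * η := by
  have hc : 0 < be ^ 2 := by positivity
  have a1 := casc_q hc (em_of_exp (ms_exp hm hη hη1)) hm hq hq h0 h0 h1 h1 0
  have a2 := mul_le_mul_of_nonneg_left (int_ms (q := q) hm hη.le) (by positivity : 0 ≤ be ^ 2 / 2)
  have a3 := (le_abs_self _).trans (a1.trans a2)
  have hq01 : ∀ l ∈ Finset.range (K + 1), q l ^ 2 ≤ 1 := by
    intro l hl
    have b1 := (path_le hq hl).trans h1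
    have b2 : 0 ≤ q l := by
      have := minb_mono hq.2 (Nat.zero_le l) (Nat.lt_succ_iff.1 (Finset.mem_range.1 hl))
      rwa [h0] at this
    nlinarith
  have a4 : ∑ l ∈ Finset.range (K + 1),
      (((l + 1 : ℕ) : ℝ) / (K + 1) - (l : ℝ) / (K + 1)) * q l ^ 2 ≤ 1 := by
    refine le_trans ?_ (wt_one (em_grid K)).le
    exact Finset.sum_le_sum fun l hl => mul_le_of_le_one_right (wt_nn (em_grid K) hl) (hq01 l hl)
  have a5 : 0 ≤ ∑ l ∈ Finset.range (K + 1), (m (l + 1) - m l) * q l ^ 2 :=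
    Finset.sum_nonneg fun l hl => mul_nonneg (wt_nn hm hl) (sq_nonneg _)
  unfold SKpar
  rw [minb_spin (by simp only [h0, mul_zero]), minb_spin (by simp only [h0, mul_zero]), sum_ms]
  have a6 := mul_le_mul_of_nonneg_left a4 hη.le
  have a7 := mul_nonneg hη.le a5
  have a8 : be ^ 2 / 4 * (1 + ((1 - η) * ∑ l ∈ Finset.range (K + 1), (m (l + 1) - m l) * q l ^ 2 +
      η * ∑ l ∈ Finset.range (K + 1),
        (((l + 1 : ℕ) : ℝ) / (K + 1) - (l : ℝ) / (K + 1)) * q l ^ 2)) ≤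
      be ^ 2 / 4 * (1 + ∑ l ∈ Finset.range (K + 1), (m (l + 1) - m l) * q l ^ 2 + η) :=
    mul_le_mul_of_nonneg_left (by linarith) (by positivity)
  have a9 : 0 ≤ be ^ 2 * η := by positivity
  linarith

/-- **Near minimisers are close to the profile in `L¹`.** -/
theorem near_l1 (hb : 1 < be) {x : ℝ → ℝ} (hx : MinProf be x) {ε : ℝ} (hε : 0 < ε) :
    ∃ δ > 0, ∀ (K : ℕ) (m q : ℕ → ℝ), Em K m → Path K q → q 0 = 0 → q K ≤ 1 →
      SKpar be K m q ≤ P0 be + δ → ∫ u in (0 : ℝ)..1, |xs K m q u - x u| ≤ ε := by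
  obtain ⟨h, hh⟩ : ∃ h : ℝ, h = min 1 (ε / 9) := ⟨_, rfl⟩
  have hh0 : 0 < h := by rw [hh]; positivity
  have hh1 : h ≤ 1 := by rw [hh]; exact min_le_left _ _
  have hh2 : h ≤ ε / 9 := by rw [hh]; exact min_le_right _ _
  obtain ⟨δ, hδ, hn⟩ := Vale.Agent.P146.R3.P316.par_near_all hb hx
    (ε := ε / 6 * h) (by positivity)
  have hb0 : 0 < be := by linarith
  obtain ⟨η, hη⟩ : ∃ η : ℝ, η = min (min 1 (ε / 3)) (δ / 2 / be ^ 2) := ⟨_, rfl⟩
  have hη0 : 0 < η := by rw [hη]; positivity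
  have hη1 : η ≤ 1 := by rw [hη]; exact (min_le_left _ _).trans (min_le_left _ _)
  have hη2 : η ≤ ε / 3 := by rw [hη]; exact (min_le_left _ _).trans (min_le_right _ _)
  have hη3 : be ^ 2 * η ≤ δ / 2 := by
    have : η ≤ δ / 2 / be ^ 2 := by rw [hη]; exact min_le_right _ _
    rw [le_div_iff₀ (by positivity)] at this
    linarith
  refine ⟨δ / 2, half_pos hδ, fun K m q hm hq h0 h1 hv => ?_⟩
  have hs := ms_exp hm hη0 hη1
  have a1 := par_ms hb0 hm hq h0 h1 hη0 hη1
  have a2 := hn K (ms K m η) q hs hq h1 (by linarith)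
  have a3 := l1_of_prim (xs_mono' (em_of_exp hs) q) hx.1 (xs_mem' (em_of_exp hs) q) hx.2.1
    hh0 hh1 a2
  have e : 2 * (ε / 6 * h) / h = ε / 3 := by
    field_simp
    ring
  rw [e] at a3
  have a4 := int_ms (q := q) hm hη0.le
  have i1 := xs_ii K (ms K m η) q 0 1
  have i2 := xs_ii K m q 0 1
  have i3 : IntervalIntegrable x volume 0 1 := hx.1.intervalIntegrable
  have a5 := intervalIntegral.integral_mono_on zero_le_one (i2.sub i3).abs
    (g := fun u => |xs K (ms K m η) q u - xs K m q u| + |xs K (ms K m η) q u - x u|)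
    ((i1.sub i2).abs.add (i1.sub i3).abs) fun u _ => by
      rw [abs_sub_comm (xs K (ms K m η) q u) (xs K m q u)]
      exact abs_sub_le _ _ _
  rw [intervalIntegral.integral_add (i1.sub i2).abs (i1.sub i3).abs] at a5
  linarith

/-- the fourth derivative at the origin -/
noncomputable def d4 (be : ℝ) (K : ℕ) (m q : ℕ → ℝ) : ℝ :=
  iteratedDeriv 4 (cascade m (fun l => be ^ 2 * q l) K lc) 0

/-- near minimisers of the Parisi functional -/
structure NM (be δ : ℝ) (K : ℕ) (m q : ℕ → ℝ) : Prop where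
  em : Em K m
  path : Path K q
  q0 : q 0 = 0
  q1 : q K ≤ 1
  le : SKpar be K m q ≤ P0 be + δ

lemma NM.mono {δ δ' : ℝ} (h : NM be δ K m q) (hδ : δ ≤ δ') : NM be δ' K m q :=
  ⟨h.em, h.path, h.q0, h.q1, h.le.trans (by linarith)⟩

/-- the fourth derivative is continuous in the distribution function -/
theorem d4_l1 (hb : 0 < be) {ε : ℝ} (hε : 0 < ε) : ∃ δ > 0, ∀ (K K' : ℕ) (m q m' q' : ℕ → ℝ),
    Em K m → Em K' m' → Path K q → Path K' q' → q 0 = 0 → q' 0 = 0 → q K ≤ 1 → q' K' ≤ 1 →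
    ∫ u in (0 : ℝ)..1, |xs K m q u - xs K' m' q' u| ≤ δ → |d4 be K m q - d4 be K' m' q'| ≤ ε := by
  obtain ⟨t, ht⟩ : ∃ t : ℝ, t = ε / 2 / (144 * 270) := ⟨_, rfl⟩
  have ht0 : 0 < t := by rw [ht]; positivity
  have hc : 0 < be ^ 2 := by positivity
  refine ⟨ε / 2 * t ^ 4 / (8 * be ^ 2), by positivity,
    fun K K' m q m' q' hm hm' hq hq' h0 h0' h1 h1' hd => ?_⟩
  have key := d4_cmp hm hm' (path_mul hc.le hq) (path_mul hc.le hq')
    (by simp only [h0, mul_zero]) (by simp only [h0', mul_zero])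
    (c := be ^ 2 * q K / 2 - be ^ 2 * q' K' / 2)
    (e := be ^ 2 / 2 * (ε / 2 * t ^ 4 / (8 * be ^ 2))) ht0 (fun x => by
      have a1 := casc_q hc hm hm' hq hq' h0 h0' h1 h1' x
      have a2 := mul_le_mul_of_nonneg_left hd (by positivity : 0 ≤ be ^ 2 / 2)
      refine le_trans (le_of_eq ?_) (a1.trans a2)
      congr 1
      ring)
  refine key.trans (le_of_eq ?_)
  have e1 : 16 * (be ^ 2 / 2 * (ε / 2 * t ^ 4 / (8 * be ^ 2))) / t ^ 4 = ε / 2 := by
    field_simp
    ring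
  have e2 : 144 * 270 * t = ε / 2 := by
    rw [ht]
    ring
  rw [e1, e2]
  ring

/-- two near minimisers have close fourth derivatives -/
theorem d4_near (hb : 1 < be) {ε : ℝ} (hε : 0 < ε) : ∃ δ > 0, ∀ (K K' : ℕ) (m q m' q' : ℕ → ℝ),
    NM be δ K m q → NM be δ K' m' q' → |d4 be K m q - d4 be K' m' q'| ≤ ε := by
  obtain ⟨x, hx⟩ := Vale.Agent.P146.R3.H952.exists_minProf
    (Vale.Agent.P146.R3.H501.glb_sk (b := be) hb.le)
  obtain ⟨d, hd, h1⟩ := d4_l1 (be := be) (by linarith) hε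
  obtain ⟨δ, hδ, h2⟩ := near_l1 hb hx (half_pos hd)
  refine ⟨δ, hδ, fun K K' m q m' q' h h' => ?_⟩
  refine h1 K K' m q m' q' h.em h'.em h.path h'.path h.q0 h'.q0 h.q1 h'.q1 ?_
  have a1 := h2 K m q h.em h.path h.q0 h.q1 h.le
  have a2 := h2 K' m' q' h'.em h'.path h'.q0 h'.q1 h'.le
  have i1 := xs_ii K m q 0 1
  have i2 := xs_ii K' m' q' 0 1
  have i3 : IntervalIntegrable x volume 0 1 := hx.1.intervalIntegrable
  have a5 := intervalIntegral.integral_mono_on zero_le_one (i1.sub i2).abs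
    (g := fun u => |xs K m q u - x u| + |xs K' m' q' u - x u|)
    ((i1.sub i3).abs.add (i2.sub i3).abs) fun u _ => by
      rw [abs_sub_comm (xs K' m' q' u) (x u)]
      exact abs_sub_le _ _ _
  rw [intervalIntegral.integral_add (i1.sub i3).abs (i2.sub i3).abs] at a5
  linarith

/-- **The fourth derivative is universal along near minimisers.** -/
theorem kap_univ (hb : 1 < be) : ∃ κ : ℝ, κ < 0 ∧ ∀ ε > 0, ∃ δ > 0,
    ∀ (K : ℕ) (m q : ℕ → ℝ), NM be δ K m q → |d4 be K m q - κ| ≤ ε := by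
  have hex : ∀ j : ℕ, ∃ (K : ℕ) (m q : ℕ → ℝ), Exponents K m ∧
      NM be (1 / ((j : ℝ) + 1)) K m q := by
    intro j
    have hpos : 0 < 1 / ((j : ℝ) + 1) := by positivity
    obtain ⟨v, ⟨K, m, q, hm, hq, hq0, hq1, rfl⟩, -, hv⟩ :=
      (Vale.Agent.P146.R3.P316.par_glb hb).exists_between (lt_add_of_pos_right (P0 be) hpos)
    exact ⟨K, m, q, hm, em_of_exp hm, hq, hq0, hq1, hv.le⟩
  choose Kj mj qj hE hN using hex
  have hev : ∀ δ > 0, ∀ᶠ j : ℕ in atTop, NM be δ (Kj j) (mj j) (qj j) := by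
    intro δ hδ
    have h3 : Tendsto (fun j : ℕ => 1 / ((j : ℝ) + 1)) atTop (𝓝 0) :=
      tendsto_one_div_add_atTop_nhds_zero_nat
    filter_upwards [(tendsto_order.1 h3).2 δ hδ] with j hj
    exact (hN j).mono hj.le
  have hC : CauchySeq fun j => d4 be (Kj j) (mj j) (qj j) := by
    rw [Metric.cauchySeq_iff]
    intro ε hε
    obtain ⟨δ, hδ, h⟩ := d4_near hb (half_pos hε)
    obtain ⟨N, hN'⟩ := eventually_atTop.1 (hev δ hδ)
    refine ⟨N, fun i hi j hj => ?_⟩
    rw [Real.dist_eq]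
    exact (h _ _ _ _ _ _ (hN' i hi) (hN' j hj)).trans_lt (half_lt_self hε)
  obtain ⟨κ, hκ⟩ := cauchySeq_tendsto_of_complete hC
  obtain ⟨c, hc, hk⟩ := Vale.Agent.P146.H826.kk_gen be
  refine ⟨κ, ?_, fun ε hε => ?_⟩
  · have h1 : κ ≤ -c := le_of_tendsto' hκ fun j => by
      have hc2 : 0 ≤ be ^ 2 := sq_nonneg _
      refine hk _ _ _ (hE j) ⟨by simp only [(hN j).q0, mul_zero], path_mul hc2 (hN j).path, ?_⟩
      have := mul_le_mul_of_nonneg_left (hN j).q1 hc2
      simpa using this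
    linarith
  · obtain ⟨δ, hδ, h⟩ := d4_near hb hε
    refine ⟨δ, hδ, fun K m q hm => ?_⟩
    have h1 : Tendsto (fun j => |d4 be K m q - d4 be (Kj j) (mj j) (qj j)|) atTop
        (𝓝 |d4 be K m q - κ|) := (hκ.const_sub _).abs
    refine le_of_tendsto h1 ?_
    filter_upwards [hev δ hδ] with j hj
    exact h _ _ _ _ _ _ hm hj

end Vale.Agent.N146.Kap
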