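import Vale.Agent.N146.KapB
import Vale.Agent.P146.H479.Move
import Vale.Agent.P146.H479.Val

/-!
# P146: the overlaps of a law with levels form a near minimiser (helper75)

* `fe_prod`: without bonds the free energy is `n` times the cascade.
* `near`: for every path `q`, `SKpar (m, q) + log 2 ≤ fe / n + β² / (4 n) + β² / 4 * dev`.
* `fe_up`: `fe / n ≤ log 2 + P0 + C y ^ 5 + (1/2) ∑ w²` if the bonds sit on levels with exponents
  at most `y`.
* `kap_sk`: the fourth derivative of the cascade of such a law is close to one negative number.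
-/

open MeasureTheory ProbabilityTheory Filter Topology Set

namespace Vale.Agent.N146.Kap

open Vale.Agent.P157.Par (Path Exponents cascade gstep cascade_succ_def spinPart)
open Vale.Agent.P157 Vale.Agent.P157.Lv Vale.Agent.P157.Lv.Sy
open Vale.Agent.P146 Vale.Agent.P146.Gap Vale.Agent.P146.Sh
open Vale.Agent.P146.H93 (Em skS linS_sk st)
open Vale.Agent.P146.H479

variable {n K : ℕ} {m b w q r : ℕ → ℝ} {be : ℝ}

/-! ### The product system -/

lemma adm_casc {m r : ℕ → ℝ} : ∀ (d : ℕ) {C : ℝ} {F : ℝ → ℝ}, Adm C F →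
    (∀ l, 1 ≤ l → l ≤ d → 0 < m l) → (∀ l, 1 ≤ l → l ≤ d → m l ≤ 1) →
    (∀ l < d, r l ≤ r (l + 1)) → ∃ C', Adm C' (cascade m r d F)
  | 0, C, _, h, _, _, _ => ⟨C, h⟩
  | d + 1, _, _, h, h0, h1, hr => by
    rw [cascade_succ_def]
    exact adm_casc d (h.step (h0 _ (by omega) le_rfl) (h1 _ (by omega) le_rfl)
      (sub_nonneg.2 (hr d (by omega)))) (fun l a c => h0 l a (by omega))
      (fun l a c => h1 l a (by omega)) (fun l hl => hr l (by omega))

lemma F0_prod (y : Es n → ℝ) (hy : ∀ p, y (Sum.inl p) = 0) :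
    F0 n y = n * Real.log 2 + ∑ i, lc (y (Sum.inr i)) := by
  unfold F0
  have e1 : ∀ x : Fin n → ℤˣ, ew y x = ∏ i, Real.exp (((x i : ℤ) : ℝ) * y (Sum.inr i)) := by
    intro x
    unfold ew
    rw [Fintype.sum_sum_type, ← Real.exp_sum]
    simp only [hy, mul_zero, Finset.sum_const_zero, zero_add]
    rfl
  simp only [e1]
  have e2 := Finset.prod_univ_sum (fun _ : Fin n => (Finset.univ : Finset ℤˣ))
    (fun i (s : ℤˣ) => Real.exp (((s : ℤ) : ℝ) * y (Sum.inr i)))
  rw [Fintype.piFinset_univ] at e2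
  rw [← e2]
  have e3 : ∀ t : ℝ, ∑ s : ℤˣ, Real.exp (((s : ℤ) : ℝ) * t) = 2 * Real.cosh t := by
    intro t
    rw [UnitsInt.univ, Finset.sum_pair (by decide), Real.cosh_eq]
    simp only [Units.val_one, Int.cast_one, one_mul, Units.val_neg, Int.cast_neg, neg_mul]
    ring
  simp only [e3]
  rw [Real.log_prod (fun i _ => by have := Real.cosh_pos (y (Sum.inr i)); positivity)]
  have e4 : ∀ t : ℝ, Real.log (2 * Real.cosh t) = Real.log 2 + lc t := fun t =>
    Real.log_mul (by norm_num) (Real.cosh_pos t).ne'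
  simp only [e4]
  rw [Finset.sum_add_distrib, Finset.sum_const, Finset.card_univ, Fintype.card_fin, nsmul_eq_mul]

lemma VW_prod {C c x s : ℝ} {G : ℝ → ℝ} (hG : Adm C G) (hx : 0 < x) {F : (Es n → ℝ) → ℝ}
    (hF : ∀ y : Es n → ℝ, (∀ p, y (Sum.inl p) = 0) → F y = c + ∑ i, G (y (Sum.inr i)))
    {v : Es n → ℝ} (hv : ∀ p, v (Sum.inl p) = 0) (hv' : ∀ i, v (Sum.inr i) = √s)
    (y : Es n → ℝ) (hy : ∀ p, y (Sum.inl p) = 0) :
    VW x v F y = c + ∑ i, gstep x s G (y (Sum.inr i)) := by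
  unfold VW
  obtain ⟨f, hf⟩ : ∃ f : Es n → ℝ → ℝ, f = Sum.elim (fun _ _ => 1)
      (fun i t => Real.exp (x * G (y (Sum.inr i) + √s * t))) := ⟨_, rfl⟩
  have e1 : ∀ z : Es n → ℝ, Real.exp (x * F (y + v * z)) =
      Real.exp (x * c) * ∏ e, f e (z e) := by
    intro z
    rw [hF (y + v * z) (fun p => by simp only [Pi.add_apply, Pi.mul_apply, hy, hv]; ring),
      Fintype.prod_sum_type, hf]
    simp only [Sum.elim_inl, Sum.elim_inr, Finset.prod_const_one, one_mul, Pi.add_apply,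
      Pi.mul_apply, hv']
    rw [← Real.exp_sum, ← Real.exp_add, mul_add, Finset.mul_sum]
  simp only [e1]
  rw [integral_const_mul, integral_fintype_prod_eq_prod f, Fintype.prod_sum_type, hf]
  simp only [Sum.elim_inl, Sum.elim_inr, integral_const, probReal_univ, smul_eq_mul, mul_one,
    Finset.prod_const_one, one_mul]
  have hp : ∀ i : Fin n, 0 < ∫ t, Real.exp (x * G (y (Sum.inr i) + √s * t))
      ∂(gaussianReal 0 1) := fun i => (minb_ec hG).sm.int_exp_pos x s _
  rw [Real.log_mul (Real.exp_pos _).ne' (Finset.prod_pos fun i _ => hp i).ne', Real.log_exp,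
    Real.log_prod (fun i _ => (hp i).ne'), mul_add, Finset.mul_sum]
  unfold gstep
  congr 1
  field_simp

/-- the amplitudes of the fields of a path -/
noncomputable def wr (r : ℕ → ℝ) (j : ℕ) : ℝ := √(r j - r (j - 1))

lemma VG_prod (hm : Em K m) (hr : Path K r) : ∀ d l, l + d ≤ K → ∀ y : Es n → ℝ,
    (∀ p, y (Sum.inl p) = 0) → VG m (va (fun _ => 0) (wr r)) (F0 n) l d y = n * Real.log 2 +
      ∑ i, cascade (fun j => m (l + j)) (fun j => r (l + j)) d lc (y (Sum.inr i))
  | 0, _, _, y, hy => by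
    rw [VG_zero]
    exact F0_prod y hy
  | d + 1, l, h, y, hy => by
    obtain ⟨C, hC⟩ := adm_casc (m := fun j => m (l + 1 + j)) (r := fun j => r (l + 1 + j)) d adm_lc
      (fun j _ h2 => em_pos hm (by omega) (by omega)) (fun j _ h2 => em_le1 hm (by omega))
      (fun j hj => hr.2 (l + 1 + j) (by omega))
    rw [VG_succ, VW_prod hC (em_pos hm (by omega) (by omega))
      (VG_prod hm hr d (l + 1) (by omega)) (s := r (l + 1) - r l) (fun p => rfl)
      (fun i => rfl) y hy, comp_shift]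
    congr 1
    refine Finset.sum_congr rfl fun i _ => ?_
    have e : cascade (fun j => m (l + (j + 1))) (fun j => r (l + (j + 1))) d lc =
        cascade (fun j => m (l + 1 + j)) (fun j => r (l + 1 + j)) d lc :=
      minb_congr (fun j _ _ => by congr 1; omega) (fun j _ => by congr 1; omega) lc
    rw [e]
    rfl

/-- **The free energy without bonds.** -/
theorem fe_prod (hm : Em K m) (hr : Path K r) :
    (skS n K m (fun _ => 0) (wr r)).fe = n * Real.log 2 + n * cascade m r K lc 0 := by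
  rw [fe_eq hm, VG_prod hm hr K 0 (by omega) 0 (fun _ => rfl)]
  simp only [Nat.zero_add, Pi.zero_apply, Finset.sum_const, Finset.card_univ, Fintype.card_fin,
    nsmul_eq_mul]

/-! ### The overlaps are a near minimiser -/

/-- the mean square deviation of the overlaps from the path `q` -/
noncomputable def dev (n K : ℕ) (m b w q : ℕ → ℝ) : ℝ :=
  ∑ l ∈ Finset.range (K + 1), (m (l + 1) - m l) *
    (skS n K m b w).pairEx l fun x x' => (Rov H325.sp x x' - q l) ^ 2

lemma cum_mono {f : ℕ → ℝ} (hf : ∀ j, 0 ≤ f j) {l K : ℕ} (hl : l ≤ K) : cum f l ≤ cum f K :=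
  Finset.sum_le_sum_of_subset_of_nonneg (Finset.range_mono hl) fun _ _ _ => hf _

lemma cum_wr (hr : Path K r) (h0 : r 0 = 0) {l : ℕ} (hl : l ≤ K) :
    cum (fun j => wr r j ^ 2) l = r l := by
  unfold cum
  rw [Finset.sum_congr rfl fun j hj => (show wr r (j + 1) ^ 2 = r (j + 1) - r j from
    Real.sq_sqrt (sub_nonneg.2 (hr.2 j (by have := Finset.mem_range.1 hj; omega)))),
    Finset.sum_range_sub, h0, sub_zero]

lemma abs_ov (hn : 0 < n) (x x' : Fin n → ℤˣ) : |Rov H325.sp x x'| ≤ 1 := by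
  have hn' : (0 : ℝ) < n := Nat.cast_pos.2 hn
  unfold Rov
  rw [abs_mul, abs_of_pos (by positivity : (0 : ℝ) < 1 / n)]
  have h1 : |∑ i, H325.sp x i * H325.sp x' i| ≤ n := by
    refine (Finset.abs_sum_le_sum_abs _ _).trans ?_
    simp only [abs_mul, H325.abs_sp, mul_one, Finset.sum_const, Finset.card_univ,
      Fintype.card_fin, nsmul_eq_mul, le_refl]
  rw [one_div, inv_mul_le_iff₀ hn', mul_one]
  exact h1

lemma Rq_le_one (hn : 0 < n) (hm : Em K m) {l : ℕ} (hl : l ≤ K) : Rq n K m b w l ≤ 1 := by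
  have hR := (linS_sk (n := n) hm b w).reg
  rw [Rq_pair hn hm hl, ← hR.pairEx_const (l := l) hl 1]
  exact hR.pairEx_mono hl fun x x' => (le_abs_self _).trans (abs_ov hn x x')

lemma pair_dev (hn : 0 < n) (hm : Em K m) {l : ℕ} (hl : l ≤ K) (c : ℝ) :
    ((skS n K m b w).pairEx l fun x x' => (Rov H325.sp x x' - c) ^ 2) =
      Tq n K m b w l - 2 * c * Rq n K m b w l + c ^ 2 := by
  have hR := (linS_sk (n := n) hm b w).reg
  have h2 : (fun x x' : Fin n → ℤˣ => (Rov H325.sp x x' - c) ^ 2) =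
      fun x x' => (Rov H325.sp x x' ^ 2 + (-2 * c) * Rov H325.sp x x') + c ^ 2 := by
    funext x x'
    ring
  rw [h2, hR.pairEx_add hl (fun x x' => Rov H325.sp x x' ^ 2 + (-2 * c) * Rov H325.sp x x')
    (fun _ _ => c ^ 2), hR.pairEx_add hl (fun x x' => Rov H325.sp x x' ^ 2)
    (fun x x' => (-2 * c) * Rov H325.sp x x'), hR.pairEx_const_mul, hR.pairEx_const hl,
    Rq_pair hn hm hl]
  have h4 : Tq n K m b w l = (skS n K m b w).pairEx l (fun x x' => Rov H325.sp x x' ^ 2) := rfl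
  rw [h4]
  ring

lemma sum_Ico_one (f : ℕ → ℝ) (K : ℕ) :
    ∑ l ∈ Finset.range (K + 1), f l = f 0 + ∑ l ∈ Finset.Ico 1 (K + 1), f l := by
  rw [Finset.range_eq_Ico, Finset.sum_eq_sum_Ico_succ_bot (by omega : 0 < K + 1)]

/-- **The overlaps are a near minimiser.** -/
theorem near (hn : 0 < n) (hm : Em K m) (hb : Na K b) (hw : Na K w)
    (hbe : ∑ j ∈ Finset.range K, b (j + 1) ^ 2 = be ^ 2 / n) (hq : Path K q) (h0 : q 0 = 0) :
    SKpar be K m q + Real.log 2 ≤
      (skS n K m b w).fe / n + be ^ 2 / (4 * n) + be ^ 2 / 4 * dev n K m b w q := by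
  have hn' : (0 : ℝ) < n := Nat.cast_pos.2 hn
  have hc : 0 ≤ be ^ 2 := sq_nonneg _
  have hr := path_mul hc hq
  have hr0 : (fun l => be ^ 2 * q l) 0 = 0 := by simp only [h0, mul_zero]
  have h1 := fe_super (n := n) hm hb hw (b' := fun _ => 0) (w' := wr fun l => be ^ 2 * q l)
    (fun _ _ _ => le_rfl) (fun _ _ _ => Real.sqrt_nonneg _)
  rw [fe_prod hm hr, gv_abel hb hw] at h1
  have eb : ∀ l, dc b (fun _ => 0) l = -cum (fun j => b j ^ 2) l := by
    intro l
    unfold dc cum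
    rw [← Finset.sum_neg_distrib]
    exact Finset.sum_congr rfl fun j _ => by ring
  have ew' : ∀ l ≤ K, dc w (wr fun l => be ^ 2 * q l) l =
      be ^ 2 * q l - cum (fun j => w j ^ 2) l := by
    intro l hl
    rw [← cum_wr hr hr0 hl]
    unfold dc cum
    rw [← Finset.sum_sub_distrib]
  have eK : cum (fun j => b j ^ 2) K = be ^ 2 / n := hbe
  have hW : 0 ≤ cum (fun j => w j ^ 2) K := Finset.sum_nonneg fun _ _ => sq_nonneg _
  have hterm : ∀ l ∈ Finset.Ico 1 (K + 1),
      -((m (l + 1) - m l) * (dc b (fun _ => 0) l * QB n K m b w l +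
        dc w (wr fun l => be ^ 2 * q l) l * QW n K m b w l)) ≤
      n * be ^ 2 / 2 * ((m (l + 1) - m l) *
        (skS n K m b w).pairEx l (fun x x' => (Rov H325.sp x x' - q l) ^ 2)) -
      n * be ^ 2 / 2 * ((m (l + 1) - m l) * q l ^ 2) +
        n * cum (fun j => w j ^ 2) K * (m (l + 1) - m l) := by
    intro l hl
    have hlK : l ≤ K := by have := Finset.mem_Ico.1 hl; omega
    have p0 : 0 ≤ m (l + 1) - m l := sub_nonneg.2 (hm.mono l hlK)
    have a1 : cum (fun j => b j ^ 2) l ≤ be ^ 2 / n := by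
      rw [← eK]; exact cum_mono (fun j => sq_nonneg _) hlK
    have a2 : cum (fun j => w j ^ 2) l ≤ cum (fun j => w j ^ 2) K :=
      cum_mono (fun j => sq_nonneg _) hlK
    have a3 : 0 ≤ cum (fun j => w j ^ 2) l := Finset.sum_nonneg fun _ _ => sq_nonneg _
    have a4 := QB_nonneg (n := n) (b := b) (w := w) hm hlK
    have a5 := Rq_le_one (b := b) (w := w) hn hm hlK
    have a6 := mul_le_mul_of_nonneg_right a1 a4
    have a7 : be ^ 2 / n * QB n K m b w l ≤ n * be ^ 2 / 2 * Tq n K m b w l := by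
      rw [QB_eq hn hm hlK]
      have e : be ^ 2 / n * (((n : ℝ) ^ 2 * Tq n K m b w l - n) / 2) =
          n * be ^ 2 / 2 * Tq n K m b w l - be ^ 2 / 2 := by
        field_simp
      rw [e]
      linarith
    have a8 : cum (fun j => w j ^ 2) l * (n * Rq n K m b w l) ≤
        n * cum (fun j => w j ^ 2) K := by
      have b1 := mul_le_mul_of_nonneg_left a5 (mul_nonneg a3 hn'.le)
      have b2 := mul_le_mul_of_nonneg_left a2 hn'.le
      linarith
    rw [eb, ew' l hlK, QW_eq hn, pair_dev hn hm hlK]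
    have a9 : -(-cum (fun j => b j ^ 2) l * QB n K m b w l +
        (be ^ 2 * q l - cum (fun j => w j ^ 2) l) * (n * Rq n K m b w l)) ≤
        n * be ^ 2 / 2 * (Tq n K m b w l - 2 * q l * Rq n K m b w l + q l ^ 2) -
          n * be ^ 2 / 2 * q l ^ 2 + n * cum (fun j => w j ^ 2) K := by
      linarith
    have a10 := mul_le_mul_of_nonneg_left a9 p0
    linarith
  have h2 := Finset.sum_le_sum hterm
  rw [Finset.sum_neg_distrib, Finset.sum_add_distrib, Finset.sum_sub_distrib, ← Finset.mul_sum,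
    ← Finset.mul_sum, ← Finset.mul_sum] at h2
  have h3 : ∑ l ∈ Finset.Ico 1 (K + 1), (m (l + 1) - m l) ≤ 1 := by
    have a1 := wt_one hm
    rw [sum_Ico_one] at a1
    have a2 := hm.mono 0 (Nat.zero_le _)
    linarith
  have h4 : ∑ l ∈ Finset.Ico 1 (K + 1), (m (l + 1) - m l) *
      (skS n K m b w).pairEx l (fun x x' => (Rov H325.sp x x' - q l) ^ 2) ≤ dev n K m b w q := by
    unfold dev
    rw [sum_Ico_one]
    have a1 := (linS_sk (n := n) hm b w).reg.pairEx_nonneg (l := 0) (Nat.zero_le _)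
      (ψ := fun x x' => (Rov H325.sp x x' - q 0) ^ 2) fun _ _ => sq_nonneg _
    have a2 := mul_nonneg (sub_nonneg.2 (hm.mono 0 (Nat.zero_le _))) a1
    linarith
  have h5 : ∑ l ∈ Finset.range (K + 1), (m (l + 1) - m l) * q l ^ 2 =
      ∑ l ∈ Finset.Ico 1 (K + 1), (m (l + 1) - m l) * q l ^ 2 := by
    rw [sum_Ico_one, h0]
    ring
  have h6 := mul_le_mul_of_nonneg_left h3 (mul_nonneg hn'.le hW)
  have h7 := mul_le_mul_of_nonneg_left h4 (by positivity : 0 ≤ (n : ℝ) * be ^ 2 / 2)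
  rw [eb, ew' K le_rfl, eK, card_pair] at h1
  unfold SKpar
  rw [minb_spin hr0, h5]
  have e : ((n : ℝ) ^ 2 - n) / 2 * -(be ^ 2 / n) = -(n * be ^ 2 / 2) + be ^ 2 / 2 := by
    field_simp
    ring
  rw [e] at h1
  refine le_of_mul_le_mul_left ?_ hn'
  have e2 : (n : ℝ) * ((skS n K m b w).fe / n + be ^ 2 / (4 * n) +
      be ^ 2 / 4 * dev n K m b w q) =
      (skS n K m b w).fe + be ^ 2 / 4 + n * (be ^ 2 / 4 * dev n K m b w q) := by
    field_simp
  rw [e2]
  linarith

/-! ### The upper bound of the free energy -/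

section chain

variable {κ : Type} [Fintype κ] {F : (κ → ℝ) → ℝ} {x x' : ℝ} {v : ℕ → κ → ℝ}

lemma VW_mono_exp (h : Lip F) (hx : 0 < x) (hxx : x ≤ x') (v y : κ → ℝ) :
    VW x v F y ≤ VW x' v F y := by
  have hx' : 0 < x' := hx.trans_le hxx
  obtain ⟨B, hB⟩ : ∃ B, B = VW x' v F y := ⟨_, rfl⟩
  obtain ⟨θ, hθ⟩ : ∃ θ, θ = x / x' := ⟨_, rfl⟩
  have hθ0 : 0 ≤ θ := by rw [hθ]; positivity
  have hθ1 : θ ≤ 1 := by rw [hθ]; exact (div_le_one hx').2 hxx
  have hθm : θ * x' = x := by rw [hθ]; field_simp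
  have e2 : ∫ z, Real.exp (x' * F (y + v * z)) ∂(gI κ) = Real.exp (x' * B) := by
    rw [hB, exp_VW h hx']
  have h1 : ∀ z, Real.exp (x * F (y + v * z)) ≤ Real.exp (x * B) * ((1 - θ) + θ *
      (Real.exp (-(x' * B)) * Real.exp (x' * F (y + v * z)))) := by
    intro z
    have h2 := exp_mul_le_tangent hθ0 hθ1 (x' * (F (y + v * z) - B))
    have h3 : Real.exp (-(x' * B)) * Real.exp (x' * F (y + v * z)) =
        Real.exp (x' * (F (y + v * z) - B)) := by
      rw [← Real.exp_add]; congr 1; ring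
    rw [h3]
    refine le_trans ?_ (mul_le_mul_of_nonneg_left h2 (Real.exp_pos _).le)
    rw [← Real.exp_add, ← mul_assoc, hθm]
    refine Real.exp_le_exp.2 (le_of_eq ?_)
    ring
  have g1 := (egv h y v x).integrable
  have g2 := (egv h y v x').integrable
  have h4 : ∫ z, Real.exp (x * F (y + v * z)) ∂(gI κ) ≤ Real.exp (x * B) := by
    calc ∫ z, Real.exp (x * F (y + v * z)) ∂(gI κ)
        ≤ ∫ z, Real.exp (x * B) * ((1 - θ) + θ *
          (Real.exp (-(x' * B)) * Real.exp (x' * F (y + v * z)))) ∂(gI κ) :=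
          integral_mono g1 (((integrable_const (1 - θ)).add
            ((g2.const_mul _).const_mul _)).const_mul _) h1
      _ = Real.exp (x * B) * ((1 - θ) + θ * (Real.exp (-(x' * B)) * Real.exp (x' * B))) := by
          rw [integral_const_mul, integral_add (integrable_const _)
            ((g2.const_mul _).const_mul _), integral_const_mul, integral_const_mul, e2]
          simp
      _ = Real.exp (x * B) := by
          rw [← Real.exp_add]
          simp
  rw [← exp_VW h hx] at h4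
  rw [← hB]
  exact le_of_mul_le_mul_left (Real.exp_le_exp.1 h4) hx

/-- a chain whose nontrivial layers have exponents at most `x` is below one layer -/
lemma VG_le_one (hF : Lip F) (hx : 0 < x) : ∀ d l, Pm m l d →
    (∀ j, l < j → j ≤ l + d → m j ≤ x ∨ v j = 0) → ∀ y,
    VG m v F l d y ≤ VW x (fun e => √(∑ j ∈ Finset.range d, v (l + 1 + j) e ^ 2)) F y
  | 0, l, _, _, y => by
    have e : (fun e : κ => √(∑ j ∈ Finset.range 0, v (l + 1 + j) e ^ 2)) = 0 := by
      funext e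
      simp
    rw [e, VG_zero, VW_zero hx]
  | d + 1, l, hp, h, y => by
    have hL := Lip.VG (v := v) hF _ _ hp.tail
    have h1 : VG m v F l (d + 1) y ≤ VW x (v (l + 1)) (VG m v F (l + 1) d) y := by
      rw [VG_succ]
      rcases h (l + 1) (by omega) (by omega) with h2 | h2
      · exact VW_mono_exp hL hp.head h2 _ _
      · rw [h2, VW_zero hx, VW_zero hp.head]
    have h2 := VW_le hL (Lip.VW hF hx
      (fun e => √(∑ j ∈ Finset.range d, v (l + 1 + 1 + j) e ^ 2))) hx (r := 0) (y := y) (y' := y)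
      (fun z => by
        rw [add_zero]
        exact VG_le_one hF hx d (l + 1) hp.tail (fun j h1 h2 => h j (by omega) (by omega)) _)
      (v (l + 1))
    rw [add_zero, VW_VW hF hx (c := fun e => √(∑ j ∈ Finset.range (d + 1), v (l + 1 + j) e ^ 2))
      (fun i => by
        rw [Real.sq_sqrt (Finset.sum_nonneg fun _ _ => sq_nonneg _),
          Real.sq_sqrt (Finset.sum_nonneg fun _ _ => sq_nonneg _), Finset.sum_range_succ',
          add_comm]
        congr 1
        refine Finset.sum_congr rfl fun j _ => ?_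
        rw [show l + 1 + 1 + j = l + 1 + (j + 1) by omega])] at h2
    exact h1.trans h2

end chain

/-- removal of the fields -/
theorem fe_fld (hm : Em K m) (hb : Na K b) (hw : Na K w) :
    (skS n K m b w).fe ≤ (skS n K m b (fun _ => 0)).fe +
      n / 2 * ∑ j ∈ Finset.range K, w (j + 1) ^ 2 := by
  have h1 := fe_super (n := n) hm hb (w := fun _ => 0) (fun _ _ _ => le_rfl) hb hw
  refine h1.trans (add_le_add le_rfl ?_)
  unfold gv
  rw [← Fin.sum_univ_eq_sum_range (fun j => w (j + 1) ^ 2) K, Finset.mul_sum, Finset.mul_sum]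
  refine Finset.sum_le_sum fun j _ => ?_
  have h2 : H186.cSK n K m b (fun _ => 0) (j + 1) ≤ n := by
    rw [cSK_eq]
    refine sub_le_self _ (Finset.sum_nonneg fun l hl => ?_)
    have hlK : l ≤ K := by have := Finset.mem_Ico.1 hl; omega
    exact mul_nonneg (sub_nonneg.2 (hm.mono l hlK)) (QW_nonneg hm hlK)
  have h3 := mul_le_mul_of_nonneg_left h2 (sq_nonneg (w (j + 1)))
  simp only [sub_self, zero_mul, zero_add]
  linarith

/-- **The upper bound of the free energy.** -/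
theorem fe_up (hbe : 1 ≤ be) : ∃ C : ℝ, 1 ≤ C ∧ ∀ (n K Q : ℕ) (m b w : ℕ → ℝ) (y : ℝ), 0 < n →
    Em K m → Na K b → Na K w → ∑ j ∈ Finset.range K, b (j + 1) ^ 2 = be ^ 2 / n →
    (∀ j, Q < j → j ≤ K → b j = 0) → Q ≤ K → m Q ≤ y → 0 < y → y ≤ 1 →
    (skS n K m b w).fe / n ≤ Real.log 2 + P0 be + C * y ^ 5 +
      1 / 2 * ∑ j ∈ Finset.range K, w (j + 1) ^ 2 := by
  obtain ⟨C, hC, hmom, -⟩ := Sx.moment hbe
  refine ⟨C, hC, fun n K Q m b w y hn hm hb hw hs hQ hQK hy hy0 hy1 => ?_⟩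
  have hn' : (0 : ℝ) < n := Nat.cast_pos.2 hn
  have h1 := fe_fld (n := n) hm hb hw
  have h2 := VG_le_one (m := m) (v := va b (fun _ => 0)) (F0_lip n) hy0 K 0 (Em.pm hm)
    (fun j h3 h4 => by
      by_cases hj : j ≤ Q
      · exact Or.inl ((em_le hm hj (by omega)).trans hy)
      · refine Or.inr ?_
        funext e
        rcases e with p | i
        · exact hQ j (by omega) (by omega)
        · rfl) 0
  rw [← fe_eq hm] at h2
  have h3 := VW_jb (n := n) (k := be / √n) (x := y) (c := 1) (G := F0 n) (G' := U.Fsk n be) F0_jb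
    (U.AP.lip_Fsk n be).measurable
    (v := fun e => √(∑ j ∈ Finset.range K, va b (fun _ => 0) (0 + 1 + j) e ^ 2))
    (fun p => by
      have e : ∑ j ∈ Finset.range K, va b (fun _ => 0) (0 + 1 + j) (Sum.inl p : Es n) ^ 2 =
          be ^ 2 / n := by
        rw [← hs]
        refine Finset.sum_congr rfl fun j _ => ?_
        rw [va_inl, show 0 + 1 + j = j + 1 by omega]
      show √(∑ j ∈ Finset.range K, va b (fun _ => 0) (0 + 1 + j) (Sum.inl p : Es n) ^ 2) = _
      rw [e, Real.sqrt_div (sq_nonneg _), Real.sqrt_sq (by linarith), mul_one])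
    (fun i => by
      show √(∑ j ∈ Finset.range K, va b (fun _ => 0) (0 + 1 + j) (Sum.inr i : Es n) ^ 2) = 0
      simp only [va_inr]
      simp) 0
  rw [smul_zero, jb_zero] at h3
  rw [h3] at h2
  have h4 := hmom n hn y hy0 hy1
  have h5 : H425.W y 1 (U.Fsk n be) 0 ≤ n * (Real.log 2 + P0 be) + C * n * y ^ 5 := by
    unfold H425.W
    simp only [zero_add, one_smul, U.AP.Fsk_eq]
    rw [one_div, inv_mul_le_iff₀ hy0]
    refine h4.trans (le_of_eq ?_)
    rw [shfin_pv]
    ring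
  rw [div_le_iff₀ hn']
  linarith

/-! ### The universal constant -/

/-- **The fourth derivative of the cascade of a law is close to one negative number.** -/
theorem kap_sk (hbe : 1 < be) : ∃ κ : ℝ, κ < 0 ∧ ∀ ε > 0, ∃ δ > 0,
    ∀ (n K Q : ℕ) (m b w q : ℕ → ℝ), Em K m → Na K b → Na K w →
      ∑ j ∈ Finset.range K, b (j + 1) ^ 2 = be ^ 2 / n → (∀ j, Q < j → j ≤ K → b j = 0) →
      Q ≤ K → m Q ≤ δ → ∑ j ∈ Finset.range K, w (j + 1) ^ 2 ≤ δ → 1 ≤ δ * n → Path K q →
      q 0 = 0 → q K ≤ 1 → dev n K m b w q ≤ δ → |d4 be K m q - κ| ≤ ε := by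
  obtain ⟨κ, hκ, h⟩ := kap_univ hbe
  obtain ⟨C, hC, hup⟩ := fe_up hbe.le
  refine ⟨κ, hκ, fun ε hε => ?_⟩
  obtain ⟨d, hd, h1⟩ := h ε hε
  obtain ⟨δ, hδ⟩ : ∃ δ : ℝ, δ = min 1 (d / (C + 1 + be ^ 2)) := ⟨_, rfl⟩
  have hδ0 : 0 < δ := by rw [hδ]; positivity
  have hδ1 : δ ≤ 1 := by rw [hδ]; exact min_le_left _ _
  have hδ2 : δ * (C + 1 + be ^ 2) ≤ d := by
    have : δ ≤ d / (C + 1 + be ^ 2) := by rw [hδ]; exact min_le_right _ _
    rwa [le_div_iff₀ (by positivity)] at this
  refine ⟨δ, hδ0, fun n K Q m b w q hm hb hw hs hQ hQK hmQ hW hn hq h0 hq1 hdev => ?_⟩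
  have hn0 : 0 < n := by
    rcases Nat.eq_zero_or_pos n with h2 | h2
    · rw [h2] at hn
      norm_num at hn
    · exact h2
  have hn' : (0 : ℝ) < n := Nat.cast_pos.2 hn0
  refine h1 K m q ⟨hm, hq, h0, hq1, ?_⟩
  have a1 := near hn0 hm hb hw hs hq h0
  have a2 := hup n K Q m b w δ hn0 hm hb hw hs hQ hQK hmQ hδ0 hδ1
  have a3 : δ ^ 5 ≤ δ := by
    have := pow_le_pow_of_le_one hδ0.le hδ1 (by norm_num : 1 ≤ 5)
    rwa [pow_one] at this
  have a4 := mul_le_mul_of_nonneg_left a3 (by linarith : 0 ≤ C)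
  have a5 : be ^ 2 / (4 * n) ≤ be ^ 2 / 4 * δ := by
    rw [div_le_iff₀ (by positivity)]
    have := mul_le_mul_of_nonneg_left hn (sq_nonneg be)
    linarith
  have a6 := mul_le_mul_of_nonneg_left hdev (by positivity : 0 ≤ be ^ 2 / 4)
  have a7 : 0 ≤ be ^ 2 * δ := by positivity
  linarith

/-- the deviation: the levels below `Q` cost at most `4 m Q` -/
theorem dev_le (hn : 0 < n) (hm : Em K m) {Q : ℕ} (hQ : Q ≤ K + 1)
    (hq : ∀ l < Q, |q l| ≤ 1) :
    dev n K m b w q ≤ 4 * m Q + ∑ l ∈ Finset.Ico Q (K + 1), (m (l + 1) - m l) *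
      (skS n K m b w).pairEx l fun x x' => (Rov H325.sp x x' - q l) ^ 2 := by
  have hR := (linS_sk (n := n) hm b w).reg
  unfold dev
  rw [← Finset.sum_range_add_sum_Ico _ hQ]
  refine add_le_add ?_ le_rfl
  have e : 4 * m Q = ∑ l ∈ Finset.range Q, (m (l + 1) - m l) * 4 := by
    rw [← Finset.sum_mul, Finset.sum_range_sub, hm.m0]
    ring
  rw [e]
  refine Finset.sum_le_sum fun l hl => ?_
  have hlQ := Finset.mem_range.1 hl
  have hlK : l ≤ K := by omega
  refine mul_le_mul_of_nonneg_left ?_ (sub_nonneg.2 (hm.mono l hlK))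
  rw [← hR.pairEx_const (l := l) hlK 4]
  refine hR.pairEx_mono hlK fun x x' => ?_
  have a1 := abs_le.1 (abs_ov hn x x')
  have a2 := abs_le.1 (hq l hlQ)
  nlinarith [a1.1, a1.2, a2.1, a2.2]

end Vale.Agent.N146.Kap
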