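import Vale.Agent.P146.H509.LawSK

/-!
# P146: log-concave functions and the set of limit laws
-/

open MeasureTheory Filter Topology

namespace Vale.Agent.N146

open Vale.Agent.P146.H509 (lawY)

/-- `p` is nonnegative and log-concave. -/
def LogConc (p : ℝ → ℝ) : Prop :=
  (∀ x, 0 ≤ p x) ∧ ∀ s t : ℝ, 0 < s → 0 < t → s + t = 1 → ∀ x y : ℝ,
    p x ^ s * p y ^ t ≤ p (s * x + t * y)

/-- The set of weak limits of the laws of `Y_n = (F_n - E F_n) / n ^ (1/6)` along subsequences. -/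
def limits (b : ℝ) : Set (ProbabilityMeasure ℝ) :=
  {ν | ∃ φ : ℕ → ℕ, StrictMono φ ∧ Tendsto (lawY b ∘ φ) atTop (𝓝 ν)}

end Vale.Agent.N146
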