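import Vale.Agent.N146.Llt2

/-!
# P146: total variation convergence and the local limit theorem, abstract form
-/

open MeasureTheory Filter Topology Set

namespace Vale.Agent.N146.Llt

variable {m : ℕ → ProbabilityMeasure ℝ} {ν : ProbabilityMeasure ℝ} {l M : ℕ → ℝ} {p : ℝ → ℝ}

lemma real_dens (hν : (ν : Measure ℝ) = volume.withDensity fun x => ENNReal.ofReal (p x))
    (hp0 : ∀ x, 0 ≤ p x) (hp : Integrable p) {A : Set ℝ} (hA : MeasurableSet A) :
    (ν : Measure ℝ).real A = ∫ x in A, p x := by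
  rw [measureReal_def, hν, withDensity_apply _ hA, ← ofReal_integral_eq_lintegral_ofReal
    hp.integrableOn (Eventually.of_forall hp0), ENNReal.toReal_ofReal (integral_nonneg hp0)]

/-- the laws are log-concave after smoothing at the scale `1 / l j`, with a small supremum -/
structure Sm (m : ℕ → ProbabilityMeasure ℝ) (l M : ℕ → ℝ) : Prop where
  pos : ∀ j, 0 < l j
  lc : ∀ j, LC (rr (m j : Measure ℝ) (l j))
  le : ∀ j y, rr (m j : Measure ℝ) (l j) y ≤ M j
  lim : Tendsto M atTop (𝓝 0)

lemma Sm.qc (h : Sm m l M) (j : ℕ) : QC (rr (m j : Measure ℝ) (l j)) :=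
  (h.lc j).qc (rr_nonneg _ _)

lemma Sm.conv (h : Sm m l M) (hm : Tendsto m atTop (𝓝 ν))
    (hν : (ν : Measure ℝ) = volume.withDensity fun x => ENNReal.ofReal (p x))
    (hp0 : ∀ x, 0 ≤ p x) (hp : Integrable p) :
    Conv (fun j y => l j * rr (m j : Measure ℝ) (l j) y) p := by
  refine ⟨fun j a b => (ii_rr (h.pos j) a b).const_mul _, fun a b => hp.intervalIntegrable,
    fun a b hab => ?_⟩
  have hfr : (ν : Measure ℝ) (frontier (Ioc a b)) = 0 := by
    rw [hν, frontier_Ioc hab]
    refine withDensity_absolutelyContinuous _ _ ?_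
    exact (toFinite _).measure_zero _
  have h1 := ProbabilityMeasure.tendsto_measure_of_null_frontier_of_tendsto' hm hfr
  have h2 : Tendsto (fun j => (m j : Measure ℝ).real (Ioc a b)) atTop
      (𝓝 ((ν : Measure ℝ).real (Ioc a b))) :=
    (ENNReal.tendsto_toReal (measure_ne_top _ _)).comp h1
  rw [real_dens hν hp0 hp measurableSet_Ioc, ← intervalIntegral.integral_of_le hab.le] at h2
  have h3 : Tendsto (fun j => (m j : Measure ℝ).real (Ioc a b) -
      ∫ y in a..b, l j * rr (m j : Measure ℝ) (l j) y) atTop (𝓝 0) := by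
    refine squeeze_zero_norm (fun j => ?_) h.lim
    rw [intervalIntegral.integral_of_le hab.le]
    exact tv (h.pos j) (h.qc j) (h.le j) measurableSet_Ioc
  simpa using h2.sub h3

/-- **Convergence in total variation.** -/
theorem Sm.tv_lim (h : Sm m l M) (hm : Tendsto m atTop (𝓝 ν))
    (hν : (ν : Measure ℝ) = volume.withDensity fun x => ENNReal.ofReal (p x))
    (hp0 : ∀ x, 0 ≤ p x) (hp : Integrable p) {ε : ℝ} (hε : 0 < ε) :
    ∀ᶠ j in atTop, ∀ A : Set ℝ, MeasurableSet A →
      |(m j : Measure ℝ).real A - (ν : Measure ℝ).real A| ≤ ε := by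
  have h0 : ∀ j x, 0 ≤ l j * rr (m j : Measure ℝ) (l j) x := fun j x =>
    mul_nonneg (h.pos j).le (rr_nonneg _ _ _)
  have hi : ∀ j, Integrable fun y => l j * rr (m j : Measure ℝ) (l j) y := fun j =>
    (int_q (h.pos j)).1
  have h1 := (h.conv hm hν hp0 hp).l1_lower (fun j => (h.qc j).const_mul (h.pos j)) hp hp0 h0 hi
  have h2 := h1.add h.lim
  rw [add_zero] at h2
  filter_upwards [h2.eventually_le_const hε] with j hj
  have one : ∀ A : Set ℝ, MeasurableSet A →
      (ν : Measure ℝ).real A - (m j : Measure ℝ).real A ≤ ε := by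
    intro A hA
    have a1 := (abs_le.1 (tv (h.pos j) (h.qc j) (h.le j) hA)).1
    have ip : Integrable fun x => max (p x - l j * rr (m j : Measure ℝ) (l j) x) 0 :=
      (hp.sub (hi j)).pos_part
    have a2 : ∫ x in A, (p x - l j * rr (m j : Measure ℝ) (l j) x) ≤
        ∫ x in A, max (p x - l j * rr (m j : Measure ℝ) (l j) x) 0 :=
      integral_mono (hp.sub (hi j)).integrableOn ip.integrableOn fun x => le_max_left _ _
    have a3 : ∫ x in A, max (p x - l j * rr (m j : Measure ℝ) (l j) x) 0 ≤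
        ∫ x, max (p x - l j * rr (m j : Measure ℝ) (l j) x) 0 :=
      setIntegral_le_integral ip (Eventually.of_forall fun x => le_max_right _ _)
    rw [integral_sub hp.integrableOn (hi j).integrableOn] at a2
    rw [real_dens hν hp0 hp hA]
    linarith
  intro A hA
  have b1 := one A hA
  have b2 := one Aᶜ hA.compl
  rw [probReal_compl_eq_one_sub hA, probReal_compl_eq_one_sub hA] at b2
  rw [abs_le]
  constructor <;> linarith

/-- **The local limit theorem, uniform form**: near a point where `p` is continuous and positive,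
all windows of all small lengths. -/
theorem Sm.llt_unif (h : Sm m l M) (hl : Tendsto l atTop atTop) (hm : Tendsto m atTop (𝓝 ν))
    (hν : (ν : Measure ℝ) = volume.withDensity fun x => ENNReal.ofReal (p x))
    (hp0 : ∀ x, 0 ≤ p x) (hp : Integrable p) {x : ℝ} (hc : ContinuousAt p x) (hx : 0 < p x)
    {ε : ℝ} (hε : 0 < ε) : ∃ δ : ℝ, 0 < δ ∧ ∀ᶠ j in atTop, ∀ a b : ℝ, x - δ ≤ a → a < b →
      b ≤ x + δ → |(m j : Measure ℝ).real (Ioc a b) / (b - a) - p x| ≤ ε := by
  have h0 : ∀ j x, 0 ≤ l j * rr (m j : Measure ℝ) (l j) x := fun j x =>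
    mul_nonneg (h.pos j).le (rr_nonneg _ _ _)
  have hq : ∀ j, LC fun y => l j * rr (m j : Measure ℝ) (l j) y := fun j =>
    (h.lc j).const_mul (rr_nonneg _ _) (h.pos j)
  have hcv := h.conv hm hν hp0 hp
  obtain ⟨δ, hδ, h1⟩ := hcv.local hq h0 hc hx (ε := min (ε / 2) (p x / 2))
    (lt_min (by linarith) (by linarith))
  refine ⟨δ / 2, by positivity, ?_⟩
  filter_upwards [h1, hl.eventually_ge_atTop (6 * p x / (δ / 2) / (ε / 2))] with j k1 k2 a b
    ha hab hb
  have hlj := h.pos j
  have hba : 0 < b - a := by linarith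
  have n1 : ∀ y ∈ Icc (x - δ) (x + δ), p x - ε / 2 ≤ l j * rr (m j : Measure ℝ) (l j) y ∧
      l j * rr (m j : Measure ℝ) (l j) y ≤ p x + ε / 2 := fun y hy => by
    have := abs_le.1 ((k1 y hy).trans (min_le_left _ _))
    constructor <;> linarith [this.1, this.2]
  have n2 : ∀ y ∈ Icc (x - 2 * (δ / 2)) (x + 2 * (δ / 2)),
      p x / 2 ≤ l j * rr (m j : Measure ℝ) (l j) y ∧
      l j * rr (m j : Measure ℝ) (l j) y ≤ 2 * p x := fun y hy => by
    have := abs_le.1 ((k1 y ⟨by linarith [hy.1], by linarith [hy.2]⟩).trans (min_le_right _ _))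
    constructor <;> linarith [this.1, this.2]
  have lip := (hq j).lip (by positivity : 0 < δ / 2) hx n2 ha hab hb
  have i1 := intervalIntegral.integral_mono_on hab.le (intervalIntegrable_const (c := p x - ε / 2))
    (hcv.iq j a b) fun y hy => (n1 y ⟨by linarith [hy.1], by linarith [hy.2]⟩).1
  have i2 := intervalIntegral.integral_mono_on hab.le (hcv.iq j a b)
    (intervalIntegrable_const (c := p x + ε / 2))
    fun y hy => (n1 y ⟨by linarith [hy.1], by linarith [hy.2]⟩).2
  rw [intervalIntegral.integral_const, smul_eq_mul] at i1 i2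
  have id := ioc_eq (μ := (m j : Measure ℝ)) hlj hab.le
  have d1 : |rr (m j : Measure ℝ) (l j) b - rr (m j : Measure ℝ) (l j) a| ≤ ε / 2 * (b - a) := by
    rw [← mul_sub, abs_mul, abs_of_pos hlj] at lip
    rw [div_le_iff₀ (by positivity : 0 < ε / 2)] at k2
    have k3 := mul_le_mul_of_nonneg_right k2 hba.le
    have k4 : l j * |rr (m j : Measure ℝ) (l j) b - rr (m j : Measure ℝ) (l j) a| ≤
        l j * (ε / 2 * (b - a)) := by linarith
    exact le_of_mul_le_mul_left k4 hlj
  have d2 := abs_le.1 d1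
  rw [abs_le, le_sub_iff_add_le, sub_le_iff_le_add, le_div_iff₀ hba, div_le_iff₀ hba]
  constructor <;> nlinarith [d2.1, d2.2]

/-- **The local limit theorem**, along sequences of windows. -/
theorem Sm.llt (h : Sm m l M) (hl : Tendsto l atTop atTop) (hm : Tendsto m atTop (𝓝 ν))
    (hν : (ν : Measure ℝ) = volume.withDensity fun x => ENNReal.ofReal (p x))
    (hp0 : ∀ x, 0 ≤ p x) (hp : Integrable p) {x : ℝ} (hc : ContinuousAt p x) (hx : 0 < p x)
    {a η : ℕ → ℝ} (ha : Tendsto a atTop (𝓝 x)) (hη : Tendsto η atTop (𝓝 0))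
    (hη0 : ∀ᶠ j in atTop, 0 < η j) :
    Tendsto (fun j => (m j : Measure ℝ).real (Ioc (a j) (a j + η j)) / η j) atTop (𝓝 (p x)) := by
  rw [Metric.tendsto_nhds]
  intro ε hε
  obtain ⟨δ, hδ, h1⟩ := h.llt_unif hl hm hν hp0 hp hc hx (half_pos hε)
  have hb := ha.add hη
  rw [add_zero] at hb
  filter_upwards [h1, hη0, ha.eventually_const_le (show x - δ < x by linarith),
    hb.eventually_le_const (show x < x + δ by linarith)] with j k1 k2 k3 k4
  have k5 := k1 (a j) (a j + η j) k3 (by linarith) k4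
  rw [add_sub_cancel_left] at k5
  rw [Real.dist_eq]
  linarith

end Vale.Agent.N146.Llt
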