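import Vale.Agent.P146.H196.UDefs

/-!
# P146: slow variation in `n` of the law of `(F_n - E F_n) / n ^ (1/6)`

The free energies of the sizes `n` and `n + k`, coupled through the common bonds, differ by `O(k)`
in `L²`; so the laws of the rescaled free energies are at quadratic transport distance
`O(k / n ^ (1/6))`.
-/

open MeasureTheory ProbabilityTheory Filter Topology

namespace Vale.Agent.N146.Slow

section Gauss


set_option linter.unusedSectionVars false

variable {ι S : Type} [Fintype ι] [Fintype S] [Nonempty S]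

/-- the standard Gaussian measure -/
noncomputable abbrev γ (ι : Type) [Fintype ι] : Measure (ι → ℝ) :=
  Measure.pi fun _ => gaussianReal 0 1

/-- a linear form -/
def lin (d : ι → ℝ) (g : ι → ℝ) : ℝ := ∑ e, d e * g e

/-- the logarithm of an exponential sum -/
noncomputable def LS (c : S → ι → ℝ) (g : ι → ℝ) : ℝ := Real.log (∑ s, Real.exp (lin (c s) g))

lemma cont_lin (d : ι → ℝ) : Continuous (lin d) := by
  unfold lin; fun_prop

lemma Z_pos (c : S → ι → ℝ) (g : ι → ℝ) : 0 < ∑ s, Real.exp (lin (c s) g) :=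
  Finset.sum_pos (fun _ _ => Real.exp_pos _) Finset.univ_nonempty

lemma cont_Z (c : S → ι → ℝ) : Continuous fun g => ∑ s, Real.exp (lin (c s) g) :=
  continuous_finsetSum _ fun _ _ => Real.continuous_exp.comp (cont_lin _)

lemma cont_LS (c : S → ι → ℝ) : Continuous (LS c) :=
  (cont_Z c).log fun g => (Z_pos c g).ne'

lemma exp_lin_eq (d : ι → ℝ) (g : ι → ℝ) :
    Real.exp (lin d g) = ∏ e, Real.exp (d e * g e) := by
  unfold lin; rw [Real.exp_sum]

lemma int_exp_lin (d : ι → ℝ) : Integrable (fun g => Real.exp (lin d g)) (γ ι) := by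
  simp_rw [exp_lin_eq]
  exact Integrable.fintype_prod (f := fun e x => Real.exp (d e * x))
    fun e => integrable_exp_mul_gaussianReal (d e)

lemma integral_exp_lin (d : ι → ℝ) :
    ∫ g, Real.exp (lin d g) ∂(γ ι) = Real.exp ((∑ e, d e ^ 2) / 2) := by
  simp_rw [exp_lin_eq]
  rw [integral_fintype_prod_eq_prod (fun e x => Real.exp (d e * x)), Finset.sum_div, Real.exp_sum]
  refine Finset.prod_congr rfl fun e _ => ?_
  have h := congrFun (mgf_fun_id_gaussianReal (μ := 0) (v := 1)) (d e)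
  simpa [mgf] using h

lemma lin_neg (d : ι → ℝ) (g : ι → ℝ) : lin (-d) g = -lin d g := by
  unfold lin; simp

lemma lin_add (c d : ι → ℝ) (g : ι → ℝ) : lin (c + d) g = lin c g + lin d g := by
  unfold lin; simp [add_mul, Finset.sum_add_distrib]

lemma lin_smul (t : ℝ) (d : ι → ℝ) (g : ι → ℝ) : lin (t • d) g = t * lin d g := by
  unfold lin; simp [Finset.mul_sum, mul_assoc]

/-- functions of disjoint sets of coordinates are uncorrelated -/
lemma integral_mul_disj (p : ι → Prop) [DecidablePred p] (f h : (ι → ℝ) → ℝ)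
    (hf : ∀ x y : ι → ℝ, (∀ e, p e → x e = y e) → f x = f y)
    (hh : ∀ x y : ι → ℝ, (∀ e, ¬ p e → x e = y e) → h x = h y) :
    ∫ g, f g * h g ∂(γ ι) = (∫ g, f g ∂(γ ι)) * ∫ g, h g ∂(γ ι) := by
  have key : ∀ (w : ({e // p e} → ℝ) → ℝ) (u : ({e // ¬ p e} → ℝ) → ℝ),
      ∫ g, w (fun e => g e) * u (fun e => g e) ∂(γ ι) =
        (∫ x, w x ∂(γ {e // p e})) * ∫ y, u y ∂(γ {e // ¬ p e}) := by
    intro w u
    rw [← integral_prod_mul]
    exact (measurePreserving_piEquivPiSubtypeProd (fun _ : ι => gaussianReal 0 1) p).integral_comp'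
      (fun z => w z.1 * u z.2)
  set w : ({e // p e} → ℝ) → ℝ := fun x => f fun e => if h : p e then x ⟨e, h⟩ else 0 with hw
  set u : ({e // ¬ p e} → ℝ) → ℝ := fun x => h fun e => if h : ¬ p e then x ⟨e, h⟩ else 0 with hu
  have e1 : ∀ g : ι → ℝ, f g = w fun e => g e := fun g =>
    hf _ _ fun e he => by simp [he]
  have e2 : ∀ g : ι → ℝ, h g = u fun e => g e := fun g =>
    hh _ _ fun e he => by simp [he]
  have k1 := key w fun _ => 1
  have k2 := key (fun _ => 1) u
  have k3 := key w u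
  simp only [mul_one, one_mul, integral_const, probReal_univ, smul_eq_mul] at k1 k2
  simp_rw [e1, e2]
  rw [k3, k1, k2]

/-- the second moment of a logarithm -/
lemma log_sq_le {U A : ℝ} (hU : 1 ≤ U) (hA : 1 ≤ A) :
    Real.log U ^ 2 ≤ 2 * Real.log A ^ 2 + 8 * (U / A) := by
  have hA0 : 0 < A := by linarith
  have hU0 : 0 < U := by linarith
  have hr : 0 < U / A := div_pos hU0 hA0
  have h1 : Real.log U = Real.log A + Real.log (U / A) := by
    rw [Real.log_div hU0.ne' hA0.ne']; ring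
  have hs : 0 < √(U / A) := Real.sqrt_pos.2 hr
  have h2 : Real.log (U / A) ≤ 2 * √(U / A) := by
    have h3 := Real.log_le_sub_one_of_pos hs
    rw [Real.log_sqrt hr.le] at h3
    linarith
  have h4 : √(U / A) ^ 2 = U / A := Real.sq_sqrt hr.le
  have h5 : 0 ≤ Real.log U := Real.log_nonneg hU
  have h6 : 0 ≤ Real.log A := Real.log_nonneg hA
  have h7 : Real.log U ≤ Real.log A + 2 * √(U / A) := by linarith
  have h8 : Real.log U ^ 2 ≤ (Real.log A + 2 * √(U / A)) ^ 2 := pow_le_pow_left₀ h5 h7 2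
  nlinarith [sq_nonneg (Real.log A - 2 * √(U / A))]

lemma sq_int_le {Ω : Type*} [MeasurableSpace Ω] {μ : Measure Ω} [IsProbabilityMeasure μ]
    {D U : Ω → ℝ} {A t : ℝ} (hD : AEStronglyMeasurable D μ) (hU : Integrable U μ)
    (h1 : ∀ x, 1 ≤ U x) (hA : 1 ≤ A) (hUA : ∫ x, U x ∂μ ≤ A)
    (hb : ∀ x, |D x| ≤ t * Real.log (U x)) :
    MemLp D 2 μ ∧ ∫ x, D x ^ 2 ∂μ ≤ t ^ 2 * (2 * Real.log A ^ 2 + 8) := by
  have hA0 : 0 < A := by linarith
  have hp : ∀ x, D x ^ 2 ≤ t ^ 2 * (2 * Real.log A ^ 2 + 8 * (U x / A)) := fun x => by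
    have h2 : D x ^ 2 ≤ (t * Real.log (U x)) ^ 2 := by
      rw [← sq_abs (D x)]; exact pow_le_pow_left₀ (abs_nonneg _) (hb x) 2
    rw [mul_pow] at h2
    exact h2.trans (mul_le_mul_of_nonneg_left (log_sq_le (h1 x) hA) (sq_nonneg t))
  have hI : Integrable (fun x => t ^ 2 * (2 * Real.log A ^ 2 + 8 * (U x / A))) μ :=
    ((integrable_const _).add ((hU.div_const A).const_mul 8)).const_mul _
  have hD2 : Integrable (fun x => D x ^ 2) μ :=
    hI.mono' (hD.pow 2) (Eventually.of_forall fun x => by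
      rw [Real.norm_eq_abs, abs_of_nonneg (sq_nonneg _)]; exact hp x)
  refine ⟨(memLp_two_iff_integrable_sq hD).2 hD2, (integral_mono hD2 hI hp).trans ?_⟩
  rw [integral_const_mul, integral_add (integrable_const _) ((hU.div_const A).const_mul 8),
    integral_const_mul, integral_const_mul, integral_div]
  simp only [integral_const, probReal_univ, smul_eq_mul, one_mul]
  have : (∫ x, U x ∂μ) / A ≤ 1 := (div_le_one hA0).2 hUA
  exact mul_le_mul_of_nonneg_left (by linarith) (sq_nonneg t)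

lemma two_le_exp_add (x : ℝ) : 2 ≤ Real.exp x + Real.exp (-x) := by
  have h1 := Real.add_one_le_exp x
  have h2 := Real.add_one_le_exp (-x)
  linarith

/-- adding an independent Gaussian field -/
theorem add_field (p : ι → Prop) [DecidablePred p] (c d : S → ι → ℝ) {v : ℝ}
    (hc : ∀ s e, ¬ p e → c s e = 0) (hd : ∀ s e, p e → d s e = 0)
    (hv : ∀ s, ∑ e, d s e ^ 2 ≤ v) :
    MemLp (fun g => LS (c + d) g - LS c g) 2 (γ ι) ∧
      ∫ g, (LS (c + d) g - LS c g) ^ 2 ∂(γ ι) ≤ 2 * (Real.log 2 + v / 2) ^ 2 + 8 := by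
  set w : S → (ι → ℝ) → ℝ := fun s g => Real.exp (lin (c s) g) / ∑ s, Real.exp (lin (c s) g)
    with hw
  have w0 : ∀ s g, 0 ≤ w s g := fun s g => div_nonneg (Real.exp_pos _).le (Z_pos c g).le
  have w1 : ∀ g, ∑ s, w s g = 1 := fun g => by
    simp only [hw]; rw [← Finset.sum_div, div_self (Z_pos c g).ne']
  have wle : ∀ s g, w s g ≤ 1 := fun s g => by
    rw [← w1 g]; exact Finset.single_le_sum (fun s _ => w0 s g) (Finset.mem_univ s)
  have wc : ∀ s, Continuous (w s) := fun s =>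
    (Real.continuous_exp.comp (cont_lin _)).div (cont_Z c) fun g => (Z_pos c g).ne'
  have wi : ∀ s, Integrable (w s) (γ ι) := fun s =>
    (integrable_const (1 : ℝ)).mono' (wc s).aestronglyMeasurable (Eventually.of_forall fun g => by
      rw [Real.norm_eq_abs, abs_of_nonneg (w0 s g)]; exact wle s g)
  have wdep : ∀ s (x y : ι → ℝ), (∀ e, p e → x e = y e) → w s x = w s y := by
    intro s x y hxy
    have : ∀ s, lin (c s) x = lin (c s) y := fun s => Finset.sum_congr rfl fun e _ => by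
      by_cases he : p e
      · rw [hxy e he]
      · rw [hc s e he]; simp
    simp only [hw, this]
  -- the integrals of the pieces
  have piece : ∀ (s : S) (a : ι → ℝ), (∀ e, p e → a e = 0) → ∑ e, a e ^ 2 ≤ v →
      Integrable (fun g => w s g * Real.exp (lin a g)) (γ ι) ∧
      ∫ g, w s g * Real.exp (lin a g) ∂(γ ι) ≤ (∫ g, w s g ∂(γ ι)) * Real.exp (v / 2) := by
    intro s a ha hav
    refine ⟨(int_exp_lin a).mono' ((wc s).mul
      (Real.continuous_exp.comp (cont_lin _))).aestronglyMeasurable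
      (Eventually.of_forall fun g => ?_), ?_⟩
    · rw [Real.norm_eq_abs, abs_of_nonneg (mul_nonneg (w0 s g) (Real.exp_pos _).le)]
      exact mul_le_of_le_one_left (Real.exp_pos _).le (wle s g)
    · rw [integral_mul_disj p (w s) (fun g => Real.exp (lin a g)) (wdep s), integral_exp_lin]
      · exact mul_le_mul_of_nonneg_left (Real.exp_le_exp.2 (by linarith))
          (integral_nonneg fun g => w0 s g)
      · intro x y hxy
        have : lin a x = lin a y := Finset.sum_congr rfl fun e _ => by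
          by_cases he : p e
          · rw [ha e he]; simp
          · rw [hxy e he]
        rw [this]
  have hneg : ∀ s, ∑ e, (-d s) e ^ 2 ≤ v := fun s => by simpa using hv s
  have P1 := fun s => piece s (d s) (hd s) (hv s)
  have P2 := fun s => piece s (-d s) (fun e he => by simp [hd s e he]) (hneg s)
  set U : (ι → ℝ) → ℝ := fun g => ∑ s, w s g * Real.exp (lin (d s) g) with hU
  set U' : (ι → ℝ) → ℝ := fun g => ∑ s, w s g * Real.exp (lin (-d s) g) with hU'
  have iU : Integrable U (γ ι) := integrable_finsetSum _ fun s _ => (P1 s).1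
  have iU' : Integrable U' (γ ι) := integrable_finsetSum _ fun s _ => (P2 s).1
  have sw : ∑ s, ∫ g, w s g ∂(γ ι) = 1 := by
    rw [← integral_finsetSum _ fun s _ => wi s]; simp [w1]
  have bU : ∫ g, U g ∂(γ ι) ≤ Real.exp (v / 2) := by
    rw [hU, integral_finsetSum _ fun s _ => (P1 s).1]
    refine (Finset.sum_le_sum fun s _ => (P1 s).2).trans ?_
    rw [← Finset.sum_mul, sw, one_mul]
  have bU' : ∫ g, U' g ∂(γ ι) ≤ Real.exp (v / 2) := by
    rw [hU', integral_finsetSum _ fun s _ => (P2 s).1]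
    refine (Finset.sum_le_sum fun s _ => (P2 s).2).trans ?_
    rw [← Finset.sum_mul, sw, one_mul]
  have eU : ∀ g, U g = (∑ s, Real.exp (lin ((c + d) s) g)) / ∑ s, Real.exp (lin (c s) g) := by
    intro g
    rw [Finset.sum_div]
    refine Finset.sum_congr rfl fun s _ => ?_
    simp only [hw, Pi.add_apply c d s, lin_add, Real.exp_add]
    ring
  have U0 : ∀ g, 0 < U g := fun g => by rw [eU]; exact div_pos (Z_pos _ g) (Z_pos _ g)
  have U'0 : ∀ g, 0 ≤ U' g := fun g =>
    Finset.sum_nonneg fun s _ => mul_nonneg (w0 s g) (Real.exp_pos _).le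
  have eL : ∀ g, LS (c + d) g - LS c g = Real.log (U g) := fun g => by
    rw [eU, Real.log_div (Z_pos _ g).ne' (Z_pos _ g).ne']; rfl
  have inv : ∀ g, (U g)⁻¹ ≤ U' g := by
    intro g
    have hu := U0 g
    have h1 : ∀ s, w s g * (2 / U g) - w s g * Real.exp (lin (d s) g) / U g ^ 2 ≤
        w s g * Real.exp (lin (-d s) g) := by
      intro s
      rw [lin_neg, Real.exp_neg, mul_div_assoc, ← mul_sub]
      refine mul_le_mul_of_nonneg_left ?_ (w0 s g)
      have hx := Real.exp_pos (lin (d s) g)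
      generalize Real.exp (lin (d s) g) = x at hx
      generalize U g = u at hu
      have : x⁻¹ - (2 / u - x / u ^ 2) = (u - x) ^ 2 / (x * u ^ 2) := by field_simp; ring
      have h2 : 0 ≤ (u - x) ^ 2 / (x * u ^ 2) := by positivity
      linarith
    have h2 := Finset.sum_le_sum fun s (_ : s ∈ Finset.univ) => h1 s
    rw [Finset.sum_sub_distrib, ← Finset.sum_mul, w1, ← Finset.sum_div] at h2
    have h3 : 1 * (2 / U g) - U g / U g ^ 2 = (U g)⁻¹ := by field_simp; ring
    exact h3 ▸ h2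
  have two : ∀ g, 1 ≤ U g + U' g := by
    intro g
    have hu := U0 g
    have h1 := inv g
    by_cases h : 1 ≤ U g
    · linarith [U'0 g]
    · have : 1 ≤ (U g)⁻¹ := (one_le_inv₀ hu).2 (by linarith)
      linarith
  have hA : 1 ≤ 2 * Real.exp (v / 2) := by
    have h0 : 0 ≤ v := (Finset.sum_nonneg fun e _ => sq_nonneg _).trans (hv (Classical.arbitrary S))
    have := Real.one_le_exp (by linarith : 0 ≤ v / 2)
    linarith
  have main := sq_int_le (μ := γ ι) (D := fun g => LS (c + d) g - LS c g)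
    (U := fun g => U g + U' g) (A := 2 * Real.exp (v / 2)) (t := 1)
    ((cont_LS _).sub (cont_LS _)).aestronglyMeasurable (iU.add iU') two hA
    (by rw [integral_add iU iU']; linarith) (fun g => by
      rw [eL, one_mul, abs_le]
      have hu := U0 g
      constructor
      · have h1 : Real.log (U g)⁻¹ ≤ Real.log (U g + U' g) :=
          Real.log_le_log (inv_pos.2 hu) (by linarith [inv g])
        rw [Real.log_inv] at h1
        linarith
      · exact Real.log_le_log hu (by linarith [U'0 g]))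
  rw [Real.log_mul two_ne_zero (Real.exp_pos _).ne', Real.log_exp, one_pow, one_mul] at main
  exact main

lemma LS_le (c c' : S → ι → ℝ) (g : ι → ℝ) {M : ℝ} (h : ∀ s, lin (c' s) g ≤ lin (c s) g + M) :
    LS c' g ≤ LS c g + M := by
  unfold LS
  rw [← Real.log_exp M, ← Real.log_mul (Z_pos c g).ne' (Real.exp_pos _).ne', Finset.sum_mul]
  refine Real.log_le_log (Z_pos c' g) (Finset.sum_le_sum fun s _ => ?_)
  rw [← Real.exp_add]; exact Real.exp_le_exp.2 (h s)

/-- changing the amplitude of a Gaussian field -/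
theorem scale_field (c d : S → ι → ℝ) (t : ℝ) {v : ℝ} (hv : ∀ s, ∑ e, d s e ^ 2 ≤ v) :
    MemLp (fun g => LS (c + t • d) g - LS c g) 2 (γ ι) ∧
      ∫ g, (LS (c + t • d) g - LS c g) ^ 2 ∂(γ ι) ≤
        t ^ 2 * (2 * (Real.log (2 * Fintype.card S) + v / 2) ^ 2 + 8) := by
  set U : (ι → ℝ) → ℝ := fun g => ∑ s, (Real.exp (lin (d s) g) + Real.exp (lin (-d s) g)) with hU
  have iU : Integrable U (γ ι) :=
    integrable_finsetSum _ fun s _ => (int_exp_lin _).add (int_exp_lin _)
  have hneg : ∀ s, ∑ e, (-d s) e ^ 2 ≤ v := fun s => by simpa using hv s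
  have hc : (1 : ℝ) ≤ Fintype.card S := by exact_mod_cast Fintype.card_pos
  have bU : ∫ g, U g ∂(γ ι) ≤ 2 * Fintype.card S * Real.exp (v / 2) := by
    rw [hU, integral_finsetSum
      (f := fun s g => Real.exp (lin (d s) g) + Real.exp (lin (-d s) g)) _
      fun s _ => (int_exp_lin _).add (int_exp_lin _)]
    have h : ∀ s ∈ (Finset.univ : Finset S),
        ∫ g, (Real.exp (lin (d s) g) + Real.exp (lin (-d s) g)) ∂(γ ι) ≤ 2 * Real.exp (v / 2) := by
      intro s _
      rw [integral_add (int_exp_lin _) (int_exp_lin _), integral_exp_lin, integral_exp_lin]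
      have h1 := Real.exp_le_exp.2 (by linarith [hv s] : (∑ e, d s e ^ 2) / 2 ≤ v / 2)
      have h2 := Real.exp_le_exp.2 (by linarith [hneg s] : (∑ e, (-d s) e ^ 2) / 2 ≤ v / 2)
      linarith
    refine (Finset.sum_le_sum h).trans ?_
    rw [Finset.sum_const, Finset.card_univ, nsmul_eq_mul]
    exact le_of_eq (by ring)
  have hs : ∀ g s, Real.exp (lin (d s) g) + Real.exp (lin (-d s) g) ≤ U g := fun g s =>
    Finset.single_le_sum (f := fun s => Real.exp (lin (d s) g) + Real.exp (lin (-d s) g))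
      (fun s _ => by positivity) (Finset.mem_univ s)
  have one : ∀ g, 1 ≤ U g := fun g => by
    have h1 := hs g (Classical.arbitrary S)
    have h2 := two_le_exp_add (lin (d (Classical.arbitrary S)) g)
    rw [lin_neg] at h1
    linarith
  have habs : ∀ g s, |lin (d s) g| ≤ Real.log (U g) := fun g s => by
    have h1 := hs g s
    rw [lin_neg] at h1
    have hu : 0 < U g := by linarith [one g]
    rw [Real.le_log_iff_exp_le hu]
    have h2 := Real.exp_pos (lin (d s) g)
    have h3 := Real.exp_pos (-lin (d s) g)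
    rcases abs_cases (lin (d s) g) with h | h <;> rw [h.1] <;> linarith
  have hA : 1 ≤ 2 * Fintype.card S * Real.exp (v / 2) := by
    have h0 : 0 ≤ v := (Finset.sum_nonneg fun e _ => sq_nonneg _).trans (hv (Classical.arbitrary S))
    have := Real.one_le_exp (by linarith : 0 ≤ v / 2)
    nlinarith
  have main := sq_int_le (μ := γ ι) (D := fun g => LS (c + t • d) g - LS c g)
    (U := U) (A := 2 * Fintype.card S * Real.exp (v / 2)) (t := |t|)
    ((cont_LS _).sub (cont_LS _)).aestronglyMeasurable iU one hA bU (fun g => by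
      have h1 : ∀ s, |t * lin (d s) g| ≤ |t| * Real.log (U g) := fun s => by
        rw [abs_mul]; exact mul_le_mul_of_nonneg_left (habs g s) (abs_nonneg t)
      have h2 : ∀ s, lin ((c + t • d) s) g = lin (c s) g + t * lin (d s) g := fun s => by
        rw [Pi.add_apply, Pi.smul_apply, lin_add, lin_smul]
      have h3 := LS_le c (c + t • d) g (M := |t| * Real.log (U g)) fun s => by
        rw [h2]; linarith [(abs_le.1 (h1 s)).2]
      have h4 := LS_le (c + t • d) c g (M := |t| * Real.log (U g)) fun s => by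
        rw [h2]; linarith [(abs_le.1 (h1 s)).1]
      rw [abs_le]; constructor <;> linarith)
  rw [Real.log_mul (by positivity) (Real.exp_pos _).ne', Real.log_exp, sq_abs] at main
  exact main

/-- restriction to a set of coordinates preserves the Gaussian measure -/
lemma mp_comp {κ : Type} [Fintype κ] (j : κ → ι) (hj : Function.Injective j) :
    MeasurePreserving (fun (g : ι → ℝ) (e : κ) => g (j e)) (γ ι) (γ κ) := by
  refine ⟨measurable_pi_lambda _ fun e => measurable_pi_apply _, ?_⟩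
  have h1 : iIndepFun (fun (i : ι) (g : ι → ℝ) => g i) (γ ι) :=
    iIndepFun_pi (X := fun _ => id) fun _ => aemeasurable_id
  have h2 := (h1.precomp hj).map_fun_eq_pi_map fun e => (measurable_pi_apply (j e)).aemeasurable
  rw [h2]
  congr 1
  funext e
  exact (measurePreserving_eval (fun _ : ι => gaussianReal 0 1) (j e)).map_eq

end Gauss


open Vale.Agent.P146 Vale.Agent.P146.H196

instance prob_disorder (n : ℕ) : IsProbabilityMeasure (disorder n) := by
  unfold disorder; infer_instance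

/-- the bonds between the first `n` sites -/
def emb (n k : ℕ) (e : Pair n) : Pair (n + k) :=
  ⟨(e.1.1.castAdd k, e.1.2.castAdd k), (show (e.1.1 : ℕ) < e.1.2 from e.2)⟩

lemma emb_inj (n k : ℕ) : Function.Injective (emb n k) := by
  intro e f h
  have h1 := congrArg (fun x : Pair (n + k) => (x.1.1 : ℕ)) h
  have h2 := congrArg (fun x : Pair (n + k) => (x.1.2 : ℕ)) h
  simp only [emb, Fin.val_castAdd] at h1 h2
  exact Subtype.ext (Prod.ext (Fin.ext h1) (Fin.ext h2))

/-- the restriction of the disorder to the first `n` sites -/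
def res (n k : ℕ) (g : Pair (n + k) → ℝ) : Pair n → ℝ := fun e => g (emb n k e)

lemma mp_res (n k : ℕ) : MeasurePreserving (res n k) (disorder (n + k)) (disorder n) :=
  mp_comp (emb n k) (emb_inj n k)

lemma cont_res (n k : ℕ) : Continuous (res n k) := continuous_pi fun _ => continuous_apply _

lemma int_res (n k : ℕ) {f : (Pair n → ℝ) → ℝ} (hf : Continuous f) :
    ∫ g, f (res n k g) ∂(disorder (n + k)) = ∫ g, f g ∂(disorder n) := by
  rw [← (mp_res n k).map_eq, integral_map (mp_res n k).measurable.aemeasurable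
    hf.aestronglyMeasurable]

/-- the coefficients of the Hamiltonian -/
noncomputable def cf (n : ℕ) (a : ℝ) (s : Fin n → ℤˣ) (e : Pair n) : ℝ :=
  a * (((s e.1.1 : ℤ) : ℝ) * ((s e.1.2 : ℤ) : ℝ))

lemma F_eq (n : ℕ) (b : ℝ) (g : Pair n → ℝ) : freeEnergy n b g = LS (cf n (b / √n)) g := by
  unfold freeEnergy partitionFn LS hamiltonian lin cf
  congr 1
  refine Finset.sum_congr rfl fun s _ => ?_
  congr 1
  rw [Finset.mul_sum, Finset.mul_sum]
  exact Finset.sum_congr rfl fun e _ => by ring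

lemma unit_sq (u : ℤˣ) : ((u : ℤ) : ℝ) ^ 2 = 1 := by
  rcases Int.units_eq_one_or u with h | h <;> simp [h]

lemma cf_sq (n : ℕ) (a : ℝ) (s : Fin n → ℤˣ) (e : Pair n) : cf n a s e ^ 2 = a ^ 2 := by
  unfold cf; rw [mul_pow, mul_pow, unit_sq, unit_sq]; ring

lemma cf_add (n : ℕ) (a t a' : ℝ) : cf n a + t • cf n a' = cf n (a + t * a') := by
  funext s e; simp only [cf, Pi.add_apply, Pi.smul_apply, smul_eq_mul]; ring

lemma cont_F (n : ℕ) (b : ℝ) : Continuous (freeEnergy n b) := by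
  rw [show freeEnergy n b = LS (cf n (b / √n)) from funext (F_eq n b)]; exact cont_LS _

lemma card_pair (n : ℕ) : (Fintype.card (Pair n) : ℝ) ≤ (n : ℝ) * n := by
  have h : Fintype.card (Pair n) ≤ Fintype.card (Fin n × Fin n) := Fintype.card_subtype_le _
  rw [Fintype.card_prod, Fintype.card_fin] at h
  exact_mod_cast h

/-- changing the temperature -/
lemma temp (n : ℕ) (hn : 1 ≤ n) (a t : ℝ) :
    MemLp (fun g => LS (cf n (a + t * (1 / √n))) g - LS (cf n a) g) 2 (disorder n) ∧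
      ∫ g, (LS (cf n (a + t * (1 / √n))) g - LS (cf n a) g) ^ 2 ∂(disorder n) ≤
        21 * t ^ 2 * (n : ℝ) ^ 2 := by
  have hn1 : (1 : ℝ) ≤ n := by exact_mod_cast hn
  have hv : ∀ s, ∑ e, cf n (1 / √n) s e ^ 2 ≤ (n : ℝ) := fun s => by
    simp only [cf_sq, Finset.sum_const, Finset.card_univ, nsmul_eq_mul]
    rw [div_pow, Real.sq_sqrt (by linarith), one_pow, mul_one_div, div_le_iff₀ (by linarith)]
    exact card_pair n
  have h := scale_field (cf n a) (cf n (1 / √n)) t hv
  rw [cf_add] at h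
  refine ⟨h.1, h.2.trans ?_⟩
  have hl : Real.log (2 * (Fintype.card (Fin n → ℤˣ) : ℝ)) = (n + 1) * Real.log 2 := by
    rw [Fintype.card_fun, Fintype.card_units_int, Fintype.card_fin]
    push_cast
    rw [← pow_succ', Real.log_pow]; push_cast; ring
  have l2 : Real.log 2 ≤ 1 := by linarith [Real.log_two_lt_d9]
  have l0 : 0 ≤ Real.log 2 := Real.log_nonneg one_le_two
  rw [hl]
  have h1 : ((n : ℝ) + 1) * Real.log 2 + n / 2 ≤ 5 / 2 * n := by nlinarith
  have h2 : (((n : ℝ) + 1) * Real.log 2 + n / 2) ^ 2 ≤ (5 / 2 * n) ^ 2 :=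
    pow_le_pow_left₀ (by positivity) h1 2
  have h3 : 2 * (((n : ℝ) + 1) * Real.log 2 + n / 2) ^ 2 + 8 ≤ 21 * (n : ℝ) ^ 2 := by nlinarith
  calc _ ≤ t ^ 2 * (21 * (n : ℝ) ^ 2) := mul_le_mul_of_nonneg_left h3 (sq_nonneg t)
    _ = _ := by ring

lemma LS_zero (n : ℕ) (g : Pair n → ℝ) : LS (cf n 0) g = n * Real.log 2 := by
  unfold LS lin cf
  simp [Fintype.card_units_int]

lemma memLp_F (n : ℕ) (b : ℝ) : MemLp (freeEnergy n b) 2 (disorder n) := by
  rcases Nat.eq_zero_or_pos n with rfl | hn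
  · have : freeEnergy 0 b = fun _ => 0 := by
      funext g; rw [F_eq]; simpa using LS_zero 0 g
    rw [this]; exact memLp_const 0
  · have h := (temp n hn 0 b).1.add (memLp_const ((n : ℝ) * Real.log 2))
    refine (memLp_congr_ae (Eventually.of_forall fun g => ?_)).1 h
    simp only [Pi.add_apply, LS_zero, F_eq, zero_add, mul_one_div]; ring

lemma var_le_sq {Ω : Type*} [MeasurableSpace Ω] {μ : Measure Ω} [IsProbabilityMeasure μ]
    {D : Ω → ℝ} (hD : AEStronglyMeasurable D μ) (c : ℝ) :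
    ∫ x, (D x - ∫ y, D y ∂μ) ^ 2 ∂μ ≤ ∫ x, (D x - c) ^ 2 ∂μ := by
  rw [← variance_eq_integral hD.aemeasurable, ← variance_sub_const hD c]
  exact variance_le_expectation_sq (hD.sub aestronglyMeasurable_const)

/-- the trivial bound for the variance -/
lemma var_F (n : ℕ) (hn : 1 ≤ n) (b : ℝ) :
    ∫ g, (freeEnergy n b g - meanF n b) ^ 2 ∂(disorder n) ≤ 21 * b ^ 2 * (n : ℝ) ^ 2 := by
  refine (var_le_sq (cont_F n b).aestronglyMeasurable ((n : ℝ) * Real.log 2)).trans ?_
  have h := (temp n hn 0 b).2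
  simpa only [LS_zero, F_eq, zero_add, mul_one_div] using h

/-- the old part of the Hamiltonian -/
noncomputable def cold (n k : ℕ) (a : ℝ) (s : Fin (n + k) → ℤˣ) (e : Pair (n + k)) : ℝ :=
  if (e.1.2 : ℕ) < n then cf (n + k) a s e else 0

/-- the new part of the Hamiltonian -/
noncomputable def cnew (n k : ℕ) (a : ℝ) (s : Fin (n + k) → ℤˣ) (e : Pair (n + k)) : ℝ :=
  if (e.1.2 : ℕ) < n then 0 else cf (n + k) a s e

lemma cold_add (n k : ℕ) (a : ℝ) : cold n k a + cnew n k a = cf (n + k) a := by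
  funext s e; simp only [cold, cnew, Pi.add_apply]; split_ifs <;> simp

lemma lin_cold (n k : ℕ) (a : ℝ) (s : Fin (n + k) → ℤˣ) (g : Pair (n + k) → ℝ) :
    lin (cold n k a s) g = lin (cf n a fun i => s (i.castAdd k)) (res n k g) := by
  unfold lin
  symm
  refine Fintype.sum_of_injective (emb n k) (emb_inj n k) _ _ (fun e he => ?_) fun e => ?_
  · have : ¬ (e.1.2 : ℕ) < n := fun h => he ⟨⟨(⟨e.1.1, lt_trans e.2 h⟩, ⟨e.1.2, h⟩), e.2⟩, rfl⟩
    simp [cold, this]
  · have : ((emb n k e).1.2 : ℕ) < n := e.1.2.2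
    simp only [cold, this, if_true]; rfl

lemma LS_cold (n k : ℕ) (a : ℝ) (g : Pair (n + k) → ℝ) :
    LS (cold n k a) g = k * Real.log 2 + LS (cf n a) (res n k g) := by
  unfold LS
  simp_rw [lin_cold]
  rw [← (Fin.appendEquiv (α := ℤˣ) n k).sum_comp, Fintype.sum_prod_type]
  simp only [Fin.appendEquiv_apply, Fin.append_left, Finset.sum_const, Finset.card_univ,
    nsmul_eq_mul]
  rw [← Finset.mul_sum, Real.log_mul (by simp) (Z_pos _ _).ne', Fintype.card_fun,
    Fintype.card_units_int, Fintype.card_fin]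
  push_cast
  rw [Real.log_pow]

lemma card_new (n k : ℕ) :
    ((Finset.univ.filter fun e : Pair (n + k) => ¬ (e.1.2 : ℕ) < n).card : ℝ) ≤ (n + k) * k := by
  have h : (Finset.univ.filter fun e : Pair (n + k) => ¬ (e.1.2 : ℕ) < n).card ≤
      ((Finset.univ : Finset (Fin (n + k))) ×ˢ Finset.Ico n (n + k)).card := by
    refine Finset.card_le_card_of_injOn (fun e => (e.1.1, (e.1.2 : ℕ))) (fun e he => ?_) ?_
    · simp only [Finset.coe_filter, Finset.mem_univ, true_and, Set.mem_ofPred_eq, not_lt] at he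
      simp [he, e.1.2.2]
    · intro e _ f _ h
      simp only [Prod.mk.injEq] at h
      exact Subtype.ext (Prod.ext h.1 (Fin.ext h.2))
  rw [Finset.card_product, Finset.card_univ, Fintype.card_fin, Nat.card_Ico,
    Nat.add_sub_cancel_left] at h
  exact_mod_cast h

/-- the constant of the coupling -/
noncomputable def KK (b : ℝ) : ℝ := 4 * (1 + b ^ 2 / 2) ^ 2 + 16 + 42 * b ^ 2

lemma KK_ge (b : ℝ) : 21 * b ^ 2 ≤ KK b := by unfold KK; nlinarith [sq_nonneg b]

lemma KK_pos (b : ℝ) : 0 < KK b := by unfold KK; positivity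

/-- adding `k` sites changes the free energy by `O(k)` in `L²` -/
theorem step (b : ℝ) (n k : ℕ) (hn : 1 ≤ n) (hk : 1 ≤ k) :
    ∫ g, (freeEnergy (n + k) b g - freeEnergy n b (res n k g) - k * Real.log 2) ^ 2
      ∂(disorder (n + k)) ≤ KK b * (k : ℝ) ^ 2 := by
  have hn1 : (1 : ℝ) ≤ n := by exact_mod_cast hn
  have hk1 : (1 : ℝ) ≤ k := by exact_mod_cast hk
  set m : ℝ := ((n + k : ℕ) : ℝ) with hm
  have hm' : m = n + k := by rw [hm]; push_cast; ring
  have hm0 : 0 < m := by linarith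
  have sn : 0 < √(n : ℝ) := Real.sqrt_pos.2 (by linarith)
  have sm : 0 < √m := Real.sqrt_pos.2 hm0
  have hv : ∀ s, ∑ e, cnew n k (b / √m) s e ^ 2 ≤ b ^ 2 * k := fun s => by
    have h1 : ∀ e : Pair (n + k), cnew n k (b / √m) s e ^ 2 =
        if ¬ (e.1.2 : ℕ) < n then b ^ 2 / m else 0 := fun e => by
      unfold cnew
      by_cases h : (e.1.2 : ℕ) < n
      · simp [h]
      · simp only [h, if_false, not_false_eq_true, if_true, cf_sq, div_pow, Real.sq_sqrt hm0.le]
    simp_rw [h1]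
    rw [← Finset.sum_filter, Finset.sum_const, nsmul_eq_mul]
    calc _ ≤ ((n : ℝ) + k) * k * (b ^ 2 / m) :=
          mul_le_mul_of_nonneg_right (card_new n k) (by positivity)
      _ = _ := by rw [← hm']; field_simp
  have A := add_field (fun e : Pair (n + k) => (e.1.2 : ℕ) < n) (cold n k (b / √m))
    (cnew n k (b / √m)) (fun s e he => by simp [cold, he]) (fun s e he => by simp [cnew, he]) hv
  rw [cold_add] at A
  set t : ℝ := b * (√n / √m - 1) with ht
  have B := temp n hn (b / √n) t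
  have e1 : b / √(n : ℝ) + t * (1 / √n) = b / √m := by rw [ht]; field_simp; ring
  rw [e1] at B
  set D1 : (Pair (n + k) → ℝ) → ℝ := fun g => LS (cf (n + k) (b / √m)) g - LS (cold n k (b / √m)) g
    with hD1
  set D2 : (Pair n → ℝ) → ℝ := fun g => LS (cf n (b / √m)) g - LS (cf n (b / √n)) g with hD2
  have c2 : Continuous D2 := (cont_LS _).sub (cont_LS _)
  have B1 : MemLp (fun g => D2 (res n k g)) 2 (disorder (n + k)) :=
    B.1.comp_measurePreserving (mp_res n k)
  have B2 : ∫ g, D2 (res n k g) ^ 2 ∂(disorder (n + k)) = ∫ g, D2 g ^ 2 ∂(disorder n) :=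
    int_res n k (f := fun g => D2 g ^ 2) (c2.pow 2)
  have eD : ∀ g, freeEnergy (n + k) b g - freeEnergy n b (res n k g) - k * Real.log 2 =
      D1 g + D2 (res n k g) := fun g => by
    simp only [hD1, hD2, F_eq, LS_cold, ← hm]; ring
  simp_rw [eD]
  have i1 : Integrable (fun g => D1 g ^ 2) (disorder (n + k)) := A.1.integrable_sq
  have i2 : Integrable (fun g => D2 (res n k g) ^ 2) (disorder (n + k)) := B1.integrable_sq
  have i3 : Integrable (fun g => (D1 g + D2 (res n k g)) ^ 2) (disorder (n + k)) :=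
    (A.1.add B1).integrable_sq
  have h4 : ∫ g, (D1 g + D2 (res n k g)) ^ 2 ∂(disorder (n + k)) ≤
      ∫ g, (2 * D1 g ^ 2 + 2 * D2 (res n k g) ^ 2) ∂(disorder (n + k)) :=
    integral_mono i3 ((i1.const_mul 2).add (i2.const_mul 2)) fun g => by
      have := sq_nonneg (D1 g - D2 (res n k g))
      simp only; nlinarith
  rw [integral_add (i1.const_mul 2) (i2.const_mul 2), integral_const_mul, integral_const_mul, B2]
    at h4
  have A2 : ∫ g, D1 g ^ 2 ∂(disorder (n + k)) ≤ 2 * (Real.log 2 + b ^ 2 * k / 2) ^ 2 + 8 := A.2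
  have B3 : ∫ g, D2 g ^ 2 ∂(disorder n) ≤ 21 * t ^ 2 * (n : ℝ) ^ 2 := B.2
  have l2 : Real.log 2 ≤ 1 := by linarith [Real.log_two_lt_d9]
  have l0 : 0 ≤ Real.log 2 := Real.log_nonneg one_le_two
  have a1 : (Real.log 2 + b ^ 2 * k / 2) ^ 2 ≤ ((1 + b ^ 2 / 2) * k) ^ 2 :=
    pow_le_pow_left₀ (by positivity) (by nlinarith) 2
  -- the change of temperature
  have r1 : √(n : ℝ) / √m ≤ 1 := (div_le_one sm).2 (Real.sqrt_le_sqrt (by linarith))
  have r0 : 0 ≤ √(n : ℝ) / √m := by positivity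
  have r2 : (√(n : ℝ) / √m) ^ 2 = n / m := by
    rw [div_pow, Real.sq_sqrt (by linarith), Real.sq_sqrt hm0.le]
  have r3 : (1 - √(n : ℝ) / √m) * n ≤ k := by
    have h5 : (n : ℝ) / m ≤ √(n : ℝ) / √m := by rw [← r2]; nlinarith
    have h6 : (1 - (n : ℝ) / m) * n ≤ k := by
      have : (1 - (n : ℝ) / m) * n = k * (n / m) := by rw [hm']; field_simp; ring
      rw [this]
      exact mul_le_of_le_one_right (by linarith) ((div_le_one hm0).2 (by linarith))
    nlinarith
  have r4 : t ^ 2 * (n : ℝ) ^ 2 ≤ b ^ 2 * (k : ℝ) ^ 2 := by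
    have h7 : ((1 - √(n : ℝ) / √m) * n) ^ 2 ≤ (k : ℝ) ^ 2 :=
      pow_le_pow_left₀ (mul_nonneg (by linarith) (by linarith)) r3 2
    calc t ^ 2 * (n : ℝ) ^ 2 = b ^ 2 * ((1 - √(n : ℝ) / √m) * n) ^ 2 := by rw [ht]; ring
      _ ≤ _ := mul_le_mul_of_nonneg_left h7 (sq_nonneg b)
  have k2 : (1 : ℝ) ≤ (k : ℝ) ^ 2 := one_le_pow₀ hk1
  unfold KK
  nlinarith

/-- the centred free energy -/
noncomputable def Xc (n : ℕ) (b : ℝ) (g : Pair n → ℝ) : ℝ := freeEnergy n b g - meanF n b

lemma cont_X (n : ℕ) (b : ℝ) : Continuous (Xc n b) := (cont_F n b).sub continuous_const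

lemma memLp_X (n : ℕ) (b : ℝ) : MemLp (Xc n b) 2 (disorder n) :=
  (memLp_F n b).sub (memLp_const _)

/-- the centred free energies of the sizes `n` and `n + k` differ by `O(k)` in `L²` -/
theorem stepX (b : ℝ) (n k : ℕ) (hn : 1 ≤ n) :
    ∫ g, (Xc (n + k) b g - Xc n b (res n k g)) ^ 2 ∂(disorder (n + k)) ≤ KK b * (k : ℝ) ^ 2 := by
  have i1 : Integrable (freeEnergy (n + k) b) (disorder (n + k)) :=
    (memLp_F _ b).integrable one_le_two
  have i2 : Integrable (fun g => freeEnergy n b (res n k g)) (disorder (n + k)) :=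
    ((memLp_F n b).comp_measurePreserving (mp_res n k)).integrable one_le_two
  have h := var_le_sq (μ := disorder (n + k))
    (D := fun g => freeEnergy (n + k) b g - freeEnergy n b (res n k g))
    ((cont_F _ b).sub ((cont_F n b).comp (cont_res n k))).aestronglyMeasurable (k * Real.log 2)
  rw [integral_sub i1 i2, int_res n k (cont_F n b)] at h
  have e : ∀ g, Xc (n + k) b g - Xc n b (res n k g) =
      freeEnergy (n + k) b g - freeEnergy n b (res n k g) -
        (∫ g, freeEnergy (n + k) b g ∂(disorder (n + k)) - ∫ g, freeEnergy n b g ∂(disorder n)) :=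
    fun g => by unfold Xc meanF; ring
  simp_rw [e]
  refine h.trans ?_
  rcases Nat.eq_zero_or_pos k with rfl | hk
  · have : ∀ g : Pair (n + 0) → ℝ, res n 0 g = g := fun g => rfl
    simp [this]
  · exact step b n k hn hk




/-- the rescaled free energy -/
noncomputable def Y (n : ℕ) (b : ℝ) (g : Pair n → ℝ) : ℝ :=
  (freeEnergy n b g - meanF n b) / (n : ℝ) ^ (1 / 6 : ℝ)

lemma cont_Y (n : ℕ) (b : ℝ) : Continuous (Y n b) := (cont_X n b).div_const _

lemma memLp_Y (n : ℕ) (b : ℝ) : MemLp (Y n b) 2 (disorder n) := by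
  have h := (memLp_X n b).mul_const ((n : ℝ) ^ (1 / 6 : ℝ))⁻¹
  exact h

lemma memLp_Yres (n k : ℕ) (b : ℝ) :
    MemLp (fun g => Y n b (res n k g)) 2 (disorder (n + k)) :=
  (memLp_Y n b).comp_measurePreserving (mp_res n k)

lemma sq_sixth {x : ℝ} (hx : 0 ≤ x) : (x ^ (1 / 6 : ℝ)) ^ 2 = x ^ (1 / 3 : ℝ) := by
  rw [← Real.rpow_natCast, ← Real.rpow_mul hx]; norm_num

/-- the rescaled free energies of the sizes `n` and `n + k` -/
theorem stepY (b : ℝ) (n k : ℕ) (hn : 1 ≤ n) :
    ∫ g, (Y (n + k) b g - Y n b (res n k g)) ^ 2 ∂(disorder (n + k)) ≤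
      4 * KK b * (k : ℝ) ^ 2 / (n : ℝ) ^ (1 / 3 : ℝ) := by
  have hn1 : (1 : ℝ) ≤ n := by exact_mod_cast hn
  have hk0 : (0 : ℝ) ≤ k := Nat.cast_nonneg k
  set m : ℝ := ((n + k : ℕ) : ℝ) with hm
  have hm' : m = n + k := by rw [hm]; push_cast; ring
  have hm0 : 0 < m := by linarith
  set N : ℝ := (n : ℝ) ^ (1 / 6 : ℝ) with hN
  set M : ℝ := m ^ (1 / 6 : ℝ) with hM
  have N0 : 0 < N := Real.rpow_pos_of_pos (by linarith) _
  have NM : N ≤ M := Real.rpow_le_rpow (by linarith) (by linarith) (by norm_num)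
  have M0 : 0 < M := by linarith
  -- `1 - N / M ≤ k / n`
  have r1 : (1 - N / M) * n ≤ k := by
    have h1 : (n : ℝ) / m ≤ N / M := by
      rw [hN, hM, ← Real.div_rpow (by linarith) hm0.le]
      have := Real.rpow_le_rpow_of_exponent_ge (x := (n : ℝ) / m) (by positivity)
        ((div_le_one hm0).2 (by linarith)) (by norm_num : (1 / 6 : ℝ) ≤ 1)
      rwa [Real.rpow_one] at this
    have h6 : (1 - (n : ℝ) / m) * n ≤ k := by
      have : (1 - (n : ℝ) / m) * n = k * (n / m) := by rw [hm']; field_simp; ring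
      rw [this]
      exact mul_le_of_le_one_right hk0 ((div_le_one hm0).2 (by linarith))
    nlinarith
  have r0 : 0 ≤ 1 - N / M := by linarith [(div_le_one M0).2 NM]
  have r2 : (1 - N / M) ^ 2 * (n : ℝ) ^ 2 ≤ (k : ℝ) ^ 2 := by
    rw [← mul_pow]; exact pow_le_pow_left₀ (mul_nonneg r0 (by linarith)) r1 2
  have r3 : (N / M) ^ 2 ≤ 1 := pow_le_one₀ (by positivity) (by linarith)
  have e : ∀ g, (Y (n + k) b g - Y n b (res n k g)) ^ 2 =
      ((N / M) * (Xc (n + k) b g - Xc n b (res n k g)) - (1 - N / M) * Xc n b (res n k g)) ^ 2 /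
        N ^ 2 := fun g => by
    unfold Y Xc
    rw [← hm, ← hM, ← hN, ← div_pow]
    congr 1
    field_simp
    ring
  have mX : MemLp (fun g => Xc n b (res n k g)) 2 (disorder (n + k)) :=
    (memLp_X n b).comp_measurePreserving (mp_res n k)
  have i1 : Integrable (fun g => (Xc (n + k) b g - Xc n b (res n k g)) ^ 2) (disorder (n + k)) :=
    ((memLp_X _ b).sub mX).integrable_sq
  have i2 : Integrable (fun g => Xc n b (res n k g) ^ 2) (disorder (n + k)) := mX.integrable_sq
  have i3 : Integrable (fun g => ((N / M) * (Xc (n + k) b g - Xc n b (res n k g)) -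
      (1 - N / M) * Xc n b (res n k g)) ^ 2) (disorder (n + k)) :=
    ((((memLp_X _ b).sub mX).const_mul (N / M)).sub (mX.const_mul (1 - N / M))).integrable_sq
  have h4 := integral_mono i3
    ((i1.const_mul (2 * (N / M) ^ 2)).add (i2.const_mul (2 * (1 - N / M) ^ 2))) fun g => by
      have := sq_nonneg ((N / M) * (Xc (n + k) b g - Xc n b (res n k g)) +
        (1 - N / M) * Xc n b (res n k g))
      simp only [Pi.add_apply]; nlinarith
  simp only [Pi.add_apply] at h4
  rw [integral_add (i1.const_mul _) (i2.const_mul _), integral_const_mul, integral_const_mul,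
    int_res n k (f := fun g => Xc n b g ^ 2) ((cont_X n b).pow 2)] at h4
  have s1 := stepX b n k hn
  have s2 : ∫ g, Xc n b g ^ 2 ∂(disorder n) ≤ 21 * b ^ 2 * (n : ℝ) ^ 2 := var_F n hn b
  have s0 : 0 ≤ ∫ g, (Xc (n + k) b g - Xc n b (res n k g)) ^ 2 ∂(disorder (n + k)) :=
    integral_nonneg fun g => sq_nonneg _
  simp_rw [e]
  rw [integral_div, ← sq_sixth (by linarith), ← hN]
  refine div_le_div_of_nonneg_right (h4.trans ?_) (sq_nonneg N)
  have t1 : (N / M) ^ 2 * ∫ g, (Xc (n + k) b g - Xc n b (res n k g)) ^ 2 ∂(disorder (n + k)) ≤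
      KK b * (k : ℝ) ^ 2 := (mul_le_of_le_one_left s0 r3).trans s1
  have t2 : (1 - N / M) ^ 2 * ∫ g, Xc n b g ^ 2 ∂(disorder n) ≤ KK b * (k : ℝ) ^ 2 := by
    calc _ ≤ (1 - N / M) ^ 2 * (21 * b ^ 2 * (n : ℝ) ^ 2) :=
          mul_le_mul_of_nonneg_left s2 (sq_nonneg _)
      _ = 21 * b ^ 2 * ((1 - N / M) ^ 2 * (n : ℝ) ^ 2) := by ring
      _ ≤ 21 * b ^ 2 * (k : ℝ) ^ 2 := mul_le_mul_of_nonneg_left r2 (by positivity)
      _ ≤ _ := mul_le_mul_of_nonneg_right (KK_ge b) (sq_nonneg _)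
  linarith

lemma int_abs_le {Ω : Type*} [MeasurableSpace Ω] {μ : Measure Ω} [IsProbabilityMeasure μ]
    {D : Ω → ℝ} (hD : MemLp D 2 μ) {r : ℝ} (hr : 0 ≤ r) (h : ∫ x, D x ^ 2 ∂μ ≤ r ^ 2) :
    ∫ x, |D x| ∂μ ≤ r := by
  have h1 := variance_nonneg (fun x => |D x|) μ
  rw [variance_eq_sub (X := fun x => |D x|) hD.abs] at h1
  have h2 : ∫ x, ((fun x => |D x|) ^ 2) x ∂μ = ∫ x, D x ^ 2 ∂μ := by
    simp only [Pi.pow_apply, sq_abs]
  rw [h2] at h1
  exact (pow_le_pow_iff_left₀ (integral_nonneg fun x => abs_nonneg _) hr two_ne_zero).1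
    (by linarith)

/-- the constant of the slow variation -/
noncomputable def CC (b : ℝ) : ℝ := 2 * √(KK b)

lemma CC_pos (b : ℝ) : 0 < CC b := by have := KK_pos b; unfold CC; positivity

lemma CC_sq (b : ℝ) (n k : ℕ) :
    (CC b * k / (n : ℝ) ^ (1 / 6 : ℝ)) ^ 2 = 4 * KK b * (k : ℝ) ^ 2 / (n : ℝ) ^ (1 / 3 : ℝ) := by
  unfold CC
  rw [div_pow, sq_sixth (Nat.cast_nonneg n), mul_pow, mul_pow, Real.sq_sqrt (KK_pos b).le]
  norm_num

lemma int_lip {Ω : Type*} [MeasurableSpace Ω] {μ : Measure Ω} [IsProbabilityMeasure μ]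
    {X : Ω → ℝ} (hX : Integrable X μ) {f : ℝ → ℝ} {L : NNReal} (hf : LipschitzWith L f) :
    Integrable (fun x => f (X x)) μ := by
  refine ((integrable_const |f 0|).add (hX.abs.const_mul L)).mono'
    (hf.continuous.comp_aestronglyMeasurable hX.aestronglyMeasurable)
    (Eventually.of_forall fun x => ?_)
  have h := hf.dist_le_mul (X x) 0
  rw [Real.dist_eq, Real.dist_eq, sub_zero] at h
  have h2 := abs_add_le (f (X x) - f 0) (f 0)
  rw [sub_add_cancel] at h2
  simp only [Pi.add_apply, Real.norm_eq_abs]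
  linarith

/-- slow variation, tested on Lipschitz functions -/
theorem lip_step (b : ℝ) (n k : ℕ) (hn : 1 ≤ n) {f : ℝ → ℝ} {L : NNReal} (hf : LipschitzWith L f) :
    |∫ g, f (Y (n + k) b g) ∂(disorder (n + k)) - ∫ g, f (Y n b g) ∂(disorder n)| ≤
      L * (CC b * k / (n : ℝ) ^ (1 / 6 : ℝ)) := by
  have m1 := memLp_Y (n + k) b
  have m2 := memLp_Yres n k b
  rw [← int_res n k (f := fun g => f (Y n b g)) (hf.continuous.comp (cont_Y n b)),
    ← integral_sub (int_lip (m1.integrable one_le_two) hf) (int_lip (m2.integrable one_le_two) hf)]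
  have h1 := int_abs_le (m1.sub m2) (r := CC b * k / (n : ℝ) ^ (1 / 6 : ℝ))
    (by have := CC_pos b; positivity) (by rw [CC_sq]; exact stepY b n k hn)
  refine (abs_integral_le_integral_abs).trans (le_trans ?_
    (mul_le_mul_of_nonneg_left h1 L.coe_nonneg))
  rw [← integral_const_mul]
  refine integral_mono ((int_lip (m1.integrable one_le_two) hf).sub
    (int_lip (m2.integrable one_le_two) hf)).abs
    (((m1.sub m2).integrable one_le_two).abs.const_mul _) fun g => ?_
  exact hf.dist_le_mul _ _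

/-- slow variation, tested on Lipschitz functions, any two sizes -/
theorem lip_two (b : ℝ) (n m : ℕ) (hn : 1 ≤ n) (hm : 1 ≤ m) {f : ℝ → ℝ} {L : NNReal}
    (hf : LipschitzWith L f) :
    |∫ g, f (Y m b g) ∂(disorder m) - ∫ g, f (Y n b g) ∂(disorder n)| ≤
      L * (CC b * |(m : ℝ) - n| / ((min n m : ℕ) : ℝ) ^ (1 / 6 : ℝ)) := by
  rcases le_total n m with h | h
  · obtain ⟨k, rfl⟩ := Nat.exists_eq_add_of_le h
    have := lip_step b n k hn hf
    rw [min_eq_left h]
    push_cast
    rwa [add_sub_cancel_left, Nat.abs_cast]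
  · obtain ⟨k, rfl⟩ := Nat.exists_eq_add_of_le h
    have := lip_step b m k hm hf
    rw [min_eq_right h, abs_sub_comm, abs_sub_comm (m : ℝ)]
    push_cast
    rwa [add_sub_cancel_left, Nat.abs_cast]

/-- slow variation in the quadratic transport distance -/
theorem w2 (b : ℝ) (n m : ℕ) (hn : 1 ≤ n) (h : n ≤ m) :
    ∃ π : Measure (ℝ × ℝ), IsProbabilityMeasure π ∧
      π.map Prod.fst = (disorder n).map (Y n b) ∧ π.map Prod.snd = (disorder m).map (Y m b) ∧
      Integrable (fun z => (z.1 - z.2) ^ 2) π ∧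
      ∫ z, (z.1 - z.2) ^ 2 ∂π ≤ 4 * KK b * ((m : ℝ) - n) ^ 2 / (n : ℝ) ^ (1 / 3 : ℝ) := by
  obtain ⟨k, rfl⟩ := Nat.exists_eq_add_of_le h
  have c1 : Continuous fun g => Y n b (res n k g) := (cont_Y n b).comp (cont_res n k)
  have c2 := cont_Y (n + k) b
  have c3 : Measurable fun g => (Y n b (res n k g), Y (n + k) b g) := (c1.prodMk c2).measurable
  have c4 : Continuous fun z : ℝ × ℝ => (z.1 - z.2) ^ 2 := by fun_prop
  refine ⟨(disorder (n + k)).map fun g => (Y n b (res n k g), Y (n + k) b g),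
    Measure.isProbabilityMeasure_map c3.aemeasurable, ?_, ?_, ?_, ?_⟩
  · rw [Measure.map_map measurable_fst c3, ← (mp_res n k).map_eq,
      Measure.map_map (cont_Y n b).measurable (mp_res n k).measurable]
    rfl
  · rw [Measure.map_map measurable_snd c3]; rfl
  · rw [integrable_map_measure c4.aestronglyMeasurable c3.aemeasurable]
    exact ((memLp_Yres n k b).sub (memLp_Y _ b)).integrable_sq
  · rw [integral_map c3.aemeasurable c4.aestronglyMeasurable]
    have := stepY b n k hn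
    push_cast
    rw [add_sub_cancel_left]
    refine le_trans (le_of_eq ?_) this
    exact integral_congr_ae (Eventually.of_forall fun g => by simp only; ring)

/-- sizes at distance `o(n ^ (1/6))` have the same limit laws -/
theorem same_limit (b : ℝ) (law : ℕ → ProbabilityMeasure ℝ)
    (hlaw : ∀ n, (law n : Measure ℝ) = (disorder n).map (Y n b)) (φ ψ : ℕ → ℕ)
    (hφ : Tendsto φ atTop atTop)
    (hd : Tendsto (fun j => |(ψ j : ℝ) - φ j| / (φ j : ℝ) ^ (1 / 6 : ℝ)) atTop (𝓝 0))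
    (ν : ProbabilityMeasure ℝ) (h : Tendsto (law ∘ φ) atTop (𝓝 ν)) :
    Tendsto (law ∘ ψ) atTop (𝓝 ν) := by
  rw [tendsto_iff_forall_lipschitz_integral_tendsto] at h ⊢
  intro f hb hL
  have h1 := h f hb hL
  obtain ⟨L, hf⟩ := hL
  have eI : ∀ n, ∫ y, f y ∂(law n : Measure ℝ) = ∫ g, f (Y n b g) ∂(disorder n) := fun n => by
    rw [hlaw, integral_map (cont_Y n b).measurable.aemeasurable hf.continuous.aestronglyMeasurable]
  have h2 : Tendsto (fun j => ∫ y, f y ∂(law (ψ j) : Measure ℝ) - ∫ y, f y ∂(law (φ j) : Measure ℝ))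
      atTop (𝓝 0) := by
    have h3 := hd.const_mul ((L : ℝ) * (CC b * 2))
    rw [mul_zero] at h3
    refine squeeze_zero_norm' ?_ h3
    filter_upwards [hφ.eventually_ge_atTop 1, hd.eventually_le_const (by norm_num : (0 : ℝ) < 1 / 2)]
      with j j1 j2
    have p1 : (1 : ℝ) ≤ φ j := by exact_mod_cast j1
    have N0 : 0 < (φ j : ℝ) ^ (1 / 6 : ℝ) := Real.rpow_pos_of_pos (by linarith) _
    have N1 : (φ j : ℝ) ^ (1 / 6 : ℝ) ≤ φ j := by
      have := Real.rpow_le_rpow_of_exponent_le p1 (by norm_num : (1 / 6 : ℝ) ≤ 1)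
      rwa [Real.rpow_one] at this
    rw [div_le_iff₀ N0] at j2
    have q1 : (φ j : ℝ) / 2 ≤ ψ j := by linarith [(abs_le.1 j2).1]
    have q2 : 1 ≤ ψ j := by
      have : (0 : ℝ) < ψ j := by linarith
      exact_mod_cast this
    have q3 : (φ j : ℝ) / 64 ≤ ((min (φ j) (ψ j) : ℕ) : ℝ) := by
      push_cast; exact le_min (by linarith) (by linarith)
    have q4 : (φ j : ℝ) ^ (1 / 6 : ℝ) / 2 ≤ ((min (φ j) (ψ j) : ℕ) : ℝ) ^ (1 / 6 : ℝ) := by
      have := Real.rpow_le_rpow (by positivity) q3 (by norm_num : (0 : ℝ) ≤ 1 / 6)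
      rw [Real.div_rpow (by linarith) (by norm_num), show (64 : ℝ) = 2 ^ (6 : ℝ) by norm_num,
        ← Real.rpow_mul (by norm_num)] at this
      norm_num at this ⊢
      exact this
    rw [Real.norm_eq_abs, eI, eI]
    refine (lip_two b (φ j) (ψ j) j1 q2 hf).trans ?_
    have C0 := CC_pos b
    rw [mul_assoc]
    refine mul_le_mul_of_nonneg_left ?_ L.coe_nonneg
    calc _ ≤ CC b * |(ψ j : ℝ) - φ j| / ((φ j : ℝ) ^ (1 / 6 : ℝ) / 2) :=
          div_le_div_of_nonneg_left (by positivity) (by positivity) q4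
      _ = _ := by field_simp
  have h4 := h2.add h1
  simp only [zero_add, Function.comp_apply, sub_add_cancel] at h4
  exact h4

end Vale.Agent.N146.Slow
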