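import Vale.Agent.N146.Conn
import Vale.Agent.N146.Llt3
import Vale.Agent.N146.Slow
import Vale.Agent.P146.H509.LawSK
import Vale.Agent.P146.H863.GumLC

/-!
# P146: the set of limit laws of `(F_n - E F_n) / n^(1/6)`, total variation, local limit theorem

Inputs (proved in the starting files): `MgU` (upper bounds of the exponential moments), `SB`
(small balls), `Dens` (limit laws have a log-concave density and an unbounded right tail).
-/

open MeasureTheory ProbabilityTheory Filter Topology Set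

namespace Vale.Agent.N146.LawK

open Vale.Agent.P146 Vale.Agent.P146.H509 Vale.Agent.N146.Conn Vale.Agent.N146.Llt
open Vale.Agent.P146.H196 (meanF)

variable {b : ℝ}

/-! ### the free energy plus an exponential variable has a log-concave density -/

/-- the two-sided exponential kernel -/
noncomputable def pM (n : ℕ) (b : ℝ) (M : ℕ) (y : ℝ) : ℝ :=
  ∫ g, Real.exp (freeEnergy n b g + min (-y) (M * y - (M + 1) * freeEnergy n b g)) ∂(disorder n)

lemma ker_le (M : ℕ) (y u : ℝ) : Real.exp (u + min (-y) (M * y - (M + 1) * u)) ≤ 1 := by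
  rw [Real.exp_le_one_iff]
  have hM : (0 : ℝ) ≤ M := Nat.cast_nonneg M
  rcases le_total u y with h | h
  · linarith [min_le_left (-y) (M * y - (M + 1) * u)]
  · have := mul_le_mul_of_nonneg_left h hM
    linarith [min_le_right (-y) (M * y - (M + 1) * u)]

lemma ker_meas (n : ℕ) (b : ℝ) (M : ℕ) (y : ℝ) : AEStronglyMeasurable (fun g =>
    Real.exp (freeEnergy n b g + min (-y) (M * y - (M + 1) * freeEnergy n b g))) (disorder n) := by
  have := H863.cont_freeEnergy n b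
  exact (by fun_prop : Continuous _).aestronglyMeasurable

lemma pM_pos (n : ℕ) (b : ℝ) (M : ℕ) (y : ℝ) : 0 < pM n b M y := by
  refine integral_exp_pos (Integrable.of_bound (C := 1) (ker_meas n b M y)
    (Eventually.of_forall fun g => ?_))
  rw [Real.norm_eq_abs, abs_of_pos (Real.exp_pos _)]
  exact ker_le M y _

lemma pM_lc (n : ℕ) (b : ℝ) (M : ℕ) : LC (pM n b M) := by
  have hM : (0 : ℝ) ≤ M := Nat.cast_nonneg M
  have hc : ConcaveOn ℝ univ (fun q : ℝ × ℝ => min (-q.1) (M * q.1 - (M + 1) * q.2)) := by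
    refine ⟨convex_univ, fun x _ y _ a c ha hc hac => ?_⟩
    simp only [Prod.smul_fst, Prod.smul_snd, Prod.fst_add, Prod.snd_add, smul_eq_mul]
    refine le_min ?_ ?_
    · have h1 := mul_le_mul_of_nonneg_left (min_le_left (-x.1) (M * x.1 - (M + 1) * x.2)) ha
      have h2 := mul_le_mul_of_nonneg_left (min_le_left (-y.1) (M * y.1 - (M + 1) * y.2)) hc
      linarith
    · have h1 := mul_le_mul_of_nonneg_left (min_le_right (-x.1) (M * x.1 - (M + 1) * x.2)) ha
      have h2 := mul_le_mul_of_nonneg_left (min_le_right (-y.1) (M * y.1 - (M + 1) * y.2)) hc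
      linarith
  have h := H863.logconc n b (fun y u => min (-y) (M * y - (M + 1) * u)) hc
    (fun y u v huv => min_le_min le_rfl (by
      have := mul_le_mul_of_nonneg_left huv (show (0 : ℝ) ≤ M + 1 by linarith)
      linarith))
    (fun y => ⟨|y|, 0, le_rfl, fun u => by
      have h1 := min_le_left (-y) (M * y - (M + 1) * u)
      have h2 := neg_abs_le y
      linarith⟩)
  intro s t hs ht hst x y
  have h1 := h.2 (mem_univ x) (mem_univ y) hs.le ht.le hst
  simp only [smul_eq_mul] at h1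
  change s * Real.log (pM n b M x) + t * Real.log (pM n b M y) ≤
    Real.log (pM n b M (s * x + t * y)) at h1
  have h2 := Real.exp_le_exp.2 h1
  rw [Real.exp_log (pM_pos n b M _), Real.exp_add] at h2
  rw [Real.rpow_def_of_pos (pM_pos n b M x), Real.rpow_def_of_pos (pM_pos n b M y),
    mul_comm (Real.log _) s, mul_comm (Real.log _) t]
  exact h2

lemma pM_lim (n : ℕ) (b y : ℝ) : Tendsto (fun M => pM n b M y) atTop
    (𝓝 (∫ g, kk 1 y (freeEnergy n b g) ∂(disorder n))) := by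
  refine tendsto_integral_of_dominated_convergence (fun _ => (1 : ℝ))
    (fun M => ker_meas n b M y) (integrable_const _)
    (fun M => Eventually.of_forall fun g => ?_) (Eventually.of_forall fun g => ?_)
  · rw [Real.norm_eq_abs, abs_of_pos (Real.exp_pos _)]
    exact ker_le M y _
  · obtain ⟨u, hu⟩ : ∃ u, u = freeEnergy n b g := ⟨_, rfl⟩
    rw [← hu]
    rcases le_or_gt u y with h | h
    · have e : kk 1 y u = Real.exp (u - y) := by simp [kk, h]
      rw [e]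
      refine tendsto_const_nhds.congr fun M => ?_
      have hM : (0 : ℝ) ≤ M := Nat.cast_nonneg M
      have := mul_le_mul_of_nonneg_left h (show (0 : ℝ) ≤ M + 1 by linarith)
      rw [min_eq_left (by linarith), sub_eq_add_neg]
    · have e : kk 1 y u = 0 := by simp [kk, not_le.2 h]
      rw [e]
      have h1 : Tendsto (fun M : ℕ => (M : ℝ) * (y - u)) atTop atBot :=
        Tendsto.atTop_mul_const_of_neg (by linarith) tendsto_natCast_atTop_atTop
      refine (Real.tendsto_exp_atBot.comp h1).congr fun M => ?_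
      have hM : (0 : ℝ) ≤ M := Nat.cast_nonneg M
      have := mul_le_mul_of_nonneg_left h.le (show (0 : ℝ) ≤ M + 1 by linarith)
      simp only [Function.comp]
      rw [min_eq_right (by linarith)]
      congr 1
      ring

/-- **`F_n + E`, `E` exponential, has a log-concave density.** -/
theorem raw_lc (n : ℕ) (b : ℝ) :
    LC fun y => ∫ g, kk 1 y (freeEnergy n b g) ∂(disorder n) := by
  intro s t hs ht hst x y
  refine le_of_tendsto_of_tendsto' (((pM_lim n b x).rpow_const (Or.inr hs.le)).mul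
    ((pM_lim n b y).rpow_const (Or.inr ht.le))) (pM_lim n b (s * x + t * y)) fun M => ?_
  exact pM_lc n b M s t hs ht hst x y

lemma N_pos {n : ℕ} (hn : 1 ≤ n) : 0 < (n : ℝ) ^ (1 / 6 : ℝ) :=
  Real.rpow_pos_of_pos (by exact_mod_cast hn) _

lemma N_lim : Tendsto (fun n : ℕ => (n : ℝ) ^ (1 / 6 : ℝ)) atTop atTop :=
  (tendsto_rpow_atTop (by norm_num)).comp tendsto_natCast_atTop_atTop

lemma rr_lawY {n : ℕ} (hn : 1 ≤ n) (y : ℝ) :
    rr (lawY b n : Measure ℝ) ((n : ℝ) ^ (1 / 6 : ℝ)) y =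
      ∫ g, kk 1 (meanF n b + (n : ℝ) ^ (1 / 6 : ℝ) * y) (freeEnergy n b g) ∂(disorder n) := by
  have hN := N_pos hn
  unfold rr
  change ∫ u, kk _ y u ∂((disorder n).map (Yn n b)) = _
  rw [integral_map (meas_Yn n b).aemeasurable (meas_kk2 _ y).aestronglyMeasurable]
  congr 1
  funext g
  unfold kk Yn
  have e : (freeEnergy n b g - meanF n b) / (n : ℝ) ^ (1 / 6 : ℝ) ≤ y ↔
      freeEnergy n b g ≤ meanF n b + (n : ℝ) ^ (1 / 6 : ℝ) * y := by
    rw [div_le_iff₀ hN]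
    constructor <;> intro h <;> linarith
  simp only [e]
  split_ifs
  · congr 1
    field_simp
    ring
  · rfl

lemma lc_lawY {n : ℕ} (hn : 1 ≤ n) : LC (rr (lawY b n : Measure ℝ) ((n : ℝ) ^ (1 / 6 : ℝ))) := by
  intro s t hs ht hst x y
  rw [rr_lawY hn, rr_lawY hn, rr_lawY hn]
  have h := raw_lc n b s t hs ht hst (meanF n b + (n : ℝ) ^ (1 / 6 : ℝ) * x)
    (meanF n b + (n : ℝ) ^ (1 / 6 : ℝ) * y)
  have e : s * (meanF n b + (n : ℝ) ^ (1 / 6 : ℝ) * x) + t * (meanF n b + (n : ℝ) ^ (1 / 6 : ℝ) * y)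
      = meanF n b + (n : ℝ) ^ (1 / 6 : ℝ) * (s * x + t * y) := by
    have : t = 1 - s := by linarith
    rw [this]
    ring
  rw [e] at h
  exact h

lemma real_lawY (n : ℕ) {A : Set ℝ} (hA : MeasurableSet A) :
    (lawY b n : Measure ℝ).real A = (disorder n).real {g | Yn n b g ∈ A} := by
  change ((disorder n).map (Yn n b)).real A = _
  rw [map_measureReal_apply (meas_Yn n b) hA]
  rfl

/-- the small ball bound of `TwoSided` -/
def SB (b C : ℝ) : Prop := ∀ n : ℕ, 2 ≤ n → ∀ u : ℝ, 0 ≤ u → ∀ y : ℝ,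
  (disorder n).real {g | |freeEnergy n b g - y| ≤ u} ≤ C * (1 + u) / (n : ℝ) ^ (1 / 6 : ℝ)

lemma rr_small {C : ℝ} (h : SB b C) {n : ℕ} (hn : 2 ≤ n) (y : ℝ) :
    rr (lawY b n : Measure ℝ) ((n : ℝ) ^ (1 / 6 : ℝ)) y ≤ 4 * C / (n : ℝ) ^ (1 / 6 : ℝ) := by
  have hN := N_pos (show 1 ≤ n by omega)
  have h1 := rr_le (μ := (lawY b n : Measure ℝ)) hN (s := C * (1 + 1) / (n : ℝ) ^ (1 / 6 : ℝ))
    (fun z => by
      rw [real_lawY n measurableSet_Ioc]
      refine le_trans (measureReal_mono fun g hg => ?_)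
        (h n hn 1 zero_le_one (meanF n b + (n : ℝ) ^ (1 / 6 : ℝ) * z))
      obtain ⟨h2, h3⟩ := hg
      unfold Yn at h2 h3
      rw [lt_div_iff₀ hN, sub_mul, one_div_mul_cancel hN.ne'] at h2
      rw [div_le_iff₀ hN] at h3
      show |freeEnergy n b g - (meanF n b + (n : ℝ) ^ (1 / 6 : ℝ) * z)| ≤ (1 : ℝ)
      rw [abs_le]
      constructor <;> linarith) y
  refine h1.trans (le_of_eq ?_)
  ring

/-- **The law of `Y_n` is log-concave up to `n^(-1/6)` in total variation.** -/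
theorem tv_lc {C : ℝ} (h : SB b C) {n : ℕ} (hn : 2 ≤ n) : ∃ q : ℝ → ℝ, (∀ x, 0 ≤ q x) ∧ LC q ∧
    Integrable q ∧ ∫ x, q x = 1 ∧ ∀ A : Set ℝ, MeasurableSet A →
      |(lawY b n : Measure ℝ).real A - ∫ x in A, q x| ≤ 4 * C / (n : ℝ) ^ (1 / 6 : ℝ) := by
  have hn1 : 1 ≤ n := by omega
  have hN := N_pos hn1
  exact ⟨fun y => (n : ℝ) ^ (1 / 6 : ℝ) * rr (lawY b n : Measure ℝ) ((n : ℝ) ^ (1 / 6 : ℝ)) y,
    fun x => mul_nonneg hN.le (rr_nonneg _ _ _), (lc_lawY hn1).const_mul (rr_nonneg _ _) hN,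
    (int_q hN).1, (int_q hN).2,
    fun A hA => tv hN ((lc_lawY hn1).qc (rr_nonneg _ _)) (rr_small h hn) hA⟩

lemma sm_of {C : ℝ} (h : SB b C) {φ : ℕ → ℕ} (hφ : Tendsto φ atTop atTop) (h2 : ∀ j, 2 ≤ φ j) :
    Sm (lawY b ∘ φ) (fun j => (φ j : ℝ) ^ (1 / 6 : ℝ))
      (fun j => 4 * C / (φ j : ℝ) ^ (1 / 6 : ℝ)) :=
  ⟨fun j => N_pos ((h2 j).trans' (by norm_num)), fun j => lc_lawY ((h2 j).trans' (by norm_num)),
    fun j y => rr_small h (h2 j) y, (N_lim.comp hφ).const_div_atTop _⟩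

lemma lc_meas {p : ℝ → ℝ} (h0 : ∀ x, 0 ≤ p x) (h : LC p) : Measurable p := by
  refine measurable_of_Ioi fun c => OrdConnected.measurableSet ⟨fun x hx y hy z hz => ?_⟩
  exact (lt_min hx hy).trans_le (h.qc h0 x z y hz.1 hz.2)

lemma lc_int {p : ℝ → ℝ} (h0 : ∀ x, 0 ≤ p x) (h : LC p) {ν : ProbabilityMeasure ℝ}
    (hν : (ν : Measure ℝ) = volume.withDensity fun x => ENNReal.ofReal (p x)) : Integrable p := by
  refine ⟨(lc_meas h0 h).aestronglyMeasurable, ?_⟩
  rw [hasFiniteIntegral_iff_ofReal (Eventually.of_forall h0)]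
  have h1 : (ν : Measure ℝ) univ = 1 := measure_univ
  rw [hν, withDensity_apply _ MeasurableSet.univ, Measure.restrict_univ] at h1
  rw [h1]
  exact ENNReal.one_lt_top

lemma shift {φ : ℕ → ℕ} (hφ : Tendsto φ atTop atTop) : ∃ k : ℕ, ∀ j, 2 ≤ φ (j + k) := by
  obtain ⟨k, hk⟩ := eventually_atTop.1 (hφ.eventually_ge_atTop 2)
  exact ⟨k, fun j => hk _ (by omega)⟩

lemma unshift {P : ℕ → Prop} {k : ℕ} (h : ∀ᶠ j in atTop, P (j + k)) : ∀ᶠ j in atTop, P j := by
  obtain ⟨j0, hj⟩ := eventually_atTop.1 h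
  refine eventually_atTop.2 ⟨j0 + k, fun j hjk => ?_⟩
  have := hj (j - k) (by omega)
  rwa [show j - k + k = j by omega] at this

/-- **Weak limits are limits in total variation.** -/
theorem tv_lim {C : ℝ} (h : SB b C) {φ : ℕ → ℕ} (hφ : Tendsto φ atTop atTop)
    {ν : ProbabilityMeasure ℝ} (hm : Tendsto (lawY b ∘ φ) atTop (𝓝 ν)) {p : ℝ → ℝ}
    (h0 : ∀ x, 0 ≤ p x) (hp : LC p)
    (hν : (ν : Measure ℝ) = volume.withDensity fun x => ENNReal.ofReal (p x)) {ε : ℝ}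
    (hε : 0 < ε) : ∀ᶠ j in atTop, ∀ A : Set ℝ, MeasurableSet A →
      |(lawY b (φ j) : Measure ℝ).real A - (ν : Measure ℝ).real A| ≤ ε := by
  obtain ⟨k, hk⟩ := shift hφ
  have t := tendsto_add_atTop_nat k
  exact unshift (k := k) ((sm_of h (hφ.comp t) hk).tv_lim (hm.comp t) hν h0 (lc_int h0 hp hν) hε)

/-- **The local limit theorem at all scales**, at every point in the interior of the support. -/
theorem llt {C : ℝ} (h : SB b C) {φ : ℕ → ℕ} (hφ : Tendsto φ atTop atTop)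
    {ν : ProbabilityMeasure ℝ} (hm : Tendsto (lawY b ∘ φ) atTop (𝓝 ν)) {p : ℝ → ℝ}
    (h0 : ∀ x, 0 ≤ p x) (hp : LC p)
    (hν : (ν : Measure ℝ) = volume.withDensity fun x => ENNReal.ofReal (p x))
    (hT : ∀ t, 0 < (ν : Measure ℝ).real (Ici t)) {x a : ℝ} (hax : a < x) (ha : 0 < p a) :
    0 < p x ∧ ContinuousAt p x ∧ ∀ ε : ℝ, 0 < ε → ∃ δ : ℝ, 0 < δ ∧ ∀ᶠ j in atTop, ∀ u v : ℝ,
      x - δ ≤ u → u < v → v ≤ x + δ →
        |(lawY b (φ j) : Measure ℝ).real (Ioc u v) / (v - u) - p x| ≤ ε := by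
  have hi := lc_int h0 hp hν
  obtain ⟨c, hc, hpc⟩ : ∃ c, x < c ∧ 0 < p c := by
    by_contra hno
    push Not at hno
    have h1 := hT (x + 1)
    rw [real_dens hν h0 hi measurableSet_Ici, setIntegral_eq_zero_of_forall_eq_zero
      fun y hy => le_antisymm (hno y (by linarith [show x + 1 ≤ y from hy])) (h0 y)] at h1
    exact lt_irrefl _ h1
  obtain ⟨hx, hcx⟩ := hp.continuousAt h0 hax hc ha hpc
  refine ⟨hx, hcx, fun ε hε => ?_⟩
  obtain ⟨k, hk⟩ := shift hφ
  have t := tendsto_add_atTop_nat k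
  obtain ⟨δ, hδ, h1⟩ := (sm_of h (hφ.comp t) hk).llt_unif (N_lim.comp (hφ.comp t)) (hm.comp t)
    hν h0 hi hcx hx hε
  exact ⟨δ, hδ, unshift (k := k) h1⟩

/-! ### the set of limit laws -/

lemma expB {D : ℝ} (hD : 0 < D) (hU : MgU b D) :
    ExpB (fun ξ => Real.exp (D * (ξ ^ 2 + ξ ^ 6))) (lawY b) := by
  intro ξ
  filter_upwards [eventually_ge_atTop 1, ev_small (ξ := ξ)] with n hn hs
  have hnR : (1 : ℝ) ≤ n := by exact_mod_cast hn
  have hn0 : (0 : ℝ) < n := by linarith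
  obtain ⟨h1, h2⟩ := exp_lawY (β := b) hn ξ
  refine ⟨h1, ?_⟩
  rw [h2]
  obtain ⟨-, hu1, hu2⟩ := hU n hn
  have hp : 0 < (n : ℝ) ^ (-(1 / 6) : ℝ) := Real.rpow_pos_of_pos hn0 _
  rcases le_total ξ 1 with hle | hge
  · refine (hu1 _ (by nlinarith)).trans (Real.exp_le_exp.2 ?_)
    rw [scale_two hn]
    have : 0 ≤ D * ξ ^ 6 := by positivity
    linarith
  · refine (hu2 _ (by nlinarith) (hs.trans ?_)).trans (Real.exp_le_exp.2 ?_)
    · exact Real.rpow_le_one_of_one_le_of_nonpos hnR (by norm_num)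
    · rw [scale_six hn]
      have : 0 ≤ D * ξ ^ 2 := by positivity
      linarith

lemma slow (b : ℝ) : Slow (lawY b) := by
  intro φ hφ ν h
  refine Slow.same_limit b (lawY b) (fun _ => rfl) φ (fun k => φ k + 1) hφ.tendsto_atTop ?_ ν h
  have := (N_lim.comp hφ.tendsto_atTop).const_div_atTop 1
  refine this.congr fun j => ?_
  simp

/-- the limit laws have a log-concave density (from `TwoSided`) -/
def Dens (b : ℝ) : Prop := ∀ φ : ℕ → ℕ, Tendsto φ atTop atTop → ∀ ν : ProbabilityMeasure ℝ,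
  Tendsto (lawY b ∘ φ) atTop (𝓝 ν) → ∃ p : ℝ → ℝ, (∀ x, 0 ≤ p x) ∧ LC p ∧
    (ν : Measure ℝ) = volume.withDensity fun x => ENNReal.ofReal (p x)

/-- a property which holds eventually along a subsequence of every subsequence -/
lemma ev_of_sub {P : ℕ → Prop} (h : ∀ φ : ℕ → ℕ, StrictMono φ → ∃ ψ : ℕ → ℕ,
    ∀ᶠ j in atTop, P (φ (ψ j))) : ∀ᶠ n in atTop, P n := by
  by_contra hc
  rw [not_eventually] at hc
  obtain ⟨φ, hφ, hn⟩ := extraction_of_frequently_atTop hc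
  obtain ⟨ψ, h1⟩ := h φ hφ
  obtain ⟨j, hj⟩ := h1.exists
  exact hn _ hj

/-- **The set of limit laws.** -/
theorem limit_set {D C : ℝ} (hD : 0 < D) (hU : MgU b D) (hS : SB b C) (hd : Dens b) :
    IsCompact {ν | MapClusterPt ν atTop (lawY b)} ∧
    IsConnected {ν | MapClusterPt ν atTop (lawY b)} ∧
    (∀ ν, MapClusterPt ν atTop (lawY b) ↔
      ∃ φ : ℕ → ℕ, StrictMono φ ∧ Tendsto (lawY b ∘ φ) atTop (𝓝 ν)) ∧
    (∀ ν, Tendsto (lawY b) atTop (𝓝 ν) ↔ {ν | MapClusterPt ν atTop (lawY b)} = {ν}) ∧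
    Tendsto (lawY b) atTop (𝓝ˢ {ν | MapClusterPt ν atTop (lawY b)}) ∧
    -- the distance in total variation to the set of limit laws tends to zero
    (∀ ε : ℝ, 0 < ε → ∀ᶠ n in atTop, ∃ ν, MapClusterPt ν atTop (lawY b) ∧
      ∀ A : Set ℝ, MeasurableSet A →
        |(lawY b n : Measure ℝ).real A - (ν : Measure ℝ).real A| ≤ ε) ∧
    -- slow variation in total variation
    (∀ k : ℕ → ℕ, Tendsto (fun n => |(k n : ℝ) - n| / (n : ℝ) ^ (1 / 6 : ℝ)) atTop (𝓝 0) →
      ∀ ε : ℝ, 0 < ε → ∀ᶠ n in atTop, ∀ A : Set ℝ, MeasurableSet A →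
        |(lawY b (k n) : Measure ℝ).real A - (lawY b n : Measure ℝ).real A| ≤ ε) ∧
    -- the limit points of the variance
    ((fun ν : ProbabilityMeasure ℝ => ∫ y, y ^ 2 ∂(ν : Measure ℝ)) ''
        {ν | MapClusterPt ν atTop (lawY b)} =
      Icc (liminf (fun n : ℕ => Var[freeEnergy n b; disorder n] / (n : ℝ) ^ (1 / 3 : ℝ)) atTop)
        (limsup (fun n : ℕ => Var[freeEnergy n b; disorder n] / (n : ℝ) ^ (1 / 3 : ℝ)) atTop) ∧
      {v | MapClusterPt v atTop
          fun n : ℕ => Var[freeEnergy n b; disorder n] / (n : ℝ) ^ (1 / 3 : ℝ)} =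
      Icc (liminf (fun n : ℕ => Var[freeEnergy n b; disorder n] / (n : ℝ) ^ (1 / 3 : ℝ)) atTop)
        (limsup (fun n : ℕ => Var[freeEnergy n b; disorder n] / (n : ℝ) ^ (1 / 3 : ℝ)) atTop)) ∧
    -- moments and exponential moments along convergent sequences
    ∀ φ : ℕ → ℕ, Tendsto φ atTop atTop → ∀ ν : ProbabilityMeasure ℝ,
      Tendsto (lawY b ∘ φ) atTop (𝓝 ν) →
      (∀ k : ℕ, Tendsto (fun j => ∫ g, Yn (φ j) b g ^ k ∂(disorder (φ j))) atTop
        (𝓝 (∫ y, y ^ k ∂(ν : Measure ℝ)))) ∧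
      ∀ ξ : ℝ, Tendsto (fun j => ∫ g, Real.exp (ξ * Yn (φ j) b g) ∂(disorder (φ j))) atTop
        (𝓝 (∫ y, Real.exp (ξ * y) ∂(ν : Measure ℝ))) := by
  have hB := expB hD hU
  have hR := relC_of hB
  obtain ⟨m1, m2, m3, m4⟩ := main hB (slow b)
  have eK : Lim (lawY b) = {ν | MapClusterPt ν atTop (lawY b)} := Conn.lim_eq _
  rw [← eK]
  have mem : ∀ ν, MapClusterPt ν atTop (lawY b) ↔ ν ∈ Lim (lawY b) := fun ν => by
    rw [eK]; rfl
  refine ⟨m1, m2, mem, m3, ?_, fun ε hε => ?_, fun k hk ε hε => ?_, ?_, fun φ hφ ν h => ⟨fun k => ?_,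
    fun ξ => ?_⟩⟩
  · rw [(hasBasis_nhdsSet _).tendsto_right_iff]
    rintro U ⟨hU1, hU2⟩
    exact hR.eventually_mem hU1 hU2
  · refine ev_of_sub fun φ hφ => ?_
    obtain ⟨ψ, hψ, ν, hν⟩ := hR φ hφ
    have ht := (hφ.comp hψ).tendsto_atTop
    obtain ⟨p, h0, hp, hd'⟩ := hd _ ht ν hν
    refine ⟨ψ, ?_⟩
    filter_upwards [tv_lim hS ht hν h0 hp hd' hε] with j hj
    exact ⟨ν, (mem ν).2 ⟨φ ∘ ψ, hφ.comp hψ, hν⟩, hj⟩
  · have hkt : Tendsto k atTop atTop := by
      rw [← tendsto_natCast_atTop_iff (R := ℝ)]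
      have h1 : Tendsto (fun n : ℕ => (n : ℝ) / 2) atTop atTop :=
        tendsto_natCast_atTop_atTop.atTop_div_const (by norm_num)
      refine tendsto_atTop_mono' _ ?_ h1
      filter_upwards [hk.eventually_le_const (show (0 : ℝ) < 1 / 2 by norm_num),
        eventually_ge_atTop 1] with n h2 hn
      have hn1 : (1 : ℝ) ≤ n := by exact_mod_cast hn
      rw [div_le_iff₀ (N_pos hn)] at h2
      have h3 : (n : ℝ) ^ (1 / 6 : ℝ) ≤ n := by
        have := Real.rpow_le_rpow_of_exponent_le hn1 (show (1 / 6 : ℝ) ≤ 1 by norm_num)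
        rwa [Real.rpow_one] at this
      linarith [(abs_le.1 h2).1]
    refine ev_of_sub fun φ hφ => ?_
    obtain ⟨ψ, hψ, ν, hν⟩ := hR φ hφ
    have ht := (hφ.comp hψ).tendsto_atTop
    obtain ⟨p, h0, hp, hd'⟩ := hd _ ht ν hν
    have hν' := Slow.same_limit b (lawY b) (fun _ => rfl) (φ ∘ ψ) (k ∘ φ ∘ ψ) ht (hk.comp ht) ν hν
    refine ⟨ψ, ?_⟩
    filter_upwards [tv_lim hS ht hν h0 hp hd' (half_pos hε),
      tv_lim hS (hkt.comp ht) hν' h0 hp hd' (half_pos hε)] with j h1 h2 A hA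
    have a1 := abs_le.1 (h1 A hA)
    have a2 := abs_le.1 (h2 A hA)
    simp only [Function.comp] at a1 a2
    rw [abs_le]
    constructor <;> linarith [a1.1, a1.2, a2.1, a2.2]
  · obtain ⟨i1, i2⟩ := m4 _ (gr_pow 2)
    have e : (fun n : ℕ => ∫ y, y ^ 2 ∂(lawY b n : Measure ℝ)) =ᶠ[atTop]
        fun n : ℕ => Var[freeEnergy n b; disorder n] / (n : ℝ) ^ (1 / 3 : ℝ) := by
      filter_upwards [eventually_ge_atTop 1] with n hn using var_lawY hn
    rw [liminf_congr e, limsup_congr e] at i1 i2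
    refine ⟨i1, ?_⟩
    rw [← i2, Conn.lim_eq]
    ext v
    simp only [mem_setOf_eq, MapClusterPt, map_congr e]
  · refine ((gr_pow k).lim hB hφ h).2.congr fun j => ?_
    exact int_lawY (f := fun y => y ^ k) (by fun_prop)
  · refine ((gr_exp ξ).lim hB hφ h).2.congr fun j => ?_
    exact int_lawY (f := fun y => Real.exp (ξ * y)) (by fun_prop)

end Vale.Agent.N146.LawK
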