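import Mathlib

/-!
# P146: smoothing by an exponential variable

For a probability `μ` on `ℝ` and `l > 0`, `l * rr μ l y` is the density at `y` of `U + E / l`,
`U` of law `μ` and `E` exponential.  Exactly,
`μ (a, b] = ∫_a^b l * rr + rr b - rr a`.  If `rr` is quasi-concave and at most `M`, then `μ` is
within `M` of the density `l * rr` in total variation.
-/

open MeasureTheory Filter Topology Set

namespace Vale.Agent.N146.Llt

/-- the kernel `exp (l (u - y)) 1 (u ≤ y)` -/
noncomputable def kk (l y u : ℝ) : ℝ := if u ≤ y then Real.exp (l * (u - y)) else 0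

/-- its mean -/
noncomputable def rr (μ : Measure ℝ) (l y : ℝ) : ℝ := ∫ u, kk l y u ∂μ

variable {μ : Measure ℝ} {l : ℝ}

lemma kk_nonneg (l y u : ℝ) : 0 ≤ kk l y u := by
  unfold kk
  split_ifs
  · exact (Real.exp_pos _).le
  · exact le_rfl

lemma kk_le_one (hl : 0 < l) (y u : ℝ) : kk l y u ≤ 1 := by
  unfold kk
  split_ifs with h
  · rw [Real.exp_le_one_iff]
    exact mul_nonpos_of_nonneg_of_nonpos hl.le (by linarith)
  · exact zero_le_one

lemma meas_kk (l : ℝ) : Measurable fun p : ℝ × ℝ => kk l p.1 p.2 := by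
  unfold kk
  exact Measurable.ite (measurableSet_le measurable_snd measurable_fst) (by fun_prop)
    measurable_const

lemma meas_kk2 (l y : ℝ) : Measurable (kk l y) :=
  (meas_kk l).comp (measurable_const.prodMk measurable_id)

lemma meas_kk1 (l u : ℝ) : Measurable fun y => kk l y u :=
  (meas_kk l).comp (measurable_id.prodMk measurable_const)

lemma norm_kk (hl : 0 < l) (y u : ℝ) : ‖kk l y u‖ ≤ 1 := by
  rw [Real.norm_eq_abs, abs_of_nonneg (kk_nonneg l y u)]
  exact kk_le_one hl y u

lemma int_kk [IsFiniteMeasure μ] (hl : 0 < l) (y : ℝ) : Integrable (kk l y) μ :=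
  Integrable.of_bound (meas_kk2 l y).aestronglyMeasurable 1
    (Eventually.of_forall fun u => norm_kk hl y u)

lemma rr_nonneg (μ : Measure ℝ) (l y : ℝ) : 0 ≤ rr μ l y := integral_nonneg fun u => kk_nonneg l y u

lemma rr_le_one [IsProbabilityMeasure μ] (hl : 0 < l) (y : ℝ) : rr μ l y ≤ 1 := by
  have h := integral_mono (int_kk (μ := μ) hl y) (integrable_const (1 : ℝ))
    fun u => kk_le_one hl y u
  unfold rr
  simpa using h

lemma meas_rr [SFinite μ] (l : ℝ) : Measurable (rr μ l) :=
  ((meas_kk l).stronglyMeasurable.integral_prod_right (ν := μ)).measurable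

lemma ii_kk (hl : 0 < l) (u a b : ℝ) : IntervalIntegrable (fun y => kk l y u) volume a b := by
  rw [intervalIntegrable_iff]
  refine Measure.integrableOn_of_bounded (M := 1) measure_Ioc_lt_top.ne
    (meas_kk1 l u).aestronglyMeasurable (Eventually.of_forall fun y => norm_kk hl y u)

lemma ii_rr [IsProbabilityMeasure μ] (hl : 0 < l) (a b : ℝ) :
    IntervalIntegrable (rr μ l) volume a b := by
  rw [intervalIntegrable_iff]
  refine Measure.integrableOn_of_bounded (M := 1) measure_Ioc_lt_top.ne
    (meas_rr l).aestronglyMeasurable (Eventually.of_forall fun y => ?_)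
  rw [Real.norm_eq_abs, abs_of_nonneg (rr_nonneg μ l y)]
  exact rr_le_one hl y

lemma exp_int (l u c d : ℝ) : ∫ y in c..d, l * Real.exp (l * (u - y)) =
    Real.exp (l * (u - c)) - Real.exp (l * (u - d)) := by
  have h : ∀ y ∈ uIcc c d, HasDerivAt (fun y => -Real.exp (l * (u - y)))
      (l * Real.exp (l * (u - y))) y := by
    intro y _
    have h1 : HasDerivAt (fun y => l * (u - y)) (l * (0 - 1)) y :=
      ((hasDerivAt_const y u).sub (hasDerivAt_id y)).const_mul l
    refine h1.exp.neg.congr_deriv ?_
    ring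
  rw [intervalIntegral.integral_eq_sub_of_hasDerivAt h
    (Continuous.intervalIntegrable (by fun_prop) _ _)]
  ring

lemma kk_right {u c d : ℝ} (huc : u ≤ c) (hcd : c ≤ d) :
    ∫ y in c..d, l * kk l y u = kk l c u - kk l d u := by
  have h : ∫ y in c..d, l * kk l y u = ∫ y in c..d, l * Real.exp (l * (u - y)) := by
    refine intervalIntegral.integral_congr fun y hy => ?_
    rw [uIcc_of_le hcd] at hy
    simp only [kk, if_pos (huc.trans hy.1)]
  rw [h, exp_int]
  simp only [kk, if_pos huc, if_pos (huc.trans hcd)]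

lemma kk_left {u c d : ℝ} (hcd : c ≤ d) (hdu : d ≤ u) : ∫ y in c..d, l * kk l y u = 0 := by
  rw [intervalIntegral.integral_of_le hcd, integral_Ioc_eq_integral_Ioo]
  refine setIntegral_eq_zero_of_forall_eq_zero fun y hy => ?_
  have : ¬ u ≤ y := not_le.2 (hy.2.trans_le hdu)
  simp only [kk, if_neg this, mul_zero]

/-- the pointwise identity -/
lemma kk_id (hl : 0 < l) {a b : ℝ} (hab : a ≤ b) (u : ℝ) :
    ∫ y in a..b, l * kk l y u = (Ioc a b).indicator (fun _ => (1 : ℝ)) u - kk l b u + kk l a u := by
  rcases le_or_gt u a with h1 | h1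
  · rw [kk_right h1 hab, indicator_of_notMem (fun h => absurd h.1 (not_lt.2 h1))]
    ring
  rcases le_or_gt u b with h2 | h2
  · rw [← intervalIntegral.integral_add_adjacent_intervals (b := u)
      ((ii_kk hl u a u).const_mul l) ((ii_kk hl u u b).const_mul l), kk_left h1.le le_rfl,
      kk_right le_rfl h2, indicator_of_mem (show u ∈ Ioc a b from ⟨h1, h2⟩)]
    have e1 : kk l u u = 1 := by simp [kk]
    have e2 : kk l a u = 0 := by simp [kk, not_le.2 h1]
    rw [e1, e2]
    ring
  · rw [kk_left hab h2.le, indicator_of_notMem (fun h => absurd h.2 (not_le.2 h2))]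
    have e1 : kk l b u = 0 := by simp [kk, not_le.2 h2]
    have e2 : kk l a u = 0 := by simp [kk, not_le.2 h1]
    rw [e1, e2]
    ring

/-- **The exact identity.** -/
theorem ioc_eq [IsProbabilityMeasure μ] (hl : 0 < l) {a b : ℝ} (hab : a ≤ b) :
    μ.real (Ioc a b) = (∫ y in a..b, l * rr μ l y) + rr μ l b - rr μ l a := by
  have hi : Integrable (Function.uncurry fun y u => l * kk l y u)
      ((volume.restrict (Ioc a b)).prod μ) := by
    refine Integrable.of_bound (C := l) ((meas_kk l).const_mul l).aestronglyMeasurable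
      (Eventually.of_forall fun p => ?_)
    simp only [Function.uncurry, norm_mul, Real.norm_eq_abs, abs_of_pos hl]
    exact mul_le_of_le_one_right hl.le (norm_kk hl _ _)
  have h1 := integral_integral_swap hi
  have h2 : ∫ y in a..b, l * rr μ l y = ∫ y in Ioc a b, ∫ u, l * kk l y u ∂μ := by
    rw [intervalIntegral.integral_of_le hab]
    simp only [integral_const_mul, rr]
  have h3 : ∀ u, ∫ y in Ioc a b, l * kk l y u =
      (Ioc a b).indicator (fun _ => (1 : ℝ)) u - kk l b u + kk l a u := fun u => by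
    rw [← intervalIntegral.integral_of_le hab, kk_id hl hab]
  have hind : Integrable ((Ioc a b).indicator fun _ => (1 : ℝ)) μ :=
    (integrable_const _).indicator measurableSet_Ioc
  rw [h2, h1]
  simp only [h3]
  have hs : Integrable (fun u => (Ioc a b).indicator (fun _ => (1 : ℝ)) u - kk l b u) μ :=
    hind.sub (int_kk hl b)
  rw [integral_add hs (int_kk hl a), integral_sub hind (int_kk hl b),
    integral_indicator measurableSet_Ioc]
  simp only [integral_const, MeasurableSet.univ, measureReal_restrict_apply, univ_inter,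
    smul_eq_mul, mul_one, rr]
  ring

lemma rr_right [IsProbabilityMeasure μ] (hl : 0 < l) (y : ℝ) :
    ContinuousWithinAt (rr μ l) (Ici y) y := by
  refine tendsto_integral_filter_of_dominated_convergence (fun _ => (1 : ℝ))
    (Eventually.of_forall fun z => (meas_kk2 l z).aestronglyMeasurable)
    (Eventually.of_forall fun z => Eventually.of_forall fun u => norm_kk hl z u)
    (integrable_const _) (Eventually.of_forall fun u => ?_)
  rcases le_or_gt u y with h | h
  · have hc : Tendsto (fun z => Real.exp (l * (u - z))) (𝓝[Ici y] y)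
        (𝓝 (Real.exp (l * (u - y)))) :=
      (Continuous.tendsto (by fun_prop) y).mono_left nhdsWithin_le_nhds
    have e : kk l y u = Real.exp (l * (u - y)) := by simp [kk, h]
    rw [e]
    refine hc.congr' ?_
    filter_upwards [self_mem_nhdsWithin] with z hz
    simp [kk, h.trans hz]
  · have e : kk l y u = 0 := by simp [kk, not_le.2 h]
    rw [e]
    refine tendsto_const_nhds.congr' ?_
    filter_upwards [mem_nhdsWithin_of_mem_nhds (Iio_mem_nhds h)] with z hz
    simp [kk, not_le.2 (show z < u from hz)]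

lemma rr_top [IsProbabilityMeasure μ] (hl : 0 < l) : Tendsto (rr μ l) atTop (𝓝 0) := by
  have h := tendsto_integral_filter_of_dominated_convergence (μ := μ) (l := atTop)
    (F := fun z u => kk l z u) (f := fun _ => (0 : ℝ)) (fun _ => (1 : ℝ))
    (Eventually.of_forall fun z => (meas_kk2 l z).aestronglyMeasurable)
    (Eventually.of_forall fun z => Eventually.of_forall fun u => norm_kk hl z u)
    (integrable_const _) (Eventually.of_forall fun u => by
      have h1 : Tendsto (fun z : ℝ => l * (u - z)) atTop atBot :=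
        Tendsto.const_mul_atBot hl (tendsto_atBot_add_const_left _ u tendsto_neg_atTop_atBot)
      refine (Real.tendsto_exp_atBot.comp h1).congr' ?_
      filter_upwards [eventually_ge_atTop u] with z hz
      simp [kk, hz])
  rw [integral_zero] at h
  exact h

lemma rr_bot [IsProbabilityMeasure μ] (hl : 0 < l) : Tendsto (rr μ l) atBot (𝓝 0) := by
  have h := tendsto_integral_filter_of_dominated_convergence (μ := μ) (l := atBot)
    (F := fun z u => kk l z u) (f := fun _ => (0 : ℝ)) (fun _ => (1 : ℝ))
    (Eventually.of_forall fun z => (meas_kk2 l z).aestronglyMeasurable)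
    (Eventually.of_forall fun z => Eventually.of_forall fun u => norm_kk hl z u)
    (integrable_const _) (Eventually.of_forall fun u => by
      refine tendsto_const_nhds.congr' ?_
      filter_upwards [eventually_lt_atBot u] with z hz
      simp [kk, not_le.2 hz])
  rw [integral_zero] at h
  exact h

/-- the supremum of `rr` from a bound of the mass of the intervals of length `1 / l` -/
lemma rr_le [IsProbabilityMeasure μ] (hl : 0 < l) {s : ℝ}
    (hs : ∀ y, μ.real (Ioc (y - 1 / l) y) ≤ s) (y : ℝ) : rr μ l y ≤ 2 * s := by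
  have hb : BddAbove (range (rr μ l)) := ⟨1, by rintro _ ⟨z, rfl⟩; exact rr_le_one hl z⟩
  obtain ⟨S, hS⟩ : ∃ S, S = sSup (range (rr μ l)) := ⟨_, rfl⟩
  have h1 : ∀ z, rr μ l z ≤ S := fun z => by rw [hS]; exact le_csSup hb ⟨z, rfl⟩
  have hS0 : 0 ≤ S := (rr_nonneg μ l 0).trans (h1 0)
  have he : Real.exp (-1) ≤ 1 / 2 := by
    rw [Real.exp_neg, inv_eq_one_div]
    refine one_div_le_one_div_of_le (by norm_num) ?_
    linarith [Real.add_one_le_exp (1 : ℝ)]
  have h2 : ∀ z, rr μ l z ≤ s + 1 / 2 * S := by
    intro z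
    have hind : Integrable ((Ioc (z - 1 / l) z).indicator fun _ => (1 : ℝ)) μ :=
      (integrable_const _).indicator measurableSet_Ioc
    have h3 : ∀ u, kk l z u ≤ (Ioc (z - 1 / l) z).indicator (fun _ => (1 : ℝ)) u +
        1 / 2 * kk l (z - 1 / l) u := by
      intro u
      have hl' : 0 < 1 / l := by positivity
      have k0 := kk_nonneg l (z - 1 / l) u
      rcases le_or_gt u (z - 1 / l) with h | h
      · rw [indicator_of_notMem (fun h' => absurd h'.1 (not_lt.2 h))]
        have e1 : kk l z u = Real.exp (-1) * Real.exp (l * (u - (z - 1 / l))) := by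
          have : u ≤ z := by linarith
          simp only [kk, if_pos this]
          rw [← Real.exp_add]
          congr 1
          field_simp
          ring
        have e2 : kk l (z - 1 / l) u = Real.exp (l * (u - (z - 1 / l))) := by
          simp only [kk, if_pos h]
        rw [e1, e2, zero_add]
        exact mul_le_mul_of_nonneg_right he (Real.exp_pos _).le
      · rcases le_or_gt u z with h' | h'
        · rw [indicator_of_mem (show u ∈ Ioc (z - 1 / l) z from ⟨h, h'⟩)]
          linarith [kk_le_one hl z u]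
        · rw [indicator_of_notMem (fun h'' => absurd h''.2 (not_le.2 h'))]
          have e1 : kk l z u = 0 := by simp [kk, not_le.2 h']
          rw [e1]
          linarith
    have h4 := integral_mono (int_kk (μ := μ) hl z)
      (hind.add ((int_kk hl (z - 1 / l)).const_mul (1 / 2))) h3
    simp only [Pi.add_apply] at h4
    rw [integral_add hind ((int_kk hl (z - 1 / l)).const_mul (1 / 2)), integral_const_mul,
      integral_indicator measurableSet_Ioc] at h4
    simp only [integral_const, MeasurableSet.univ, measureReal_restrict_apply, univ_inter,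
      smul_eq_mul, mul_one] at h4
    have h5 := hs z
    have h6 := h1 (z - 1 / l)
    unfold rr at h6 ⊢
    linarith
  have h7 : S ≤ s + 1 / 2 * S := by
    have : sSup (range (rr μ l)) ≤ s + 1 / 2 * S :=
      csSup_le (range_nonempty _) (by rintro _ ⟨z, rfl⟩; exact h2 z)
    rwa [← hS] at this
  linarith [h1 y]

/-- quasi-concavity -/
def QC (q : ℝ → ℝ) : Prop := ∀ a b c : ℝ, a ≤ b → b ≤ c → min (q a) (q c) ≤ q b

lemma st_mass (f : StieltjesFunction ℝ) {M : ℝ} (h0 : ∀ x, 0 ≤ f x) (h1 : ∀ x, f x ≤ M) :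
    f.measure univ ≤ ENNReal.ofReal M := by
  have hu := tendsto_atTop_ciSup f.mono ⟨M, by rintro _ ⟨z, rfl⟩; exact h1 z⟩
  have hv := tendsto_atBot_ciInf f.mono ⟨0, by rintro _ ⟨z, rfl⟩; exact h0 z⟩
  rw [f.measure_univ hv hu]
  refine ENNReal.ofReal_le_ofReal ?_
  have a1 : ⨆ i, f i ≤ M := ciSup_le h1
  have a2 : 0 ≤ ⨅ i, f i := le_ciInf h0
  linarith

/-- the measure with the density `l * rr` -/
noncomputable def nq (μ : Measure ℝ) (l : ℝ) : Measure ℝ :=
  volume.withDensity fun y => ENNReal.ofReal (l * rr μ l y)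

lemma nq_Ioc [IsProbabilityMeasure μ] (hl : 0 < l) {a b : ℝ} (hab : a ≤ b) :
    nq μ l (Ioc a b) = ENNReal.ofReal (∫ y in a..b, l * rr μ l y) := by
  unfold nq
  rw [withDensity_apply _ measurableSet_Ioc, intervalIntegral.integral_of_le hab,
    ofReal_integral_eq_lintegral_ofReal]
  · exact ((ii_rr hl a b).const_mul l).1
  · exact Eventually.of_forall fun y => mul_nonneg hl.le (rr_nonneg μ l y)

/-- **Comparison of the measures.** -/
theorem tv_ennreal [IsProbabilityMeasure μ] (hl : 0 < l) (hq : QC (rr μ l)) {M : ℝ}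
    (hM : ∀ y, rr μ l y ≤ M) (A : Set ℝ) :
    μ A ≤ nq μ l A + ENNReal.ofReal M ∧ nq μ l A ≤ μ A + ENNReal.ofReal M := by
  obtain ⟨R, hR⟩ : ∃ R : ℝ → ℝ, R = fun y => sSup (rr μ l '' Iic y) := ⟨_, rfl⟩
  have hb : ∀ y, BddAbove (rr μ l '' Iic y) := fun y =>
    ⟨M, by rintro _ ⟨z, -, rfl⟩; exact hM z⟩
  have hne : ∀ y, (rr μ l '' Iic y).Nonempty := fun y => ⟨_, y, le_refl y, rfl⟩
  have r1 : ∀ {z y}, z ≤ y → rr μ l z ≤ R y := fun {z y} h => by
    rw [hR]; exact le_csSup (hb y) ⟨z, h, rfl⟩
  have r2 : ∀ {y c}, (∀ z, z ≤ y → rr μ l z ≤ c) → R y ≤ c := fun {y c} h => by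
    rw [hR]; exact csSup_le (hne y) (by rintro _ ⟨z, hz, rfl⟩; exact h z hz)
  have rm : Monotone R := fun a b hab => r2 fun z hz => r1 (hz.trans hab)
  have rc : ∀ y, ContinuousWithinAt R (Ici y) y := by
    intro y
    rw [Metric.continuousWithinAt_iff]
    intro ε hε
    obtain ⟨δ, hδ, h⟩ := Metric.continuousWithinAt_iff.1 (rr_right (μ := μ) hl y) (ε / 2)
      (by positivity)
    refine ⟨δ, hδ, fun x hx hd => ?_⟩
    have hyx : y ≤ x := hx
    have a1 := rm hyx
    have a2 : R x ≤ R y + ε / 2 := r2 fun z hz => by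
      rcases le_total z y with h1 | h1
      · linarith [r1 h1]
      · have h2 : dist z y < δ := by
          rw [Real.dist_eq, abs_of_nonneg (by linarith)] at hd ⊢
          linarith
        have h3 := h (show z ∈ Ici y from h1) h2
        rw [Real.dist_eq] at h3
        linarith [(abs_lt.1 h3).2, r1 (le_refl y)]
    rw [Real.dist_eq, abs_of_nonneg (by linarith)]
    linarith
  have hm : Monotone fun y => R y - rr μ l y := by
    intro a b hab
    simp only
    have : R a ≤ R b - rr μ l b + rr μ l a := r2 fun z hz => by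
      have h1 := hq z a b hz hab
      rcases min_le_iff.1 h1 with h2 | h2
      · linarith [r1 (le_refl b)]
      · linarith [r1 (hz.trans hab)]
    linarith
  let f1 : StieltjesFunction ℝ := ⟨R, rm, rc⟩
  let f2 : StieltjesFunction ℝ := ⟨fun y => R y - rr μ l y, hm, fun y => (rc y).sub (rr_right hl y)⟩
  have m1 : f1.measure univ ≤ ENNReal.ofReal M :=
    st_mass f1 (fun x => (rr_nonneg μ l x).trans (r1 (le_refl x))) fun x => r2 fun z _ => hM z
  have m2 : f2.measure univ ≤ ENNReal.ofReal M :=
    st_mass f2 (fun x => sub_nonneg.2 (r1 (le_refl x))) fun x =>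
      (sub_le_self _ (rr_nonneg μ l x)).trans (r2 fun z _ => hM z)
  have : IsFiniteMeasure f2.measure := ⟨m2.trans_lt ENNReal.ofReal_lt_top⟩
  have key : μ + f2.measure = nq μ l + f1.measure := by
    refine Measure.ext_of_Ioc _ _ fun a b hab => ?_
    rw [Measure.add_apply, Measure.add_apply, f1.measure_Ioc, f2.measure_Ioc, nq_Ioc hl hab.le,
      ← ofReal_measureReal (μ := μ)]
    have p1 : 0 ≤ ∫ y in a..b, l * rr μ l y :=
      intervalIntegral.integral_nonneg hab.le fun y _ => mul_nonneg hl.le (rr_nonneg μ l y)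
    have p2 : 0 ≤ f1 b - f1 a := sub_nonneg.2 (f1.mono hab.le)
    have p3 : 0 ≤ f2 b - f2 a := sub_nonneg.2 (f2.mono hab.le)
    rw [← ENNReal.ofReal_add measureReal_nonneg p3, ← ENNReal.ofReal_add p1 p2, ioc_eq hl hab.le]
    congr 1
    change _ + ((R b - rr μ l b) - (R a - rr μ l a)) = _ + (R b - R a)
    ring
  have k : μ A + f2.measure A = nq μ l A + f1.measure A := by
    rw [← Measure.add_apply, ← Measure.add_apply, key]
  constructor
  · calc μ A ≤ μ A + f2.measure A := le_self_add
      _ = nq μ l A + f1.measure A := k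
      _ ≤ _ := add_le_add le_rfl ((measure_mono (subset_univ A)).trans m1)
  · calc nq μ l A ≤ nq μ l A + f1.measure A := le_self_add
      _ = μ A + f2.measure A := k.symm
      _ ≤ _ := add_le_add le_rfl ((measure_mono (subset_univ A)).trans m2)

/-- the smoothed density has total mass one -/
theorem int_q [IsProbabilityMeasure μ] (hl : 0 < l) :
    Integrable (fun y => l * rr μ l y) ∧ ∫ y, l * rr μ l y = 1 := by
  have h0 : ∀ y, 0 ≤ l * rr μ l y := fun y => mul_nonneg hl.le (rr_nonneg μ l y)
  have ta : Tendsto (fun k : ℕ => -(k : ℝ)) atTop atBot :=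
    tendsto_neg_atTop_atBot.comp tendsto_natCast_atTop_atTop
  have tb : Tendsto (fun k : ℕ => (k : ℝ)) atTop atTop := tendsto_natCast_atTop_atTop
  have hab : ∀ k : ℕ, -(k : ℝ) ≤ k := fun k => by
    have : (0 : ℝ) ≤ k := Nat.cast_nonneg k
    linarith
  have hi : Integrable (fun y => l * rr μ l y) := by
    refine integrable_of_intervalIntegral_norm_bounded 2 (fun k => ?_) ta tb
      (Eventually.of_forall fun k => ?_)
    · exact ((ii_rr hl _ _).const_mul l).1
    · have e : ∫ y in (-(k : ℝ))..k, ‖l * rr μ l y‖ = ∫ y in (-(k : ℝ))..k, l * rr μ l y := by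
        congr 1
        funext y
        rw [Real.norm_eq_abs, abs_of_nonneg (h0 y)]
      rw [e]
      have h1 := ioc_eq (μ := μ) hl (hab k)
      have h2 : μ.real (Ioc (-(k : ℝ)) k) ≤ 1 := measureReal_le_one
      linarith [rr_nonneg μ l k, rr_le_one (μ := μ) hl (-(k : ℝ))]
  refine ⟨hi, ?_⟩
  have t1 := intervalIntegral_tendsto_integral hi ta tb
  have t2 := intervalIntegral_tendsto_integral (μ := μ) (integrable_const (1 : ℝ)) ta tb
  have t3 := (t2.sub ((rr_top (μ := μ) hl).comp tb)).add ((rr_bot (μ := μ) hl).comp ta)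
  simp only [integral_const, probReal_univ, smul_eq_mul, mul_one, sub_zero, add_zero] at t3
  refine tendsto_nhds_unique t1 (t3.congr fun k => ?_)
  have h1 := ioc_eq (μ := μ) hl (hab k)
  rw [intervalIntegral.integral_of_le (hab k) (μ := μ)]
  simp only [integral_const, MeasurableSet.univ, measureReal_restrict_apply, univ_inter,
    smul_eq_mul, mul_one, Function.comp]
  linarith

/-- **Total variation distance to the smoothed density.** -/
theorem tv [IsProbabilityMeasure μ] (hl : 0 < l) (hq : QC (rr μ l)) {M : ℝ}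
    (hM : ∀ y, rr μ l y ≤ M) {A : Set ℝ} (hA : MeasurableSet A) :
    |μ.real A - ∫ y in A, l * rr μ l y| ≤ M := by
  have hM0 : 0 ≤ M := (rr_nonneg μ l 0).trans (hM 0)
  have h0 : ∀ y, 0 ≤ l * rr μ l y := fun y => mul_nonneg hl.le (rr_nonneg μ l y)
  have e : nq μ l A = ENNReal.ofReal (∫ y in A, l * rr μ l y) := by
    unfold nq
    rw [withDensity_apply _ hA, ofReal_integral_eq_lintegral_ofReal (int_q hl).1.integrableOn
      (Eventually.of_forall h0)]
  have p1 : 0 ≤ ∫ y in A, l * rr μ l y := integral_nonneg h0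
  obtain ⟨h1, h2⟩ := tv_ennreal hl hq hM A
  rw [e, ← ofReal_measureReal (μ := μ)] at h1 h2
  rw [← ENNReal.ofReal_add p1 hM0, ENNReal.ofReal_le_ofReal_iff (by positivity)] at h1
  rw [← ENNReal.ofReal_add measureReal_nonneg hM0,
    ENNReal.ofReal_le_ofReal_iff (add_nonneg measureReal_nonneg hM0)] at h2
  rw [abs_le]
  constructor <;> linarith

end Vale.Agent.N146.Llt
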