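import Vale.Agent.N146.Llt1

/-!
# P146: convergence of log-concave densities

If the integrals over intervals of quasi-concave (log-concave) functions `q j` converge to those
of `p`, then `q j` converges to `p` from below almost everywhere (locally uniformly at the points
where `p` is continuous and positive).  With `Llt1`: weak convergence of laws which are log-concave
after exponential smoothing implies convergence in total variation and a local limit theorem at
all scales.
-/

open MeasureTheory Filter Topology Set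

namespace Vale.Agent.N146.Llt

/-- log-concavity, product form -/
def LC (q : ℝ → ℝ) : Prop := ∀ s t : ℝ, 0 < s → 0 < t → s + t = 1 → ∀ x y : ℝ,
  q x ^ s * q y ^ t ≤ q (s * x + t * y)

lemma LC.const_mul {q : ℝ → ℝ} (h : LC q) (h0 : ∀ x, 0 ≤ q x) {l : ℝ} (hl : 0 < l) :
    LC fun y => l * q y := by
  intro s t hs ht hst x y
  simp only
  rw [Real.mul_rpow hl.le (h0 x), Real.mul_rpow hl.le (h0 y)]
  have e : l ^ s * q x ^ s * (l ^ t * q y ^ t) = l ^ (s + t) * (q x ^ s * q y ^ t) := by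
    rw [Real.rpow_add hl]
    ring
  rw [e, hst, Real.rpow_one]
  exact mul_le_mul_of_nonneg_left (h s t hs ht hst x y) hl.le

lemma LC.qc {q : ℝ → ℝ} (h : LC q) (h0 : ∀ x, 0 ≤ q x) : QC q := by
  intro a b c hab hbc
  rcases hab.eq_or_lt with rfl | h1
  · exact min_le_left _ _
  rcases hbc.eq_or_lt with rfl | h2
  · exact min_le_right _ _
  have hca : 0 < c - a := by linarith
  have hs : 0 < (c - b) / (c - a) := div_pos (by linarith) hca
  have ht : 0 < (b - a) / (c - a) := div_pos (by linarith) hca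
  have hst : (c - b) / (c - a) + (b - a) / (c - a) = 1 := by field_simp; ring
  have h3 := h _ _ hs ht hst a c
  have e : (c - b) / (c - a) * a + (b - a) / (c - a) * c = b := by field_simp; ring
  rw [e] at h3
  refine le_trans ?_ h3
  have hm : 0 ≤ min (q a) (q c) := le_min (h0 a) (h0 c)
  calc min (q a) (q c) = min (q a) (q c) ^ ((c - b) / (c - a) + (b - a) / (c - a)) := by
        rw [hst, Real.rpow_one]
    _ = min (q a) (q c) ^ ((c - b) / (c - a)) * min (q a) (q c) ^ ((b - a) / (c - a)) :=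
        Real.rpow_add' hm (by rw [hst]; norm_num)
    _ ≤ _ := mul_le_mul (Real.rpow_le_rpow hm (min_le_left _ _) hs.le)
        (Real.rpow_le_rpow hm (min_le_right _ _) ht.le) (Real.rpow_nonneg hm _)
        (Real.rpow_nonneg (h0 a) _)

lemma QC.const_mul {q : ℝ → ℝ} (h : QC q) {l : ℝ} (hl : 0 < l) : QC fun y => l * q y := by
  intro a b c hab hbc
  have h1 := mul_le_mul_of_nonneg_left (h a b c hab hbc) hl.le
  rwa [mul_min_of_nonneg _ _ hl.le] at h1

lemma exists_gt_avg {f : ℝ → ℝ} {a b c : ℝ} (hab : a < b) (hf : IntervalIntegrable f volume a b)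
    (h : c * (b - a) < ∫ y in a..b, f y) : ∃ t ∈ Ioo a b, c < f t := by
  by_contra hc
  push Not at hc
  have h1 := intervalIntegral.integral_mono_on_of_le_Ioo hab.le hf
    (intervalIntegrable_const (c := c)) hc
  rw [intervalIntegral.integral_const, smul_eq_mul] at h1
  linarith

lemma exists_lt_avg {f : ℝ → ℝ} {a b c : ℝ} (hab : a < b) (hf : IntervalIntegrable f volume a b)
    (h : ∫ y in a..b, f y < c * (b - a)) : ∃ t ∈ Ioo a b, f t < c := by
  by_contra hc
  push Not at hc
  have h1 := intervalIntegral.integral_mono_on_of_le_Ioo hab.le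
    (intervalIntegrable_const (c := c)) hf hc
  rw [intervalIntegral.integral_const, smul_eq_mul] at h1
  linarith

/-- the integrals over intervals converge -/
structure Conv (q : ℕ → ℝ → ℝ) (p : ℝ → ℝ) : Prop where
  iq : ∀ j a b, IntervalIntegrable (q j) volume a b
  ip : ∀ a b, IntervalIntegrable p volume a b
  lim : ∀ a b, a < b → Tendsto (fun j => ∫ y in a..b, q j y) atTop (𝓝 (∫ y in a..b, p y))

variable {q : ℕ → ℝ → ℝ} {p : ℝ → ℝ}

lemma Conv.gt (h : Conv q p) {a b c : ℝ} (hab : a < b) (hc : c * (b - a) < ∫ y in a..b, p y) :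
    ∀ᶠ j in atTop, ∃ t ∈ Ioo a b, c < q j t := by
  filter_upwards [(h.lim a b hab).eventually_const_lt hc] with j hj
  exact exists_gt_avg hab (h.iq j a b) hj

lemma Conv.lt (h : Conv q p) {a b c : ℝ} (hab : a < b) (hc : ∫ y in a..b, p y < c * (b - a)) :
    ∀ᶠ j in atTop, ∃ t ∈ Ioo a b, q j t < c := by
  filter_upwards [(h.lim a b hab).eventually_lt_const hc] with j hj
  exact exists_lt_avg hab (h.iq j a b) hj

/-- the lower bound between two windows -/
lemma Conv.lower (h : Conv q p) (hq : ∀ j, QC (q j)) {a b c d κ : ℝ} (hab : a < b) (hcd : c < d)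
    (h1 : κ * (b - a) < ∫ y in a..b, p y) (h2 : κ * (d - c) < ∫ y in c..d, p y) :
    ∀ᶠ j in atTop, ∀ y ∈ Icc b c, κ < q j y := by
  filter_upwards [h.gt hab h1, h.gt hcd h2] with j ⟨t1, ht1, k1⟩ ⟨t2, ht2, k2⟩ y hy
  exact (lt_min k1 k2).trans_le (hq j t1 y t2 (ht1.2.le.trans hy.1) (hy.2.trans ht2.1.le))

/-- convergence from below, almost everywhere -/
lemma Conv.ae_lower (h : Conv q p) (hq : ∀ j, QC (q j)) (hp : Integrable p) :
    ∀ᵐ x, Tendsto (fun j => max (p x - q j x) 0) atTop (𝓝 0) := by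
  filter_upwards [LocallyIntegrable.ae_hasDerivAt_integral hp.locallyIntegrable] with x hx
  have hd := hx x
  rw [Metric.tendsto_nhds]
  intro ε hε
  have hκ : p x - ε / 2 < p x := by linarith
  have r1 := (hd.tendsto_slope_zero_right.eventually_const_lt hκ).and self_mem_nhdsWithin
  have r2 := (hd.tendsto_slope_zero_left.eventually_const_lt hκ).and self_mem_nhdsWithin
  obtain ⟨t, k1, ht⟩ := r1.exists
  obtain ⟨s, k2, hs⟩ := r2.exists
  have ht0 : 0 < t := ht
  have hs0 : s < 0 := hs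
  simp only [intervalIntegral.integral_same, sub_zero, smul_eq_mul] at k1 k2
  have a1 : (p x - ε / 2) * (x + t - x) < ∫ y in x..(x + t), p y := by
    rw [add_sub_cancel_left]
    rw [← div_eq_inv_mul, lt_div_iff₀ ht0] at k1
    exact k1
  have a2 : (p x - ε / 2) * (x - (x + s)) < ∫ y in (x + s)..x, p y := by
    rw [intervalIntegral.integral_symm]
    rw [← div_eq_inv_mul, lt_div_iff_of_neg hs0] at k2
    linarith
  filter_upwards [h.lower hq (by linarith : x + s < x) (by linarith : x < x + t) a2 a1] with j hj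
  have := hj x ⟨le_rfl, le_rfl⟩
  rw [Real.dist_eq, sub_zero, abs_of_nonneg (le_max_right _ _)]
  exact max_lt (by linarith) hε

lemma Conv.l1_lower (h : Conv q p) (hq : ∀ j, QC (q j)) (hp : Integrable p)
    (hp0 : ∀ x, 0 ≤ p x) (h0 : ∀ j x, 0 ≤ q j x) (hi : ∀ j, Integrable (q j)) :
    Tendsto (fun j => ∫ x, max (p x - q j x) 0) atTop (𝓝 0) := by
  have h1 := tendsto_integral_of_dominated_convergence (F := fun j x => max (p x - q j x) 0)
    (f := fun _ => (0 : ℝ)) p
    (fun j => ((hp.sub (hi j)).pos_part).aestronglyMeasurable) hp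
    (fun j => Eventually.of_forall fun x => by
      rw [Real.norm_eq_abs, abs_of_nonneg (le_max_right _ _)]
      exact max_le (by linarith [h0 j x]) (hp0 x))
    (h.ae_lower hq hp)
  rwa [integral_zero] at h1

lemma avg_lo {a b c : ℝ} (hab : a < b) (hp : IntervalIntegrable p volume a b)
    (h : ∀ y ∈ Icc a b, c ≤ p y) {c' : ℝ} (hc : c' < c) : c' * (b - a) < ∫ y in a..b, p y := by
  have h1 := intervalIntegral.integral_mono_on hab.le (intervalIntegrable_const (c := c)) hp h
  rw [intervalIntegral.integral_const, smul_eq_mul] at h1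
  nlinarith

lemma avg_hi {a b c : ℝ} (hab : a < b) (hp : IntervalIntegrable p volume a b)
    (h : ∀ y ∈ Icc a b, p y ≤ c) {c' : ℝ} (hc : c < c') : ∫ y in a..b, p y < c' * (b - a) := by
  have h1 := intervalIntegral.integral_mono_on hab.le hp (intervalIntegrable_const (c := c)) h
  rw [intervalIntegral.integral_const, smul_eq_mul] at h1
  nlinarith

/-- the upper bound by extrapolation -/
lemma LC.upper {f : ℝ → ℝ} (h : LC f) (h0 : ∀ x, 0 ≤ f x) {y t2 t0 m B : ℝ} (h1 : y < t2)
    (h2 : t2 < t0) (h3 : t0 - y ≤ 6 * (t0 - t2)) (hm : 0 < m) (hmB : m ≤ B) (k0 : m ≤ f t0)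
    (k2 : f t2 ≤ B) : f y ≤ m * (B / m) ^ 6 := by
  have hB1 : 1 ≤ B / m := (one_le_div hm).2 hmB
  rcases le_total (f y) m with hle | hge
  · exact hle.trans (le_mul_of_one_le_right hm.le (one_le_pow₀ hB1))
  have hd : 0 < t0 - y := by linarith
  obtain ⟨s, hs⟩ : ∃ s, s = (t0 - t2) / (t0 - y) := ⟨_, rfl⟩
  have hs0 : 0 < s := by rw [hs]; exact div_pos (by linarith) hd
  have hs6 : 1 / 6 ≤ s := by rw [hs, le_div_iff₀ hd]; linarith
  have hs1 : s < 1 := by rw [hs, div_lt_one hd]; linarith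
  have h4 := h s (1 - s) hs0 (by linarith) (by ring) y t0
  have e : s * y + (1 - s) * t0 = t2 := by rw [hs]; field_simp; ring
  rw [e] at h4
  obtain ⟨ρ, hρ⟩ : ∃ ρ, ρ = f y / m := ⟨_, rfl⟩
  have hρ1 : 1 ≤ ρ := by rw [hρ]; exact (one_le_div hm).2 hge
  have e2 : f y = m * ρ := by rw [hρ]; field_simp
  have h5 : m * ρ ^ s ≤ B := by
    have a1 : m ^ (1 - s) ≤ f t0 ^ (1 - s) := Real.rpow_le_rpow hm.le k0 (by linarith)
    have a2 : f y ^ s * m ^ (1 - s) ≤ B :=
      (mul_le_mul_of_nonneg_left a1 (Real.rpow_nonneg (h0 y) _)).trans (h4.trans k2)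
    rw [e2, Real.mul_rpow hm.le (by linarith)] at a2
    have a3 : m ^ s * ρ ^ s * m ^ (1 - s) = m ^ (s + (1 - s)) * ρ ^ s := by
      rw [Real.rpow_add hm]
      ring
    rwa [a3, add_sub_cancel, Real.rpow_one] at a2
  have h6 : ρ ^ (1 / 6 : ℝ) ≤ B / m := by
    rw [le_div_iff₀ hm, mul_comm]
    exact (mul_le_mul_of_nonneg_left (Real.rpow_le_rpow_of_exponent_le hρ1 hs6) hm.le).trans h5
  have h7 : ρ ≤ (B / m) ^ 6 := by
    have a1 := pow_le_pow_left₀ (Real.rpow_nonneg (by linarith) _) h6 6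
    rwa [← Real.rpow_natCast, ← Real.rpow_mul (by linarith),
      show (1 / 6 : ℝ) * ((6 : ℕ) : ℝ) = 1 by norm_num, Real.rpow_one] at a1
  rw [e2]
  exact mul_le_mul_of_nonneg_left h7 hm.le

/-- **Local uniform convergence.** -/
theorem Conv.local (h : Conv q p) (hq : ∀ j, LC (q j)) (h0 : ∀ j x, 0 ≤ q j x) {x : ℝ}
    (hc : ContinuousAt p x) (hx : 0 < p x) {ε : ℝ} (hε : 0 < ε) :
    ∃ δ : ℝ, 0 < δ ∧ ∀ᶠ j in atTop, ∀ y ∈ Icc (x - δ) (x + δ), |q j y - p x| ≤ ε := by
  obtain ⟨P, hP⟩ : ∃ P, P = p x := ⟨_, rfl⟩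
  rw [← hP] at hx ⊢
  have c1 : ContinuousAt (fun η : ℝ => (P - 2 * η) * ((P + 2 * η) / (P - 2 * η)) ^ 6) 0 := by
    refine ContinuousAt.mul (by fun_prop) (ContinuousAt.pow (ContinuousAt.div (by fun_prop)
      (by fun_prop) (by simpa using hx.ne')) 6)
  have c2 : (fun η : ℝ => (P - 2 * η) * ((P + 2 * η) / (P - 2 * η)) ^ 6) 0 < P + ε := by
    simp only [mul_zero, sub_zero, add_zero, div_self hx.ne', one_pow, mul_one]
    linarith
  have c3 : ∀ᶠ η in 𝓝[>] (0 : ℝ), (P - 2 * η) * ((P + 2 * η) / (P - 2 * η)) ^ 6 < P + ε ∧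
      η < min (P / 2) (ε / 2) ∧ 0 < η :=
    ((c1.eventually_lt_const c2).filter_mono nhdsWithin_le_nhds).and
      (((eventually_lt_nhds (lt_min (by linarith) (by linarith))).filter_mono
        nhdsWithin_le_nhds).and self_mem_nhdsWithin)
  obtain ⟨η, e1, e2, hη⟩ := c3.exists
  have e3 : η < P / 2 := e2.trans_le (min_le_left _ _)
  have e4 : η < ε / 2 := e2.trans_le (min_le_right _ _)
  obtain ⟨δ0, hδ0, hb⟩ := Metric.continuousAt_iff.1 hc η hη
  obtain ⟨δ, hδ⟩ : ∃ δ, δ = δ0 / 6 := ⟨_, rfl⟩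
  have hδp : 0 < δ := by rw [hδ]; positivity
  have hnear : ∀ y, x - 5 * δ ≤ y → y ≤ x + 5 * δ → P - η ≤ p y ∧ p y ≤ P + η := by
    intro y h1 h2
    have h3 : dist y x < δ0 := by
      rw [Real.dist_eq, abs_lt]
      constructor <;> linarith
    have h4 := hb h3
    rw [Real.dist_eq, ← hP, abs_lt] at h4
    constructor <;> linarith [h4.1, h4.2]
  refine ⟨δ, hδp, ?_⟩
  have l1 := h.lower (fun j => (hq j).qc (h0 j)) (a := x - 2 * δ) (b := x - δ) (c := x + δ)
    (d := x + 2 * δ) (κ := P - 2 * η) (by linarith) (by linarith)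
    (avg_lo (by linarith) (h.ip _ _)
      (fun y hy => (hnear y (by linarith [hy.1]) (by linarith [hy.2])).1) (by linarith))
    (avg_lo (by linarith) (h.ip _ _)
      (fun y hy => (hnear y (by linarith [hy.1]) (by linarith [hy.2])).1) (by linarith))
  have l2 := h.gt (a := x + 4 * δ) (b := x + 5 * δ) (c := P - 2 * η) (by linarith)
    (avg_lo (by linarith) (h.ip _ _)
      (fun y hy => (hnear y (by linarith [hy.1]) (by linarith [hy.2])).1) (by linarith))
  have l3 := h.lt (a := x + 2 * δ) (b := x + 3 * δ) (c := P + 2 * η) (by linarith)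
    (avg_hi (by linarith) (h.ip _ _)
      (fun y hy => (hnear y (by linarith [hy.1]) (by linarith [hy.2])).2) (by linarith))
  filter_upwards [l1, l2, l3] with j k1 ⟨t0, ht0, k2⟩ ⟨t2, ht2, k3⟩ y hy
  have u := (hq j).upper (h0 j) (y := y) (t2 := t2) (t0 := t0) (m := P - 2 * η) (B := P + 2 * η)
    (by linarith [hy.2, ht2.1]) (by linarith [ht2.2, ht0.1])
    (by linarith [hy.1, ht2.2, ht0.1, ht0.2]) (by linarith) (by linarith) k2.le k3.le
  have v := k1 y hy
  rw [abs_le]
  constructor <;> linarith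

/-- one step of the Lipschitz bound -/
lemma LC.step {f : ℝ → ℝ} (h : LC f) {u w t : ℝ} (ht : 0 < t) (ht1 : t < 1) (hu : 0 < f u)
    (hw : f u / 4 ≤ f w) : f u - f ((1 - t) * u + t * w) ≤ 3 * t * f u := by
  have h1 := h (1 - t) t (by linarith) ht (by ring) u w
  have hw0 : 0 < f u / 4 := by positivity
  have h2 : (f u / 4) ^ t ≤ f w ^ t := Real.rpow_le_rpow hw0.le hw ht.le
  have h3 : f u ^ (1 - t) * (f u / 4) ^ t = f u * (1 / 4 : ℝ) ^ t := by
    rw [div_eq_mul_one_div (f u) 4, Real.mul_rpow hu.le (by norm_num), ← mul_assoc,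
      ← Real.rpow_add hu, sub_add_cancel, Real.rpow_one]
  have h4 : 1 - 3 * t ≤ (1 / 4 : ℝ) ^ t := by
    rw [Real.rpow_def_of_pos (by norm_num)]
    have a1 := Real.add_one_le_exp (Real.log (1 / 4) * t)
    have a2 := Real.one_sub_inv_le_log_of_pos (show (0 : ℝ) < 1 / 4 by norm_num)
    have a3 : (-3 : ℝ) ≤ Real.log (1 / 4) := by
      refine le_trans (le_of_eq ?_) a2
      norm_num
    nlinarith
  have h5 := mul_le_mul_of_nonneg_left h2 (Real.rpow_nonneg hu.le (1 - t))
  have h6 := mul_le_mul_of_nonneg_left h4 hu.le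
  nlinarith

/-- the Lipschitz bound in the bulk -/
lemma LC.lip {f : ℝ → ℝ} (h : LC f) {x δ P : ℝ} (hδ : 0 < δ) (hP : 0 < P)
    (hb : ∀ y ∈ Icc (x - 2 * δ) (x + 2 * δ), P / 2 ≤ f y ∧ f y ≤ 2 * P) {a b : ℝ}
    (ha : x - δ ≤ a) (hab : a < b) (hb' : b ≤ x + δ) : |f b - f a| ≤ 6 * P / δ * (b - a) := by
  have ba := hb a ⟨by linarith, by linarith⟩
  have bb := hb b ⟨by linarith, by linarith⟩
  have key : ∀ t D, 0 < t → t * D = b - a → δ ≤ D → ∀ z, z ≤ 2 * P →
      3 * t * z ≤ 6 * P / δ * (b - a) := by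
    intro t D ht hD hδD z hz
    have h1 : 3 * t * z ≤ 3 * t * (2 * P) := mul_le_mul_of_nonneg_left hz (by positivity)
    refine h1.trans ?_
    rw [← hD, div_mul_eq_mul_div, le_div_iff₀ hδ]
    have : 0 ≤ P * t := by positivity
    nlinarith
  rw [abs_le]
  constructor
  · have hD : 0 < x + 2 * δ - a := by linarith
    have bw := hb (x + 2 * δ) ⟨by linarith, le_rfl⟩
    have ht : 0 < (b - a) / (x + 2 * δ - a) := div_pos (by linarith) hD
    have h1 := h.step (u := a) (w := x + 2 * δ) ht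
      ((div_lt_one hD).2 (by linarith)) (by linarith [ba.1]) (by linarith [ba.2, bw.1])
    have e : (1 - (b - a) / (x + 2 * δ - a)) * a + (b - a) / (x + 2 * δ - a) * (x + 2 * δ) = b := by
      field_simp
      ring
    rw [e] at h1
    have h2 := key _ (x + 2 * δ - a) ht (by field_simp) (by linarith) _ ba.2
    linarith
  · have hD : 0 < b - (x - 2 * δ) := by linarith
    have bw := hb (x - 2 * δ) ⟨le_rfl, by linarith⟩
    have ht : 0 < (b - a) / (b - (x - 2 * δ)) := div_pos (by linarith) hD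
    have h1 := h.step (u := b) (w := x - 2 * δ) ht
      ((div_lt_one hD).2 (by linarith)) (by linarith [bb.1]) (by linarith [bb.2, bw.1])
    have e : (1 - (b - a) / (b - (x - 2 * δ))) * b +
        (b - a) / (b - (x - 2 * δ)) * (x - 2 * δ) = a := by
      field_simp
      ring
    rw [e] at h1
    have h2 := key _ (b - (x - 2 * δ)) ht (by field_simp) (by linarith) _ bb.2
    linarith

/-- a log-concave function is continuous between two points where it is positive -/
theorem LC.continuousAt {f : ℝ → ℝ} (h : LC f) (h0 : ∀ x, 0 ≤ f x) {a x c : ℝ} (hax : a < x)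
    (hxc : x < c) (ha : 0 < f a) (hc : 0 < f c) : 0 < f x ∧ ContinuousAt f x := by
  have hpos : ∀ y ∈ Icc a c, 0 < f y := fun y hy =>
    (lt_min ha hc).trans_le (h.qc h0 a y c hy.1 hy.2)
  have hcon : ConcaveOn ℝ (Icc a c) fun y => Real.log (f y) := by
    refine concaveOn_iff_forall_pos.2 ⟨convex_Icc a c, fun u hu v hv s t hs ht hst => ?_⟩
    have h1 := h s t hs ht hst u v
    have p1 := Real.rpow_pos_of_pos (hpos u hu) s
    have p2 := Real.rpow_pos_of_pos (hpos v hv) t
    have h2 := Real.log_le_log (mul_pos p1 p2) h1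
    rw [Real.log_mul p1.ne' p2.ne', Real.log_rpow (hpos u hu), Real.log_rpow (hpos v hv)] at h2
    simpa using h2
  have hmem : Ioo a c ∈ 𝓝 x := Ioo_mem_nhds hax hxc
  have h3 := hcon.continuousOn_interior
  rw [interior_Icc] at h3
  have h4 := (h3.continuousAt hmem).rexp
  refine ⟨hpos x ⟨hax.le, hxc.le⟩, h4.congr ?_⟩
  filter_upwards [hmem] with y hy
  exact Real.exp_log (hpos y ⟨hy.1.le, hy.2.le⟩)

end Vale.Agent.N146.Llt
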