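import Vale.Agent.N146.LogA
import Vale.Agent.N146.Arr
import Vale.Agent.N146.Slow

/-!
# P146: the law of the logarithm for the free energies of the growing system
-/

open MeasureTheory ProbabilityTheory Filter Topology

namespace Vale.Agent.N146.Log

open Vale.Agent.P146 Vale.Agent.N146.Slow Vale.Agent.N146.LogA
open Vale.Agent.P146.H196 (meanF)

section Gauss

set_option linter.unusedSectionVars false

variable {ι S : Type} [Fintype ι] [Fintype S] [Nonempty S]

/-- adding an independent Gaussian field -/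
theorem add_field_U (p : ι → Prop) [DecidablePred p] (c d : S → ι → ℝ) {v : ℝ}
    (hc : ∀ s e, ¬ p e → c s e = 0) (hd : ∀ s e, p e → d s e = 0)
    (hv : ∀ s, ∑ e, d s e ^ 2 ≤ v) :
    ∃ U : (ι → ℝ) → ℝ, Integrable U (γ ι) ∧ (∀ g, 0 < U g) ∧
      ∫ g, U g ∂(γ ι) ≤ 2 * Real.exp (v / 2) ∧ ∀ g, |LS (c + d) g - LS c g| ≤ Real.log (U g) := by
  set w : S → (ι → ℝ) → ℝ := fun s g => Real.exp (lin (c s) g) / ∑ s, Real.exp (lin (c s) g)
    with hw
  have w0 : ∀ s g, 0 ≤ w s g := fun s g => div_nonneg (Real.exp_pos _).le (Z_pos c g).le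
  have w1 : ∀ g, ∑ s, w s g = 1 := fun g => by
    simp only [hw]; rw [← Finset.sum_div, div_self (Z_pos c g).ne']
  have wle : ∀ s g, w s g ≤ 1 := fun s g => by
    rw [← w1 g]; exact Finset.single_le_sum (fun s _ => w0 s g) (Finset.mem_univ s)
  have wc : ∀ s, Continuous (w s) := fun s =>
    (Real.continuous_exp.comp (cont_lin _)).div (cont_Z c) fun g => (Z_pos c g).ne'
  have wi : ∀ s, Integrable (w s) (γ ι) := fun s =>
    (integrable_const (1 : ℝ)).mono' (wc s).aestronglyMeasurable (Eventually.of_forall fun g => by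
      rw [Real.norm_eq_abs, abs_of_nonneg (w0 s g)]; exact wle s g)
  have wdep : ∀ s (x y : ι → ℝ), (∀ e, p e → x e = y e) → w s x = w s y := by
    intro s x y hxy
    have : ∀ s, lin (c s) x = lin (c s) y := fun s => Finset.sum_congr rfl fun e _ => by
      by_cases he : p e
      · rw [hxy e he]
      · rw [hc s e he]; simp
    simp only [hw, this]
  have piece : ∀ (s : S) (a : ι → ℝ), (∀ e, p e → a e = 0) → ∑ e, a e ^ 2 ≤ v →
      Integrable (fun g => w s g * Real.exp (lin a g)) (γ ι) ∧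
      ∫ g, w s g * Real.exp (lin a g) ∂(γ ι) ≤ (∫ g, w s g ∂(γ ι)) * Real.exp (v / 2) := by
    intro s a ha hav
    refine ⟨(int_exp_lin a).mono' ((wc s).mul
      (Real.continuous_exp.comp (cont_lin _))).aestronglyMeasurable
      (Eventually.of_forall fun g => ?_), ?_⟩
    · rw [Real.norm_eq_abs, abs_of_nonneg (mul_nonneg (w0 s g) (Real.exp_pos _).le)]
      exact mul_le_of_le_one_left (Real.exp_pos _).le (wle s g)
    · rw [integral_mul_disj p (w s) (fun g => Real.exp (lin a g)) (wdep s), integral_exp_lin]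
      · exact mul_le_mul_of_nonneg_left (Real.exp_le_exp.2 (by linarith))
          (integral_nonneg fun g => w0 s g)
      · intro x y hxy
        have : lin a x = lin a y := Finset.sum_congr rfl fun e _ => by
          by_cases he : p e
          · rw [ha e he]; simp
          · rw [hxy e he]
        rw [this]
  have hneg : ∀ s, ∑ e, (-d s) e ^ 2 ≤ v := fun s => by simpa using hv s
  have P1 := fun s => piece s (d s) (hd s) (hv s)
  have P2 := fun s => piece s (-d s) (fun e he => by simp [hd s e he]) (hneg s)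
  set U : (ι → ℝ) → ℝ := fun g => ∑ s, w s g * Real.exp (lin (d s) g) with hU
  set U' : (ι → ℝ) → ℝ := fun g => ∑ s, w s g * Real.exp (lin (-d s) g) with hU'
  have iU : Integrable U (γ ι) := integrable_finsetSum _ fun s _ => (P1 s).1
  have iU' : Integrable U' (γ ι) := integrable_finsetSum _ fun s _ => (P2 s).1
  have sw : ∑ s, ∫ g, w s g ∂(γ ι) = 1 := by
    rw [← integral_finsetSum _ fun s _ => wi s]; simp [w1]
  have bU : ∫ g, U g ∂(γ ι) ≤ Real.exp (v / 2) := by
    rw [hU, integral_finsetSum _ fun s _ => (P1 s).1]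
    refine (Finset.sum_le_sum fun s _ => (P1 s).2).trans ?_
    rw [← Finset.sum_mul, sw, one_mul]
  have bU' : ∫ g, U' g ∂(γ ι) ≤ Real.exp (v / 2) := by
    rw [hU', integral_finsetSum _ fun s _ => (P2 s).1]
    refine (Finset.sum_le_sum fun s _ => (P2 s).2).trans ?_
    rw [← Finset.sum_mul, sw, one_mul]
  have eU : ∀ g, U g = (∑ s, Real.exp (lin ((c + d) s) g)) / ∑ s, Real.exp (lin (c s) g) := by
    intro g
    rw [Finset.sum_div]
    refine Finset.sum_congr rfl fun s _ => ?_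
    simp only [hw, Pi.add_apply c d s, lin_add, Real.exp_add]
    ring
  have U0 : ∀ g, 0 < U g := fun g => by rw [eU]; exact div_pos (Z_pos _ g) (Z_pos _ g)
  have U'0 : ∀ g, 0 ≤ U' g := fun g =>
    Finset.sum_nonneg fun s _ => mul_nonneg (w0 s g) (Real.exp_pos _).le
  have eL : ∀ g, LS (c + d) g - LS c g = Real.log (U g) := fun g => by
    rw [eU, Real.log_div (Z_pos _ g).ne' (Z_pos _ g).ne']; rfl
  have inv : ∀ g, (U g)⁻¹ ≤ U' g := by
    intro g
    have hu := U0 g
    have h1 : ∀ s, w s g * (2 / U g) - w s g * Real.exp (lin (d s) g) / U g ^ 2 ≤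
        w s g * Real.exp (lin (-d s) g) := by
      intro s
      rw [lin_neg, Real.exp_neg, mul_div_assoc, ← mul_sub]
      refine mul_le_mul_of_nonneg_left ?_ (w0 s g)
      have hx := Real.exp_pos (lin (d s) g)
      generalize Real.exp (lin (d s) g) = x at hx
      generalize U g = u at hu
      have : x⁻¹ - (2 / u - x / u ^ 2) = (u - x) ^ 2 / (x * u ^ 2) := by field_simp; ring
      have h2 : 0 ≤ (u - x) ^ 2 / (x * u ^ 2) := by positivity
      linarith
    have h2 := Finset.sum_le_sum fun s (_ : s ∈ Finset.univ) => h1 s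
    rw [Finset.sum_sub_distrib, ← Finset.sum_mul, w1, ← Finset.sum_div] at h2
    have h3 : 1 * (2 / U g) - U g / U g ^ 2 = (U g)⁻¹ := by field_simp; ring
    exact h3 ▸ h2
  refine ⟨fun g => U g + U' g, iU.add iU', fun g => by linarith [U0 g, U'0 g],
    by rw [integral_add iU iU']; linarith, fun g => ?_⟩
  rw [eL, abs_le]
  have hu := U0 g
  constructor
  · have h1 : Real.log (U g)⁻¹ ≤ Real.log (U g + U' g) :=
      Real.log_le_log (inv_pos.2 hu) (by linarith [inv g])
    rw [Real.log_inv] at h1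
    linarith
  · exact Real.log_le_log hu (by linarith [U'0 g])

/-- changing the amplitude of a Gaussian field -/
theorem scale_field_U (c d : S → ι → ℝ) (t : ℝ) {v : ℝ} (hv : ∀ s, ∑ e, d s e ^ 2 ≤ v) :
    ∃ U : (ι → ℝ) → ℝ, Integrable U (γ ι) ∧ (∀ g, 0 < U g) ∧
      ∫ g, U g ∂(γ ι) ≤ 2 * Fintype.card S * Real.exp (v / 2) ∧
      ∀ g, |LS (c + t • d) g - LS c g| ≤ |t| * Real.log (U g) := by
  set U : (ι → ℝ) → ℝ := fun g => ∑ s, (Real.exp (lin (d s) g) + Real.exp (lin (-d s) g)) with hU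
  have iU : Integrable U (γ ι) :=
    integrable_finsetSum _ fun s _ => (int_exp_lin _).add (int_exp_lin _)
  have hneg : ∀ s, ∑ e, (-d s) e ^ 2 ≤ v := fun s => by simpa using hv s
  have bU : ∫ g, U g ∂(γ ι) ≤ 2 * Fintype.card S * Real.exp (v / 2) := by
    rw [hU, integral_finsetSum
      (f := fun s g => Real.exp (lin (d s) g) + Real.exp (lin (-d s) g)) _
      fun s _ => (int_exp_lin _).add (int_exp_lin _)]
    have h : ∀ s ∈ (Finset.univ : Finset S),
        ∫ g, (Real.exp (lin (d s) g) + Real.exp (lin (-d s) g)) ∂(γ ι) ≤ 2 * Real.exp (v / 2) := by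
      intro s _
      rw [integral_add (int_exp_lin _) (int_exp_lin _), integral_exp_lin, integral_exp_lin]
      have h1 := Real.exp_le_exp.2 (by linarith [hv s] : (∑ e, d s e ^ 2) / 2 ≤ v / 2)
      have h2 := Real.exp_le_exp.2 (by linarith [hneg s] : (∑ e, (-d s) e ^ 2) / 2 ≤ v / 2)
      linarith
    refine (Finset.sum_le_sum h).trans ?_
    rw [Finset.sum_const, Finset.card_univ, nsmul_eq_mul]
    exact le_of_eq (by ring)
  have hs : ∀ g s, Real.exp (lin (d s) g) + Real.exp (lin (-d s) g) ≤ U g := fun g s =>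
    Finset.single_le_sum (f := fun s => Real.exp (lin (d s) g) + Real.exp (lin (-d s) g))
      (fun s _ => by positivity) (Finset.mem_univ s)
  have pos : ∀ g, 0 < U g := fun g =>
    lt_of_lt_of_le (by positivity) (hs g (Classical.arbitrary S))
  have habs : ∀ g s, |lin (d s) g| ≤ Real.log (U g) := fun g s => by
    have h1 := hs g s
    rw [lin_neg] at h1
    rw [Real.le_log_iff_exp_le (pos g)]
    have h2 := Real.exp_pos (lin (d s) g)
    have h3 := Real.exp_pos (-lin (d s) g)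
    rcases abs_cases (lin (d s) g) with h | h <;> rw [h.1] <;> linarith
  refine ⟨U, iU, pos, bU, fun g => ?_⟩
  have h1 : ∀ s, |t * lin (d s) g| ≤ |t| * Real.log (U g) := fun s => by
    rw [abs_mul]; exact mul_le_mul_of_nonneg_left (habs g s) (abs_nonneg t)
  have h2 : ∀ s, lin ((c + t • d) s) g = lin (c s) g + t * lin (d s) g := fun s => by
    rw [Pi.add_apply, Pi.smul_apply, lin_add, lin_smul]
  have h3 := LS_le c (c + t • d) g (M := |t| * Real.log (U g)) fun s => by
    rw [h2]; linarith [(abs_le.1 (h1 s)).2]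
  have h4 := LS_le (c + t • d) c g (M := |t| * Real.log (U g)) fun s => by
    rw [h2]; linarith [(abs_le.1 (h1 s)).1]
  rw [abs_le]; constructor <;> linarith

end Gauss

lemma markov {Ω : Type*} [MeasurableSpace Ω] {μ : Measure Ω} {U : Ω → ℝ} (hi : Integrable U μ)
    (h0 : ∀ x, 0 < U x) {A r : ℝ} (hA : 0 < A) (hr : 0 < r) (hU : ∫ x, U x ∂μ ≤ A) :
    μ.real {x | A * r ≤ U x} ≤ 1 / r := by
  have h := mul_meas_ge_le_integral_of_nonneg (Eventually.of_forall fun x => (h0 x).le) hi (A * r)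
  rw [le_div_iff₀ hr]
  have h2 : A * (μ.real {x | A * r ≤ U x} * r) ≤ A * 1 := by linarith
  exact le_of_mul_le_mul_left h2 hA

/-- adding one site changes the free energy by at most `K + 2 log n`, but for probability
`2 / n²` -/
theorem step_tail (b : ℝ) (n : ℕ) (hn : 1 ≤ n) :
    (disorder (n + 1)).real {g | 1 + b ^ 2 / 2 + 5 * |b| + 2 * Real.log n <
      |freeEnergy (n + 1) b g - freeEnergy n b (res n 1 g) - Real.log 2|} ≤ 2 / (n : ℝ) ^ 2 := by
  have hn1 : (1 : ℝ) ≤ n := by exact_mod_cast hn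
  set m : ℝ := ((n + 1 : ℕ) : ℝ) with hm
  have hm' : m = n + 1 := by rw [hm]; push_cast; ring
  have hm0 : 0 < m := by linarith
  have sn : 0 < √(n : ℝ) := Real.sqrt_pos.2 (by linarith)
  have sm : 0 < √m := Real.sqrt_pos.2 hm0
  have hv : ∀ s, ∑ e, cnew n 1 (b / √m) s e ^ 2 ≤ b ^ 2 := fun s => by
    have h1 : ∀ e : Pair (n + 1), cnew n 1 (b / √m) s e ^ 2 =
        if ¬ (e.1.2 : ℕ) < n then b ^ 2 / m else 0 := fun e => by
      unfold cnew
      by_cases h : (e.1.2 : ℕ) < n
      · simp [h]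
      · simp only [h, if_false, not_false_eq_true, if_true, cf_sq, div_pow, Real.sq_sqrt hm0.le]
    simp_rw [h1]
    rw [← Finset.sum_filter, Finset.sum_const, nsmul_eq_mul]
    calc _ ≤ ((n : ℝ) + (1 : ℕ)) * (1 : ℕ) * (b ^ 2 / m) :=
          mul_le_mul_of_nonneg_right (card_new n 1) (by positivity)
      _ = _ := by push_cast; rw [← hm']; field_simp
  obtain ⟨U, iU, U0, bU, hU⟩ := add_field_U (fun e : Pair (n + 1) => (e.1.2 : ℕ) < n)
    (cold n 1 (b / √m)) (cnew n 1 (b / √m)) (fun s e he => by simp [cold, he])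
    (fun s e he => by simp [cnew, he]) hv
  rw [cold_add] at hU
  set t : ℝ := b * (√n / √m - 1) with ht
  have hv' : ∀ s, ∑ e, cf n (1 / √n) s e ^ 2 ≤ (n : ℝ) := fun s => by
    simp only [cf_sq, Finset.sum_const, Finset.card_univ, nsmul_eq_mul]
    rw [div_pow, Real.sq_sqrt (by linarith), one_pow, mul_one_div, div_le_iff₀ (by linarith)]
    exact card_pair n
  obtain ⟨V, iV, V0, bV, hV⟩ := scale_field_U (cf n (b / √n)) (cf n (1 / √n)) t hv'
  have e1 : b / √(n : ℝ) + t * (1 / √n) = b / √m := by rw [ht]; field_simp; ring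
  rw [cf_add, e1] at hV
  set A2 : ℝ := 2 * Fintype.card (Fin n → ℤˣ) * Real.exp (n / 2) with hA2
  have A20 : 0 < A2 := by
    have : (0 : ℝ) < Fintype.card (Fin n → ℤˣ) := by exact_mod_cast Fintype.card_pos
    positivity
  have iV' : Integrable (fun g => V (res n 1 g)) (disorder (n + 1)) :=
    (mp_res n 1).integrable_comp_of_integrable iV
  have bV' : ∫ g, V (res n 1 g) ∂(disorder (n + 1)) ≤ A2 := by
    have := integral_map (μ := disorder (n + 1)) (mp_res n 1).measurable.aemeasurable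
      (f := V) (by rw [(mp_res n 1).map_eq]; exact iV.aestronglyMeasurable)
    rw [(mp_res n 1).map_eq] at this
    rw [← this]; exact bV
  have m1 := markov (μ := disorder (n + 1)) iU U0 (r := (n : ℝ) ^ 2) (by positivity)
    (by positivity) bU
  have m2 := markov iV' (fun g => V0 _) (r := (n : ℝ) ^ 2) A20 (by positivity) bV'
  have l2 : Real.log 2 ≤ 1 := by linarith [Real.log_two_lt_d9]
  have l0 : 0 ≤ Real.log 2 := Real.log_nonneg one_le_two
  have ln : Real.log n ≤ n := (Real.log_le_sub_one_of_pos (by linarith)).trans (by linarith)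
  have r1 : √(n : ℝ) / √m ≤ 1 := (div_le_one sm).2 (Real.sqrt_le_sqrt (by linarith))
  have r0 : 0 ≤ √(n : ℝ) / √m := by positivity
  have r2 : (√(n : ℝ) / √m) ^ 2 = n / m := by
    rw [div_pow, Real.sq_sqrt (by linarith), Real.sq_sqrt hm0.le]
  have r3 : (1 - √(n : ℝ) / √m) * n ≤ 1 := by
    have h5 : (n : ℝ) / m ≤ √(n : ℝ) / √m := by rw [← r2]; nlinarith
    have h6 : (1 - (n : ℝ) / m) * n ≤ 1 := by
      have : (1 - (n : ℝ) / m) * n = n / m := by rw [hm']; field_simp; ring
      rw [this]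
      exact (div_le_one hm0).2 (by linarith)
    nlinarith
  have r4 : |t| * n ≤ |b| := by
    rw [ht, abs_mul, abs_of_nonpos (by linarith : √(n : ℝ) / √m - 1 ≤ 0), mul_assoc]
    exact mul_le_of_le_one_right (abs_nonneg b) (by linarith)
  refine le_trans (measureReal_mono (s₂ := {g | 2 * Real.exp (b ^ 2 / 2) * (n : ℝ) ^ 2 ≤ U g} ∪
    {g | A2 * (n : ℝ) ^ 2 ≤ V (res n 1 g)}) fun g hg => ?_) ((measureReal_union_le _ _).trans ?_)
  · by_contra hh
    simp only [Set.mem_union, Set.mem_ofPred_eq, not_or, not_le] at hh hg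
    have a1 := Real.log_le_log (U0 g) hh.1.le
    have a2 := Real.log_le_log (V0 _) hh.2.le
    rw [Real.log_mul (by positivity) (by positivity), Real.log_mul two_ne_zero (by positivity),
      Real.log_exp, Real.log_pow] at a1
    have hl : Real.log (A2 * (n : ℝ) ^ 2) = (n + 1) * Real.log 2 + n / 2 + 2 * Real.log n := by
      rw [Real.log_mul A20.ne' (by positivity), hA2, Real.log_mul (by positivity) (by positivity),
        Real.log_exp, Real.log_pow, Fintype.card_fun, Fintype.card_units_int, Fintype.card_fin]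
      push_cast
      rw [← pow_succ', Real.log_pow]; push_cast; ring
    have a0 : ((n : ℝ) + 1) * Real.log 2 ≤ n + 1 := mul_le_of_le_one_right (by linarith) l2
    have a3 : Real.log (V (res n 1 g)) ≤ 5 * n := by rw [hl] at a2; linarith
    have a4 := (hV (res n 1 g)).trans (mul_le_mul_of_nonneg_left a3 (abs_nonneg t))
    have a5 := hU g
    have eD : freeEnergy (n + 1) b g - freeEnergy n b (res n 1 g) - Real.log 2 =
        (LS (cf (n + 1) (b / √m)) g - LS (cold n 1 (b / √m)) g) +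
        (LS (cf n (b / √m)) (res n 1 g) - LS (cf n (b / √n)) (res n 1 g)) := by
      simp only [F_eq, LS_cold, ← hm]; push_cast; ring
    rw [eD] at hg
    have a6 := abs_add_le (LS (cf (n + 1) (b / √m)) g - LS (cold n 1 (b / √m)) g)
      (LS (cf n (b / √m)) (res n 1 g) - LS (cf n (b / √n)) (res n 1 g))
    push_cast at a1
    have a7 : |t| * (5 * n) ≤ 5 * |b| := by linarith
    linarith
  · rw [show (2 : ℝ) / (n : ℝ) ^ 2 = 1 / (n : ℝ) ^ 2 + 1 / (n : ℝ) ^ 2 by ring]
    exact add_le_add m1 m2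

lemma mean_step (b : ℝ) (n : ℕ) (hn : 1 ≤ n) :
    |meanF (n + 1) b - meanF n b - Real.log 2| ≤ √(KK b) := by
  have i1 : MemLp (freeEnergy (n + 1) b) 2 (disorder (n + 1)) := memLp_F _ b
  have i2 : MemLp (fun g => freeEnergy n b (res n 1 g)) 2 (disorder (n + 1)) :=
    (memLp_F n b).comp_measurePreserving (mp_res n 1)
  have h := step b n 1 hn le_rfl
  simp only [Nat.cast_one, one_mul, one_pow, mul_one] at h
  have h2 := int_abs_le (μ := disorder (n + 1))
    (D := fun g => freeEnergy (n + 1) b g - freeEnergy n b (res n 1 g) - Real.log 2)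
    ((i1.sub i2).sub (memLp_const _)) (Real.sqrt_nonneg (KK b))
    (by rw [Real.sq_sqrt (KK_pos b).le]; exact h)
  refine le_trans (le_of_eq ?_) (abs_integral_le_integral_abs.trans h2)
  have j1 := i1.integrable one_le_two
  have j2 := i2.integrable one_le_two
  rw [integral_sub (f := fun g => freeEnergy (n + 1) b g - freeEnergy n b (res n 1 g)) (j1.sub j2)
    (integrable_const _), integral_sub j1 j2,
    int_res n 1 (cont_F n b)]
  simp [meanF]

/-- probabilities of events of the first `n` sites -/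
lemma real_rn (n : ℕ) {s : Set (Pair n → ℝ)} (hs : MeasurableSet s) :
    arr.real (rn n ⁻¹' s) = (disorder n).real s := by
  rw [measureReal_def, measureReal_def, (mp_rn n).measure_preimage hs.nullMeasurableSet]

/-- almost surely the centred free energy makes steps `O(log n)` -/
theorem ae_step (b : ℝ) : ∃ K : ℝ, ∀ᵐ ω ∂arr, ∀ᶠ n : ℕ in atTop,
    |Xc (n + 1) b (rn (n + 1) ω) - Xc n b (rn n ω)| ≤ K + 2 * Real.log n := by
  refine ⟨1 + b ^ 2 / 2 + 5 * |b| + √(KK b), ?_⟩
  have h := bc (P := arr) (K := 2) (E := fun n => rn (n + 1) ⁻¹'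
    {g | 1 + b ^ 2 / 2 + 5 * |b| + 2 * Real.log n <
      |freeEnergy (n + 1) b g - freeEnergy n b (res n 1 g) - Real.log 2|}) (by
    filter_upwards [eventually_ge_atTop 1] with n hn
    rw [real_rn]
    · exact step_tail b n hn
    · exact measurableSet_lt measurable_const
        (((cont_F _ b).sub ((cont_F n b).comp (cont_res n 1))).sub continuous_const).abs.measurable)
  filter_upwards [h] with ω hω
  filter_upwards [hω, eventually_ge_atTop 1] with n h1 h2
  have h3 : |freeEnergy (n + 1) b (rn (n + 1) ω) - freeEnergy n b (rn n ω) - Real.log 2| ≤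
      1 + b ^ 2 / 2 + 5 * |b| + 2 * Real.log n := not_lt.1 h1
  have h4 := mean_step b n h2
  unfold Xc
  rw [abs_le] at h3 h4 ⊢
  constructor <;> linarith [h3.1, h3.2, h4.1, h4.2]

/-- the array with the entries in `F` replaced by zero -/
def zf (F : Finset (ℕ × ℕ)) (ω : ℕ × ℕ → ℝ) : ℕ × ℕ → ℝ := fun q => if q ∈ F then 0 else ω q

/-- **Kolmogorov's zero-one law** for the array. -/
theorem ae_const {G : (ℕ × ℕ → ℝ) → EReal} (hG : Measurable G)
    (h : ∀ F ω, G (zf F ω) = G ω) : ∃ l, ∀ᵐ ω ∂arr, G ω = l := by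
  have hi : iIndepFun (fun (q : ℕ × ℕ) (ω : ℕ × ℕ → ℝ) => ω q) arr := by
    unfold arr
    exact iIndepFun_infinitePi (X := fun _ x => x) fun _ => measurable_id
  rw [iIndepFun_iff_iIndep] at hi
  refine Filter.exists_eventuallyEq_const_of_forall_separating (l := ae arr) MeasurableSet
    fun U hU => ?_
  have ht : MeasurableSet[limsup (fun q : ℕ × ℕ =>
      MeasurableSpace.comap (fun ω : ℕ × ℕ → ℝ => ω q) inferInstance) cofinite] (G ⁻¹' U) := by
    rw [limsup_eq, MeasurableSpace.measurableSet_sInf]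
    intro m hm
    have hf : {q : ℕ × ℕ | ¬ MeasurableSpace.comap (fun ω : ℕ × ℕ → ℝ => ω q) inferInstance ≤ m
      }.Finite := hm
    have e : G ⁻¹' U = zf hf.toFinset ⁻¹' (G ⁻¹' U) := by
      ext ω; simp only [Set.mem_preimage, h]
    rw [e]
    have hz : @Measurable _ _ m MeasurableSpace.pi (zf hf.toFinset) := by
      refine @measurable_pi_lambda _ _ _ m _ _ fun q => ?_
      by_cases hq : q ∈ hf.toFinset
      · simp only [zf, hq, if_true]; exact measurable_const
      · simp only [zf, hq, if_false]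
        rw [Set.Finite.mem_toFinset, Set.mem_ofPred_eq, not_not] at hq
        exact Measurable.of_comap_le hq
    exact hz (hG hU)
  have z := measure_zero_or_one_of_measurableSet_limsup (μ := arr) (p := Set.Finite)
    (ns := fun F : Finset (ℕ × ℕ) => (F : Set (ℕ × ℕ)))
    (fun q => (measurable_pi_apply q).comap_le) hi (fun t ht => ht.compl_mem_cofinite)
    (fun F F' => ⟨F ∪ F', by simp, by simp⟩) (fun F => F.finite_toSet)
    (fun q => ⟨{q}, by simp⟩) ht
  rcases z with z | z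
  · exact Or.inr (measure_eq_zero_iff_ae_notMem.1 z)
  · exact Or.inl ((mem_ae_iff_prob_eq_one (hG hU)).2 z)

/-- changing finitely many entries moves the free energy by a bounded amount -/
lemma F_zf (b : ℝ) (F : Finset (ℕ × ℕ)) (ω : ℕ × ℕ → ℝ) {n : ℕ} (hn : 1 ≤ n) :
    |freeEnergy n b (rn n (zf F ω)) - freeEnergy n b (rn n ω)| ≤ |b| * ∑ q ∈ F, |ω q| := by
  have hn1 : (1 : ℝ) ≤ n := by exact_mod_cast hn
  have s1 : 1 ≤ √(n : ℝ) := Real.one_le_sqrt.2 hn1
  have key : ∀ s, |lin (cf n (b / √n) s) (rn n (zf F ω)) - lin (cf n (b / √n) s) (rn n ω)| ≤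
      |b| * ∑ q ∈ F, |ω q| := by
    intro s
    unfold lin
    rw [← Finset.sum_sub_distrib]
    refine (Finset.abs_sum_le_sum_abs _ _).trans ?_
    have a1 : ∀ e : Pair n, |cf n (b / √n) s e * rn n (zf F ω) e - cf n (b / √n) s e * rn n ω e| ≤
        |b| * if pn e ∈ F then |ω (pn e)| else 0 := by
      intro e
      have a2 : |cf n (b / √n) s e| ≤ |b| := by
        rw [sq_eq_sq_iff_abs_eq_abs _ _ |>.1 (cf_sq n _ s e), abs_div,
          abs_of_nonneg (Real.sqrt_nonneg _)]
        exact div_le_self (abs_nonneg b) s1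
      rw [← mul_sub, abs_mul]
      refine mul_le_mul a2 (le_of_eq ?_) (abs_nonneg _) (abs_nonneg _)
      change |zf F ω (pn e) - ω (pn e)| = _
      unfold zf
      split_ifs <;> simp
    refine (Finset.sum_le_sum fun e _ => a1 e).trans ?_
    rw [← Finset.mul_sum, ← Finset.sum_filter]
    refine mul_le_mul_of_nonneg_left ?_ (abs_nonneg b)
    rw [← Finset.sum_image (f := fun q => |ω q|) fun x _ y _ h => pn_inj h]
    refine Finset.sum_le_sum_of_subset_of_nonneg (fun q hq => ?_) fun _ _ _ => abs_nonneg _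
    obtain ⟨e, he, rfl⟩ := Finset.mem_image.1 hq
    exact (Finset.mem_filter.1 he).2
  rw [F_eq, F_eq]
  unfold LS
  set M := |b| * ∑ q ∈ F, |ω q|
  have one : ∀ x y : Pair n → ℝ, (∀ s, lin (cf n (b / √n) s) x ≤ lin (cf n (b / √n) s) y + M) →
      LS (cf n (b / √n)) x ≤ LS (cf n (b / √n)) y + M := by
    intro x y h
    unfold LS
    rw [← Real.log_exp M, ← Real.log_mul (Z_pos _ y).ne' (Real.exp_pos _).ne', Finset.sum_mul]
    refine Real.log_le_log (Z_pos _ x) (Finset.sum_le_sum fun s _ => ?_)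
    rw [← Real.exp_add]; exact Real.exp_le_exp.2 (h s)
  have h1 := one (rn n (zf F ω)) (rn n ω) fun s => by linarith [(abs_le.1 (key s)).2]
  have h2 := one (rn n ω) (rn n (zf F ω)) fun s => by linarith [(abs_le.1 (key s)).1]
  unfold LS at h1 h2
  rw [abs_le]; constructor <;> linarith

lemma Y_zf (b : ℝ) (F : Finset (ℕ × ℕ)) (ω : ℕ × ℕ → ℝ) :
    Tendsto (fun n => Y n b (rn n (zf F ω)) - Y n b (rn n ω)) atTop (𝓝 0) := by
  refine squeeze_zero_norm' ?_
    ((tendsto_const_nhds (x := |b| * ∑ q ∈ F, |ω q|)).div_atTop sixth_top)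
  filter_upwards [eventually_ge_atTop 1] with n hn
  unfold Y
  rw [← sub_div, sub_sub_sub_cancel_right, Real.norm_eq_abs, abs_div,
    abs_of_nonneg (by positivity : 0 ≤ (n : ℝ) ^ (1 / 6 : ℝ))]
  exact div_le_div_of_nonneg_right (F_zf b F ω hn) (by positivity)

lemma meas_Y (b : ℝ) (n : ℕ) : Measurable fun ω => Y n b (rn n ω) :=
  (cont_Y n b).measurable.comp (meas_rn n)

/-- the tail bounds used (a part of the two-sided theorem) -/
def Tails (b : ℝ) : Prop := ∃ c C : ℝ, 0 < c ∧ 0 < C ∧ ∀ n : ℕ, 2 ≤ n →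
  c ≤ (disorder n).real {g | freeEnergy n b g ≤ meanF n b - c * (n : ℝ) ^ (1 / 6 : ℝ)} ∧
  (∀ u : ℝ, C ≤ u → u ≤ c * (n : ℝ) ^ (5 / 6 : ℝ) → Real.exp (-(C * u ^ (6 / 5 : ℝ))) ≤
    (disorder n).real {g | meanF n b + u * (n : ℝ) ^ (1 / 6 : ℝ) ≤ freeEnergy n b g}) ∧
  ∀ u : ℝ, 0 ≤ u →
    (disorder n).real {g | freeEnergy n b g ≤ meanF n b - u * (n : ℝ) ^ (1 / 6 : ℝ)} ≤
      Real.exp (-(c * u ^ 2)) ∧
    (disorder n).real {g | meanF n b + u * (n : ℝ) ^ (1 / 6 : ℝ) ≤ freeEnergy n b g} ≤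
      Real.exp (-(c * min (u ^ 2) (u ^ (6 / 5 : ℝ))))

/-- decorrelation in the size -/
def SiteCov (b : ℝ) : Prop :=
  ∃ C γ : ℝ, 0 < γ ∧ ∀ n m : ℕ, 2 ≤ n → n < m → ∀ f ψ : ℝ → ℝ, Measurable f → (∀ x, |f x| ≤ 1) →
    ContDiff ℝ 2 ψ → (∀ x, |deriv ψ x| ≤ 1) → (∀ x, |deriv (deriv ψ) x| ≤ 1) →
    |cov[fun ω => f (Y n b (rn n ω)), fun ω => ψ (Y m b (rn m ω)); arr]| ≤
      C * (((m : ℝ) - n) / (m : ℝ) ^ (2 / 3 : ℝ)) ^ (-γ)

lemma up_eq (b : ℝ) {n : ℕ} (hn : 2 ≤ n) (u : ℝ) : arr.real {ω | u ≤ Y n b (rn n ω)} =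
    (disorder n).real {g | meanF n b + u * (n : ℝ) ^ (1 / 6 : ℝ) ≤ freeEnergy n b g} := by
  have n0 : (0 : ℝ) < n := by exact_mod_cast (by omega : 0 < n)
  rw [← real_rn n (measurableSet_le measurable_const (cont_F n b).measurable)]
  congr 1
  ext ω
  simp only [Set.mem_ofPred_eq, Set.mem_preimage, Y]
  rw [le_div_iff₀ (by positivity), le_sub_iff_add_le']

lemma dn_eq (b : ℝ) {n : ℕ} (hn : 2 ≤ n) (u : ℝ) : arr.real {ω | Y n b (rn n ω) ≤ -u} =
    (disorder n).real {g | freeEnergy n b g ≤ meanF n b - u * (n : ℝ) ^ (1 / 6 : ℝ)} := by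
  have n0 : (0 : ℝ) < n := by exact_mod_cast (by omega : 0 < n)
  rw [← real_rn n (measurableSet_le (cont_F n b).measurable measurable_const)]
  congr 1
  ext ω
  simp only [Set.mem_ofPred_eq, Set.mem_preimage, Y]
  rw [div_le_iff₀ (by positivity), sub_le_iff_le_add', neg_mul, ← sub_eq_add_neg]

/-- **The law of the logarithm.** -/
theorem logLaw (b : ℝ) (hT : Tails b) (hcov : SiteCov b) :
    ∃ (L A : ℝ) (l : EReal), 0 < L ∧ 0 < A ∧ l < 0 ∧ ∀ᵐ ω ∂arr,
      (∀ e > 0, ∀ᶠ n : ℕ in atTop, -e ≤ Y n b (rn n ω) / Real.log n ^ (5 / 6 : ℝ) ∧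
        Y n b (rn n ω) / Real.log n ^ (5 / 6 : ℝ) ≤ L + e) ∧
      (∀ x, MapClusterPt x atTop (fun n : ℕ => Y n b (rn n ω) / Real.log n ^ (5 / 6 : ℝ)) ↔
        x ∈ Set.Icc 0 L) ∧
      (∀ᶠ n : ℕ in atTop, -(A * √(Real.log n)) ≤ Y n b (rn n ω)) ∧
      Tendsto (fun n => Y (n + 1) b (rn (n + 1) ω) - Y n b (rn n ω)) atTop (𝓝 0) ∧
      liminf (fun n => (Y n b (rn n ω) : EReal)) atTop = l ∧
      ∀ x : ℝ, MapClusterPt x atTop (fun n => Y n b (rn n ω)) ↔ l ≤ x := by
  obtain ⟨c, C, hc, hC, h⟩ := hT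
  obtain ⟨K, hK⟩ := ae_step b
  refine law (P := arr) (X := fun n ω => Xc n b (rn n ω)) (Y := fun n ω => Y n b (rn n ω))
    (fun _ _ => rfl) (meas_Y b) hcov hc hC (fun n hn => ?_) (fun n hn u h1 h2 => ?_)
    (fun n hn u hu => ?_) (fun n hn u hu => ?_) hK ?_ ?_
  · rw [dn_eq b hn]; exact (h n hn).1
  · rw [up_eq b hn]; exact (h n hn).2.1 u h1 h2
  · rw [dn_eq b hn]; exact ((h n hn).2.2 u hu).1
  · rw [up_eq b hn]; exact ((h n hn).2.2 u hu).2
  · refine ae_const (Measurable.limsup fun n =>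
      measurable_coe_real_ereal.comp ((meas_Y b n).div_const _)) fun F ω => limsup_eq_of_close ?_
    simpa only [sub_div] using (Y_zf b F ω).div_atTop ell_top
  · exact ae_const (Measurable.liminf fun n => measurable_coe_real_ereal.comp (meas_Y b n))
      fun F ω => liminf_eq_of_close (Y_zf b F ω)

end Vale.Agent.N146.Log
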