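import Mathlib

/-!
# P146: abstract tools for the law of the logarithm
-/

open MeasureTheory ProbabilityTheory Filter Topology

namespace Vale.Agent.N146.LogA

section Seq

/-- a sequence with small steps visits every point between its lower and upper limits -/
theorem cluster_of_slow {u : ℕ → ℝ} (hs : Tendsto (fun n => u (n + 1) - u n) atTop (𝓝 0)) {x : ℝ}
    (h1 : ∀ e > 0, ∃ᶠ n in atTop, u n < x + e) (h2 : ∀ e > 0, ∃ᶠ n in atTop, x - e < u n) :
    MapClusterPt x atTop u := by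
  rw [(Metric.nhds_basis_ball (x := x)).mapClusterPt_iff_frequently]
  intro e he
  by_contra hc
  rw [not_frequently] at hc
  have hs' : ∀ᶠ n in atTop, |u (n + 1) - u n| < e := by
    have := (Metric.tendsto_nhds.1 hs) e he
    simpa only [Real.dist_eq, sub_zero] using this
  obtain ⟨N, hN⟩ := eventually_atTop.1 (hc.and hs')
  have far : ∀ n, N ≤ n → x + e ≤ u n ∨ u n ≤ x - e := by
    intro n hn
    have := (hN n hn).1
    rw [Metric.mem_ball, Real.dist_eq, not_lt, le_abs] at this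
    rcases this with h | h
    · left; linarith
    · right; linarith
  rcases far N le_rfl with h | h
  · have all : ∀ n, N ≤ n → x + e ≤ u n := by
      intro n hn
      induction n, hn using Nat.le_induction with
      | base => exact h
      | succ n hn ih =>
        have a := abs_lt.1 (hN n hn).2
        rcases far (n + 1) (by omega) with h' | h'
        · exact h'
        · linarith [a.1]
    obtain ⟨n, hn, hn'⟩ := (frequently_atTop.1 (h1 e he)) N
    linarith [all n hn]
  · have all : ∀ n, N ≤ n → u n ≤ x - e := by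
      intro n hn
      induction n, hn using Nat.le_induction with
      | base => exact h
      | succ n hn ih =>
        have a := abs_lt.1 (hN n hn).2
        rcases far (n + 1) (by omega) with h' | h'
        · linarith [a.2]
        · exact h'
    obtain ⟨n, hn, hn'⟩ := (frequently_atTop.1 (h2 e he)) N
    linarith [all n hn]

lemma limsup_le_of_close {u v : ℕ → ℝ} (h : Tendsto (fun n => u n - v n) atTop (𝓝 0)) :
    limsup (fun n => (u n : EReal)) atTop ≤ limsup (fun n => (v n : EReal)) atTop := by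
  refine le_of_forall_gt_imp_ge_of_dense fun z hz => ?_
  obtain ⟨y, hy1, hy2⟩ := EReal.lt_iff_exists_real_btwn.1 hz
  obtain ⟨y', hy3, hy4⟩ := EReal.lt_iff_exists_real_btwn.1 hy1
  have hyy : y' < y := by exact_mod_cast hy4
  have e1 : ∀ᶠ n in atTop, (v n : EReal) < y' := eventually_lt_of_limsup_lt hy3
  have e2 : ∀ᶠ n in atTop, u n - v n < y - y' := h.eventually (gt_mem_nhds (by linarith))
  refine limsup_le_of_le (by isBoundedDefault) ?_
  filter_upwards [e1, e2] with n a b
  have a' : v n < y' := by exact_mod_cast a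
  have : (u n : EReal) ≤ y := by exact_mod_cast (by linarith : u n ≤ y)
  exact this.trans hy2.le

lemma limsup_eq_of_close {u v : ℕ → ℝ} (h : Tendsto (fun n => u n - v n) atTop (𝓝 0)) :
    limsup (fun n => (u n : EReal)) atTop = limsup (fun n => (v n : EReal)) atTop := by
  refine le_antisymm (limsup_le_of_close h) (limsup_le_of_close ?_)
  simpa using h.neg

lemma liminf_le_of_close {u v : ℕ → ℝ} (h : Tendsto (fun n => u n - v n) atTop (𝓝 0)) :
    liminf (fun n => (u n : EReal)) atTop ≤ liminf (fun n => (v n : EReal)) atTop := by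
  refine le_of_forall_lt_imp_le_of_dense fun z hz => ?_
  obtain ⟨y, hy1, hy2⟩ := EReal.lt_iff_exists_real_btwn.1 hz
  obtain ⟨y', hy3, hy4⟩ := EReal.lt_iff_exists_real_btwn.1 hy2
  have hyy : y < y' := by exact_mod_cast hy3
  have e1 : ∀ᶠ n in atTop, (y' : EReal) < u n := eventually_lt_of_lt_liminf hy4
  have e2 : ∀ᶠ n in atTop, u n - v n < y' - y := h.eventually (gt_mem_nhds (by linarith))
  refine le_liminf_of_le (by isBoundedDefault) ?_
  filter_upwards [e1, e2] with n a b
  have a' : y' < u n := by exact_mod_cast a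
  have : (y : EReal) ≤ v n := by exact_mod_cast (by linarith : y ≤ v n)
  exact hy1.le.trans this

lemma liminf_eq_of_close {u v : ℕ → ℝ} (h : Tendsto (fun n => u n - v n) atTop (𝓝 0)) :
    liminf (fun n => (u n : EReal)) atTop = liminf (fun n => (v n : EReal)) atTop := by
  refine le_antisymm (liminf_le_of_close h) (liminf_le_of_close ?_)
  simpa using h.neg

/-- steps of a quotient -/
lemma step_div {X a : ℕ → ℝ} (ha : ∀ᶠ n in atTop, a n ≠ 0)
    (h1 : Tendsto (fun n => (X (n + 1) - X n) / a (n + 1)) atTop (𝓝 0))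
    (h2 : Tendsto (fun n => X n / a n * (a n / a (n + 1) - 1)) atTop (𝓝 0)) :
    Tendsto (fun n => X (n + 1) / a (n + 1) - X n / a n) atTop (𝓝 0) := by
  have h := h1.add h2
  rw [add_zero] at h
  refine h.congr' ?_
  filter_upwards [ha, (tendsto_add_atTop_nat 1).eventually ha] with n h0 h1
  field_simp
  ring

/-- the scale `(log n) ^ (5/6)` -/
noncomputable def ell (n : ℕ) : ℝ := Real.log n ^ (5 / 6 : ℝ)

lemma log_top : Tendsto (fun n : ℕ => Real.log n) atTop atTop :=
  Real.tendsto_log_atTop.comp tendsto_natCast_atTop_atTop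

lemma ell_top : Tendsto ell atTop atTop :=
  (tendsto_rpow_atTop (by norm_num : (0 : ℝ) < 5 / 6)).comp log_top

lemma ell_ratio : Tendsto (fun n => ell n / ell (n + 1)) atTop (𝓝 1) := by
  have h0 : Tendsto (fun n : ℕ => Real.log ((n + 1 : ℕ) : ℝ)) atTop atTop :=
    log_top.comp (tendsto_add_atTop_nat 1)
  have h1 : Tendsto (fun n : ℕ => (Real.log (n + 1) - Real.log n) / Real.log ((n + 1 : ℕ) : ℝ))
      atTop (𝓝 0) := Real.tendsto_log_nat_add_one_sub_log.div_atTop h0
  have h2 : Tendsto (fun n : ℕ => Real.log n / Real.log ((n + 1 : ℕ) : ℝ)) atTop (𝓝 1) := by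
    have h3 := (tendsto_const_nhds (x := (1 : ℝ))).sub h1
    rw [sub_zero] at h3
    refine h3.congr' ?_
    filter_upwards [h0.eventually_gt_atTop 0] with n hn
    push_cast at hn ⊢
    field_simp
    ring
  have h4 := h2.rpow_const (p := (5 / 6 : ℝ)) (Or.inl one_ne_zero)
  rw [Real.one_rpow] at h4
  refine h4.congr fun n => ?_
  unfold ell
  rw [Real.div_rpow (Real.log_natCast_nonneg _) (Real.log_natCast_nonneg _)]

lemma log_div_sixth : Tendsto (fun n : ℕ => Real.log n / (n : ℝ) ^ (1 / 6 : ℝ)) atTop (𝓝 0) :=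
  ((isLittleO_log_rpow_atTop (by norm_num : (0 : ℝ) < 1 / 6)).tendsto_div_nhds_zero).comp
    tendsto_natCast_atTop_atTop

lemma sixth_top : Tendsto (fun n : ℕ => (n : ℝ) ^ (1 / 6 : ℝ)) atTop atTop :=
  (tendsto_rpow_atTop (by norm_num : (0 : ℝ) < 1 / 6)).comp tendsto_natCast_atTop_atTop

lemma sixth_ratio {n : ℕ} (hn : 1 ≤ n) :
    |(n : ℝ) ^ (1 / 6 : ℝ) / ((n + 1 : ℕ) : ℝ) ^ (1 / 6 : ℝ) - 1| ≤ 1 / (n : ℝ) ^ (1 / 6 : ℝ) := by
  have hn1 : (1 : ℝ) ≤ n := by exact_mod_cast hn
  have h0 : (0 : ℝ) ≤ n / ((n + 1 : ℕ) : ℝ) := by positivity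
  have h1 : (n : ℝ) / ((n + 1 : ℕ) : ℝ) ≤ 1 := by
    rw [div_le_one (by positivity)]; push_cast; linarith
  rw [← Real.div_rpow (by positivity) (by positivity)]
  have h2 : ((n : ℝ) / ((n + 1 : ℕ) : ℝ)) ^ (1 / 6 : ℝ) ≤ 1 := Real.rpow_le_one h0 h1 (by norm_num)
  have h3 : (n : ℝ) / ((n + 1 : ℕ) : ℝ) ≤ ((n : ℝ) / ((n + 1 : ℕ) : ℝ)) ^ (1 / 6 : ℝ) := by
    have := Real.rpow_le_rpow_of_exponent_ge (x := (n : ℝ) / ((n + 1 : ℕ) : ℝ)) (by positivity) h1
      (by norm_num : (1 / 6 : ℝ) ≤ 1)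
    rwa [Real.rpow_one] at this
  have h4 : (n : ℝ) ^ (1 / 6 : ℝ) ≤ n := by
    have := Real.rpow_le_rpow_of_exponent_le hn1 (by norm_num : (1 / 6 : ℝ) ≤ 1)
    rwa [Real.rpow_one] at this
  have h5 : 1 - (n : ℝ) / ((n + 1 : ℕ) : ℝ) ≤ 1 / (n : ℝ) ^ (1 / 6 : ℝ) := by
    have : 1 - (n : ℝ) / ((n + 1 : ℕ) : ℝ) = 1 / ((n : ℝ) + 1) := by push_cast; field_simp; ring
    rw [this]
    exact one_div_le_one_div_of_le (by positivity) (by linarith)
  rw [abs_le]; constructor <;> linarith

end Seq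

section Prob

variable {Ω : Type*} [MeasurableSpace Ω] {P : Measure Ω} [IsProbabilityMeasure P]

/-- events of vanishing probability almost surely fail infinitely often -/
lemma ae_freq {B : ℕ → Set Ω} (h : Tendsto (fun t => P.real (B t)) atTop (𝓝 0)) :
    ∀ᵐ ω ∂P, ∃ᶠ t in atTop, ω ∉ B t := by
  have key : ∀ N : ℕ, ∀ᵐ ω ∂P, ∃ t, N ≤ t ∧ ω ∉ B t := by
    intro N
    rw [ae_iff, ← measureReal_eq_zero_iff]
    refine le_antisymm (ge_of_tendsto h ?_) measureReal_nonneg
    filter_upwards [eventually_ge_atTop N] with t ht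
    refine measureReal_mono fun ω hω => ?_
    by_contra hc
    exact hω ⟨t, ht, hc⟩
  filter_upwards [ae_all_iff.2 key] with ω hω
  exact frequently_atTop.2 fun N => hω N

/-- events which almost surely fail eventually have vanishing probability -/
lemma tendsto_of_ae {E : ℕ → Set Ω} (hm : ∀ n, MeasurableSet (E n))
    (h : ∀ᵐ ω ∂P, ∀ᶠ n in atTop, ω ∉ E n) : Tendsto (fun n => P.real (E n)) atTop (𝓝 0) := by
  have h1 := tendsto_measure_of_ae_tendsto_indicator_of_isFiniteMeasure (μ := P) atTop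
    (A := ∅) MeasurableSet.empty hm (by
      filter_upwards [h] with ω hω
      filter_upwards [hω] with n hn
      simp [hn])
  rw [measure_empty] at h1
  exact (ENNReal.tendsto_toReal ENNReal.zero_ne_top).comp h1

/-- the Borel-Cantelli lemma -/
lemma bc {E : ℕ → Set Ω} {K : ℝ} (h : ∀ᶠ n : ℕ in atTop, P.real (E n) ≤ K / (n : ℝ) ^ 2) :
    ∀ᵐ ω ∂P, ∀ᶠ n in atTop, ω ∉ E n := by
  have h0 : Summable fun n : ℕ => K / (n : ℝ) ^ 2 := by
    have := (Real.summable_one_div_nat_pow.2 one_lt_two).mul_left K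
    simpa only [mul_one_div] using this
  have h1 : Summable fun n => P.real (E n) :=
    Summable.of_norm_bounded_eventually_nat h0 (by
      filter_upwards [h] with n hn
      rwa [Real.norm_eq_abs, abs_of_nonneg measureReal_nonneg])
  refine ae_eventually_notMem ?_
  have h2 := h1.tsum_ofReal_ne_top
  simpa only [ofReal_measureReal (measure_ne_top _ _)] using h2

/-- decorrelation in the size -/
def Cov (P : Measure Ω) (Y : ℕ → Ω → ℝ) : Prop :=
  ∃ C γ : ℝ, 0 < γ ∧ ∀ n m : ℕ, 2 ≤ n → n < m → ∀ f ψ : ℝ → ℝ, Measurable f → (∀ x, |f x| ≤ 1) →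
    ContDiff ℝ 2 ψ → (∀ x, |deriv ψ x| ≤ 1) → (∀ x, |deriv (deriv ψ) x| ≤ 1) →
    |cov[fun ω => f (Y n ω), fun ω => ψ (Y m ω); P]| ≤
      C * (((m : ℝ) - n) / (m : ℝ) ^ (2 / 3 : ℝ)) ^ (-γ)

open Real (smoothTransition)

lemma bdd_of_loc {f : ℝ → ℝ} (hf : Continuous f) (h : ∀ x, x < 0 ∨ 1 < x → f x = 0) :
    ∃ B, 1 ≤ B ∧ ∀ x, |f x| ≤ B := by
  obtain ⟨B, hB⟩ := (isCompact_Icc (a := (0 : ℝ)) (b := 1)).exists_bound_of_continuousOn
    hf.continuousOn
  refine ⟨max B 1, le_max_right _ _, fun x => ?_⟩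
  by_cases hx : x ∈ Set.Icc (0 : ℝ) 1
  · exact (hB x hx).trans (le_max_left _ _)
  · rw [h x (by rw [Set.mem_Icc, not_and_or, not_le, not_le] at hx; exact hx), abs_zero]
    exact zero_le_one.trans (le_max_right _ _)

lemma deriv_loc {f : ℝ → ℝ} {a b : ℝ} (h0 : ∀ x, x < 0 → f x = a) (h1 : ∀ x, 1 < x → f x = b)
    (x : ℝ) (hx : x < 0 ∨ 1 < x) : deriv f x = 0 := by
  rcases hx with hx | hx
  · have : f =ᶠ[𝓝 x] fun _ => a := by
      filter_upwards [gt_mem_nhds hx] with y hy using h0 y hy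
    rw [this.deriv_eq, deriv_const]
  · have : f =ᶠ[𝓝 x] fun _ => b := by
      filter_upwards [lt_mem_nhds hx] with y hy using h1 y hy
    rw [this.deriv_eq, deriv_const]

lemma st_bound : ∃ B, 1 ≤ B ∧ (∀ x, |deriv smoothTransition x| ≤ B) ∧
    ∀ x, |deriv (deriv smoothTransition) x| ≤ B := by
  have c2 : ContDiff ℝ 2 smoothTransition := Real.smoothTransition.contDiff (n := 2)
  have c1 : ContDiff ℝ 1 (deriv smoothTransition) := c2.deriv'
  have d1 := deriv_loc (f := smoothTransition) (a := 0) (b := 1)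
    (fun x hx => Real.smoothTransition.zero_of_nonpos hx.le)
    (fun x hx => Real.smoothTransition.one_of_one_le hx.le)
  have d2 := deriv_loc (f := deriv smoothTransition) (a := 0) (b := 0)
    (fun x hx => d1 x (Or.inl hx)) (fun x hx => d1 x (Or.inr hx))
  obtain ⟨B1, h1, h1'⟩ := bdd_of_loc c1.continuous d1
  obtain ⟨B2, -, h2'⟩ := bdd_of_loc (c1.continuous_deriv le_rfl) d2
  exact ⟨max B1 B2, h1.trans (le_max_left _ _), fun x => (h1' x).trans (le_max_left _ _),
    fun x => (h2' x).trans (le_max_right _ _)⟩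

omit [IsProbabilityMeasure P] in
/-- decorrelation of the smoothed indicators -/
lemma cov_st {Y : ℕ → Ω → ℝ} (h : Cov P Y) : ∃ C γ : ℝ, 0 ≤ C ∧ 0 < γ ∧
    ∀ n m : ℕ, 2 ≤ n → n < m → ∀ u r : ℝ, 0 < r → r ≤ ((m : ℝ) - n) / (m : ℝ) ^ (2 / 3 : ℝ) →
    cov[fun ω => smoothTransition (Y n ω - u), fun ω => smoothTransition (Y m ω - u); P] ≤
      C * r ^ (-γ) := by
  obtain ⟨C, γ, hγ, h⟩ := h
  obtain ⟨B, hB, b1, b2⟩ := st_bound
  have hB0 : 0 < B := by linarith
  refine ⟨B * |C|, γ, by positivity, hγ, fun n m hn hnm u r hr hr' => ?_⟩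
  have c2 : ContDiff ℝ 2 smoothTransition := Real.smoothTransition.contDiff (n := 2)
  have e1 : deriv (fun x => B⁻¹ * smoothTransition (x - u)) =
      fun x => B⁻¹ * deriv smoothTransition (x - u) := by
    funext x; rw [deriv_const_mul_field, deriv_comp_sub_const]
  have e2 : deriv (fun x => B⁻¹ * deriv smoothTransition (x - u)) =
      fun x => B⁻¹ * deriv (deriv smoothTransition) (x - u) := by
    funext x; rw [deriv_const_mul_field, deriv_comp_sub_const]
  have hb : ∀ y : ℝ, |y| ≤ B → |B⁻¹ * y| ≤ 1 := fun y hy => by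
    rw [abs_mul, abs_of_pos (inv_pos.2 hB0), inv_mul_le_iff₀ hB0, mul_one]; exact hy
  have k := h n m hn hnm (fun x => smoothTransition (x - u))
    (fun x => B⁻¹ * smoothTransition (x - u))
    (Real.smoothTransition.continuous.measurable.comp (measurable_id.sub_const u))
    (fun x => by
      rw [abs_of_nonneg (Real.smoothTransition.nonneg _)]; exact Real.smoothTransition.le_one _)
    (contDiff_const.mul (c2.comp (contDiff_id.sub contDiff_const)))
    (fun x => by rw [e1]; exact hb _ (b1 _)) (fun x => by rw [e1, e2]; exact hb _ (b2 _))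
  rw [covariance_const_mul_right] at k
  have k2 : (((m : ℝ) - n) / (m : ℝ) ^ (2 / 3 : ℝ)) ^ (-γ) ≤ r ^ (-γ) :=
    Real.rpow_le_rpow_of_nonpos hr hr' (by linarith)
  have k3 : 0 ≤ (((m : ℝ) - n) / (m : ℝ) ^ (2 / 3 : ℝ)) ^ (-γ) :=
    Real.rpow_nonneg (hr.le.trans hr') _
  have k4 : C * (((m : ℝ) - n) / (m : ℝ) ^ (2 / 3 : ℝ)) ^ (-γ) ≤ |C| * r ^ (-γ) :=
    (mul_le_mul_of_nonneg_right (le_abs_self C) k3).trans
      (mul_le_mul_of_nonneg_left k2 (abs_nonneg C))
  have k5 := ((le_abs_self _).trans k).trans k4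
  rw [inv_mul_le_iff₀ hB0] at k5
  rw [mul_assoc]; exact k5

/-- the second moment method -/
lemma second {W : ℕ → Ω → ℝ} (hm : ∀ i, Measurable (W i)) (h0 : ∀ i ω, 0 ≤ W i ω)
    (h1 : ∀ i ω, W i ω ≤ 1) {t : ℕ} (ht : 1 ≤ t) {p K : ℝ} (hp : 0 < p) (hK : 0 ≤ K)
    (hE : ∀ i < t, p ≤ ∫ ω, W i ω ∂P) (hc : ∀ i j, i < j → j < t → cov[W i, W j; P] ≤ K) :
    P.real {ω | ∀ i < t, W i ω = 0} ≤ (1 / t + K) / p ^ 2 := by
  have ht0 : (0 : ℝ) < t := by exact_mod_cast ht
  have hL : ∀ i, MemLp (W i) 2 P := fun i =>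
    MemLp.of_bound (hm i).aestronglyMeasurable 1 (Eventually.of_forall fun ω => by
      rw [Real.norm_eq_abs, abs_of_nonneg (h0 i ω)]; exact h1 i ω)
  set S : Ω → ℝ := ∑ i ∈ Finset.range t, W i with hS
  have hSL : MemLp S 2 P := memLp_finsetSum' _ fun i _ => hL i
  have hES : t * p ≤ ∫ ω, S ω ∂P := by
    simp only [hS, Finset.sum_apply]
    rw [integral_finsetSum _ fun i _ => (hL i).integrable one_le_two]
    calc (t : ℝ) * p = ∑ _i ∈ Finset.range t, p := by simp
      _ ≤ _ := Finset.sum_le_sum fun i hi => hE i (Finset.mem_range.1 hi)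
  have hV : Var[S; P] ≤ t + (t : ℝ) ^ 2 * K := by
    rw [hS, variance_sum' fun i _ => hL i]
    have : ∀ i ∈ Finset.range t, ∑ j ∈ Finset.range t, cov[W i, W j; P] ≤ 1 + t * K := by
      intro i hi
      have hi' := Finset.mem_range.1 hi
      have a : ∀ j ∈ Finset.range t, cov[W i, W j; P] ≤ (if j = i then 1 else 0) + K := by
        intro j hj
        have hj' := Finset.mem_range.1 hj
        rcases lt_trichotomy i j with h | h | h
        · rw [if_neg h.ne', zero_add]; exact hc i j h hj'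
        · subst h
          rw [if_pos rfl, covariance_self (hm i).aemeasurable]
          have := variance_le_sq_of_bounded (μ := P) (X := W i) (a := 0) (b := 1)
            (Eventually.of_forall fun ω => ⟨h0 i ω, h1 i ω⟩) (hm i).aemeasurable
          linarith
        · rw [if_neg h.ne, zero_add, covariance_comm]; exact hc j i h hi'
      refine (Finset.sum_le_sum a).trans (le_of_eq ?_)
      rw [Finset.sum_add_distrib, Finset.sum_ite_eq', if_pos hi]
      simp
    refine (Finset.sum_le_sum this).trans (le_of_eq ?_)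
    simp only [Finset.sum_const, Finset.card_range, nsmul_eq_mul]
    ring
  have ch := meas_ge_le_variance_div_sq hSL (c := t * p) (by positivity)
  have sub : {ω | ∀ i < t, W i ω = 0} ⊆ {ω | t * p ≤ |S ω - ∫ ω, S ω ∂P|} := by
    intro ω hω
    have : S ω = 0 := by
      simp only [hS, Finset.sum_apply]
      exact Finset.sum_eq_zero fun i hi => hω i (Finset.mem_range.1 hi)
    simp only [Set.mem_ofPred_eq, this, zero_sub, abs_neg]
    exact hES.trans (le_abs_self _)
  have h3 : P.real {ω | ∀ i < t, W i ω = 0} ≤ Var[S; P] / (t * p) ^ 2 :=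
    ENNReal.toReal_le_of_le_ofReal (div_nonneg (variance_nonneg _ _) (sq_nonneg _))
      ((measure_mono sub).trans ch)
  refine h3.trans ?_
  calc Var[S; P] / (t * p) ^ 2 ≤ (t + (t : ℝ) ^ 2 * K) / (t * p) ^ 2 :=
        div_le_div_of_nonneg_right hV (sq_nonneg _)
    _ = _ := by field_simp

/-- the sizes used in the second moment method -/
def sz (t i : ℕ) : ℕ := t ^ 12 + i * t ^ 9

lemma sz_ge {t : ℕ} (_ht : 1 ≤ t) (i : ℕ) : t ≤ sz t i :=
  (Nat.le_self_pow (by norm_num) t).trans (Nat.le_add_right _ _)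

lemma sz_le {t i : ℕ} (hi : i < t) : sz t i ≤ 2 * t ^ 12 := by
  unfold sz
  have ht : 1 ≤ t := by omega
  have h1 : i * t ^ 9 ≤ t ^ 3 * t ^ 9 :=
    Nat.mul_le_mul_right _ (hi.le.trans (Nat.le_self_pow (by norm_num) t))
  have h2 : t ^ 3 * t ^ 9 = t ^ 12 := by ring
  omega

lemma sz_gap {t i j : ℕ} (hij : i < j) (hj : j < t) :
    sz t i < sz t j ∧ (t : ℝ) / 4 ≤ ((sz t j : ℝ) - sz t i) / (sz t j : ℝ) ^ (2 / 3 : ℝ) := by
  have ht : 1 ≤ t := by omega
  have ht0 : (0 : ℝ) < t := by exact_mod_cast ht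
  have h9 : 0 < t ^ 9 := by positivity
  have h1 : sz t i + t ^ 9 ≤ sz t j := by
    unfold sz
    have : (i + 1) * t ^ 9 ≤ j * t ^ 9 := Nat.mul_le_mul_right _ hij
    rw [add_mul, one_mul] at this
    omega
  refine ⟨by omega, ?_⟩
  have h2 : (t : ℝ) ^ 9 ≤ (sz t j : ℝ) - sz t i := by
    have : ((sz t i + t ^ 9 : ℕ) : ℝ) ≤ sz t j := by exact_mod_cast h1
    push_cast at this
    linarith
  have h3 : (sz t j : ℝ) ≤ (2 * (t : ℝ) ^ 4) ^ 3 := by
    have : (sz t j : ℝ) ≤ ((2 * t ^ 12 : ℕ) : ℝ) := by exact_mod_cast sz_le hj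
    push_cast at this
    have h4 : (0 : ℝ) ≤ (t : ℝ) ^ 12 := by positivity
    nlinarith
  have h5 : (sz t j : ℝ) ^ (2 / 3 : ℝ) ≤ (2 * (t : ℝ) ^ 4) ^ 2 := by
    refine (Real.rpow_le_rpow (by positivity) h3 (by norm_num)).trans (le_of_eq ?_)
    rw [← Real.rpow_natCast, ← Real.rpow_mul (by positivity)]
    norm_num
  have h6 : (0 : ℝ) < (sz t j : ℝ) ^ (2 / 3 : ℝ) := by
    have : (0 : ℝ) < sz t j := by exact_mod_cast lt_of_lt_of_le ht (sz_ge ht j)
    positivity
  rw [le_div_iff₀ h6]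
  calc (t : ℝ) / 4 * (sz t j : ℝ) ^ (2 / 3 : ℝ) ≤ t / 4 * (2 * (t : ℝ) ^ 4) ^ 2 :=
        mul_le_mul_of_nonneg_left h5 (by positivity)
    _ = (t : ℝ) ^ 9 := by ring
    _ ≤ _ := h2

lemma pow_56 {x : ℝ} (hx : 0 ≤ x) : (x ^ (5 / 6 : ℝ)) ^ (6 / 5 : ℝ) = x := by
  rw [← Real.rpow_mul hx]; norm_num

/-- **Large values occur infinitely often.** -/
theorem big_often {Y : ℕ → Ω → ℝ} (hm : ∀ n, Measurable (Y n)) (hcov : Cov P Y) {c C : ℝ}
    (hc : 0 < c) (hC : 0 < C) (hlow : ∀ n : ℕ, 2 ≤ n → ∀ u : ℝ, C ≤ u →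
      u ≤ c * (n : ℝ) ^ (5 / 6 : ℝ) → Real.exp (-(C * u ^ (6 / 5 : ℝ))) ≤ P.real {ω | u ≤ Y n ω}) :
    ∃ a > 0, ∀ᵐ ω ∂P, ∃ᶠ n in atTop, a * ell n ≤ Y n ω := by
  obtain ⟨K, γ, hK, hγ, hcv⟩ := cov_st hcov
  set δ : ℝ := min 1 γ / 4 with hδ
  have δ0 : 0 < δ := by positivity
  have δ1 : δ ≤ 1 / 4 := by have := min_le_left 1 γ; linarith
  have δ2 : δ ≤ γ / 4 := by have := min_le_right 1 γ; linarith
  set v : ℕ → ℝ := fun t => (δ / C * Real.log t) ^ (5 / 6 : ℝ) with hv
  have vtop : Tendsto v atTop atTop :=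
    (tendsto_rpow_atTop (by norm_num : (0 : ℝ) < 5 / 6)).comp
      (log_top.const_mul_atTop (by positivity))
  have vle : ∀ᶠ t : ℕ in atTop, v t ≤ c * (t : ℝ) ^ (5 / 6 : ℝ) := by
    have h1 := (Real.isLittleO_log_id_atTop.comp_tendsto
      (tendsto_natCast_atTop_atTop (R := ℝ))).def
      (c := c ^ (6 / 5 : ℝ) / (δ / C)) (by positivity)
    filter_upwards [h1] with t ht
    simp only [Function.comp_apply, id, Real.norm_eq_abs, Nat.abs_cast] at ht
    have h2 : δ / C * Real.log t ≤ c ^ (6 / 5 : ℝ) * t := by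
      have h3 := (le_abs_self _).trans ht
      rw [div_mul_eq_mul_div, le_div_iff₀ (by positivity)] at h3
      linarith
    refine (Real.rpow_le_rpow (by have := Real.log_natCast_nonneg t; positivity) h2
      (by norm_num)).trans (le_of_eq ?_)
    rw [Real.mul_rpow (by positivity) (by positivity), ← Real.rpow_mul hc.le]
    norm_num
  set B : ℕ → Set Ω := fun t =>
    {ω | ∀ i < t, smoothTransition (Y (sz t i) ω - (v t - 1)) = 0} with hB
  have hPB : ∀ᶠ t : ℕ in atTop, P.real (B t) ≤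
      (t : ℝ) ^ (-(1 / 2) : ℝ) + K * (4 : ℝ) ^ γ * (t : ℝ) ^ (-(γ / 2)) := by
    filter_upwards [vtop.eventually_ge_atTop C, vle, eventually_ge_atTop 2] with t h1 h2 h3
    have t1 : (1 : ℝ) ≤ t := by exact_mod_cast (by omega : 1 ≤ t)
    have t0 : (0 : ℝ) < t := by linarith
    have s := second (P := P) (W := fun i ω => smoothTransition (Y (sz t i) ω - (v t - 1)))
      (fun i => Real.smoothTransition.continuous.measurable.comp ((hm _).sub_const _))
      (fun i ω => Real.smoothTransition.nonneg _) (fun i ω => Real.smoothTransition.le_one _)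
      (t := t) (by omega) (p := (t : ℝ) ^ (-δ)) (K := K * ((t : ℝ) / 4) ^ (-γ)) (by positivity)
      (by positivity) (fun i _ => by
        have a1 : (t : ℝ) ≤ sz t i := by exact_mod_cast sz_ge (by omega) i
        have a2 := hlow (sz t i) (h3.trans (sz_ge (by omega) i)) (v t) h1
          (h2.trans (mul_le_mul_of_nonneg_left
            (Real.rpow_le_rpow t0.le a1 (by norm_num)) hc.le))
        have a3 : Real.exp (-(C * v t ^ (6 / 5 : ℝ))) = (t : ℝ) ^ (-δ) := by
          simp only [hv]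
          rw [pow_56 (by have := Real.log_natCast_nonneg t; positivity),
            Real.rpow_def_of_pos t0]
          congr 1; field_simp
        rw [← a3]
        refine a2.trans ?_
        have a4 : MeasurableSet {ω | v t ≤ Y (sz t i) ω} :=
          measurableSet_le measurable_const (hm _)
        rw [← integral_indicator_one a4]
        refine integral_mono ((integrable_const (1 : ℝ)).indicator a4)
          (Integrable.of_bound (Real.smoothTransition.continuous.measurable.comp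
            ((hm _).sub_const _)).aestronglyMeasurable 1 (Eventually.of_forall fun ω => by
            rw [Real.norm_eq_abs, abs_of_nonneg (Real.smoothTransition.nonneg _)]
            exact Real.smoothTransition.le_one _)) fun ω => ?_
        by_cases hω : ω ∈ {ω | v t ≤ Y (sz t i) ω}
        · rw [Set.indicator_of_mem hω]
          have : v t ≤ Y (sz t i) ω := hω
          simp only [Pi.one_apply]
          rw [Real.smoothTransition.one_of_one_le (by linarith)]
        · rw [Set.indicator_of_notMem hω]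
          exact Real.smoothTransition.nonneg _)
      (fun i j hij hj => hcv _ _ (h3.trans (sz_ge (by omega) i)) (sz_gap hij hj).1 _ _
        (by positivity) (sz_gap hij hj).2)
    refine s.trans ?_
    have e1 : ((t : ℝ) ^ (-δ)) ^ 2 = (t : ℝ) ^ (-(2 * δ)) := by
      rw [← Real.rpow_natCast, ← Real.rpow_mul t0.le]; congr 1; push_cast; ring
    have e2 : ((t : ℝ) / 4) ^ (-γ) = (4 : ℝ) ^ γ * (t : ℝ) ^ (-γ) := by
      rw [Real.div_rpow t0.le (by norm_num), Real.rpow_neg (by norm_num : (0 : ℝ) ≤ 4)]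
      field_simp
    rw [e1, e2, add_div, one_div, ← Real.rpow_neg_one, ← Real.rpow_sub t0, ← mul_assoc,
      mul_div_assoc, ← Real.rpow_sub t0]
    refine add_le_add (Real.rpow_le_rpow_of_exponent_le t1 (by linarith)) ?_
    exact mul_le_mul_of_nonneg_left (Real.rpow_le_rpow_of_exponent_le t1 (by linarith))
      (by positivity)
  have hP0 : Tendsto (fun t => P.real (B t)) atTop (𝓝 0) := by
    have a1 := (tendsto_rpow_neg_atTop (by norm_num : (0 : ℝ) < 1 / 2)).comp
      (tendsto_natCast_atTop_atTop (R := ℝ))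
    have a2 := ((tendsto_rpow_neg_atTop (by positivity : (0 : ℝ) < γ / 2)).comp
      (tendsto_natCast_atTop_atTop (R := ℝ))).const_mul (K * (4 : ℝ) ^ γ)
    have a3 := a1.add a2
    rw [mul_zero, add_zero] at a3
    exact squeeze_zero' (Eventually.of_forall fun _ => measureReal_nonneg) hPB a3
  refine ⟨(δ / C / 13) ^ (5 / 6 : ℝ) / 2, by positivity, ?_⟩
  filter_upwards [ae_freq hP0] with ω hω
  rw [frequently_atTop]
  intro N
  obtain ⟨t, ht, ⟨h1, h2⟩, h3⟩ := ((hω.and_eventually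
    ((vtop.eventually_ge_atTop 2).and (eventually_ge_atTop 2))).and_eventually
      (eventually_ge_atTop N)).exists.imp fun t h => (⟨h.1.1, h.1.2, h.2⟩ : _ ∧ _ ∧ _)
  simp only [hB, Set.mem_ofPred_eq, not_forall] at ht
  obtain ⟨i, hi, hne⟩ := ht
  refine ⟨sz t i, h3.trans (sz_ge (by omega) i), ?_⟩
  have b1 : v t - 1 < Y (sz t i) ω := by
    by_contra hh
    exact hne (Real.smoothTransition.zero_of_nonpos (by linarith))
  have t2 : (2 : ℝ) ≤ t := by exact_mod_cast h2
  have b2 : Real.log (sz t i) ≤ 13 * Real.log t := by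
    have a1 : (sz t i : ℝ) ≤ (t : ℝ) ^ 13 := by
      have : (sz t i : ℝ) ≤ ((2 * t ^ 12 : ℕ) : ℝ) := by exact_mod_cast sz_le hi
      push_cast at this
      have h4 : (0 : ℝ) ≤ (t : ℝ) ^ 12 := by positivity
      nlinarith
    have a2 : (0 : ℝ) < sz t i := by
      exact_mod_cast lt_of_lt_of_le (by omega : 0 < t) (sz_ge (by omega) i)
    have a3 := Real.log_le_log a2 a1
    rw [Real.log_pow] at a3
    exact_mod_cast a3
  have b3 : (δ / C / 13) ^ (5 / 6 : ℝ) * ell (sz t i) ≤ v t := by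
    unfold ell
    rw [← Real.mul_rpow (by positivity) (Real.log_natCast_nonneg _)]
    refine Real.rpow_le_rpow (by have := Real.log_natCast_nonneg (sz t i); positivity) ?_
      (by norm_num)
    have : 0 < δ / C := by positivity
    nlinarith
  linarith

/-- the upper envelope -/
theorem upper_env {Y : ℕ → Ω → ℝ} {c : ℝ} (hc : 0 < c)
    (hup : ∀ n : ℕ, 2 ≤ n → ∀ u : ℝ, 0 ≤ u →
      P.real {ω | u ≤ Y n ω} ≤ Real.exp (-(c * min (u ^ 2) (u ^ (6 / 5 : ℝ))))) :
    ∃ A > 0, ∀ᵐ ω ∂P, ∀ᶠ n in atTop, Y n ω < A * ell n := by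
  refine ⟨(2 / c) ^ (5 / 6 : ℝ), by positivity, ?_⟩
  have h := bc (P := P) (E := fun n => {ω | (2 / c) ^ (5 / 6 : ℝ) * ell n ≤ Y n ω}) (K := 1) (by
    filter_upwards [eventually_ge_atTop 2,
      (ell_top.const_mul_atTop (by positivity : 0 < (2 / c) ^ (5 / 6 : ℝ))).eventually_ge_atTop 1]
      with n hn h1
    have n0 : (0 : ℝ) < n := by exact_mod_cast (by omega : 0 < n)
    refine (hup n hn _ (by linarith)).trans (le_of_eq ?_)
    have a1 : ((2 / c) ^ (5 / 6 : ℝ) * ell n) ^ (6 / 5 : ℝ) ≤ ((2 / c) ^ (5 / 6 : ℝ) * ell n) ^ 2 := by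
      rw [← Real.rpow_natCast]
      exact Real.rpow_le_rpow_of_exponent_le h1 (by norm_num)
    rw [min_eq_right a1]
    unfold ell
    rw [← Real.mul_rpow (by positivity) (Real.log_natCast_nonneg _),
      pow_56 (by have := Real.log_natCast_nonneg n; positivity),
      show c * (2 / c * Real.log n) = Real.log ((n : ℝ) ^ 2) by
        rw [Real.log_pow]; push_cast; field_simp,
      Real.exp_neg, Real.exp_log (by positivity), one_div])
  filter_upwards [h] with ω hω
  filter_upwards [hω] with n hn using not_le.1 hn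

/-- the lower envelope -/
theorem lower_env {Y : ℕ → Ω → ℝ} {c : ℝ} (hc : 0 < c)
    (hdn : ∀ n : ℕ, 2 ≤ n → ∀ u : ℝ, 0 ≤ u → P.real {ω | Y n ω ≤ -u} ≤ Real.exp (-(c * u ^ 2))) :
    ∃ A > 0, ∀ᵐ ω ∂P, ∀ᶠ n : ℕ in atTop, -(A * √(Real.log n)) < Y n ω := by
  refine ⟨√(2 / c), by positivity, ?_⟩
  have h := bc (P := P) (E := fun n => {ω | Y n ω ≤ -(√(2 / c) * √(Real.log n))}) (K := 1) (by
    filter_upwards [eventually_ge_atTop 2] with n hn
    have n0 : (0 : ℝ) < n := by exact_mod_cast (by omega : 0 < n)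
    refine (hdn n hn _ (by positivity)).trans (le_of_eq ?_)
    rw [mul_pow, Real.sq_sqrt (by positivity), Real.sq_sqrt (Real.log_natCast_nonneg _),
      show c * (2 / c * Real.log n) = Real.log ((n : ℝ) ^ 2) by
        rw [Real.log_pow]; push_cast; field_simp,
      Real.exp_neg, Real.exp_log (by positivity), one_div])
  filter_upwards [h] with ω hω
  filter_upwards [hω] with n hn using not_le.1 hn

lemma sqrt_div_ell : Tendsto (fun n : ℕ => √(Real.log n) / ell n) atTop (𝓝 0) := by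
  have h := (tendsto_rpow_neg_atTop (by norm_num : (0 : ℝ) < 1 / 3)).comp log_top
  refine h.congr' ?_
  filter_upwards [log_top.eventually_gt_atTop 0] with n hn
  simp only [Function.comp_apply, ell]
  rw [Real.sqrt_eq_rpow, ← Real.rpow_sub hn]
  norm_num

/-- **The law of the logarithm**, abstract form. -/
theorem law {X Y : ℕ → Ω → ℝ} (hX : ∀ n ω, Y n ω = X n ω / (n : ℝ) ^ (1 / 6 : ℝ))
    (hm : ∀ n, Measurable (Y n)) (hcov : Cov P Y) {c C K : ℝ} (hc : 0 < c) (hC : 0 < C)
    (hneg : ∀ n : ℕ, 2 ≤ n → c ≤ P.real {ω | Y n ω ≤ -c})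
    (hlow : ∀ n : ℕ, 2 ≤ n → ∀ u : ℝ, C ≤ u →
      u ≤ c * (n : ℝ) ^ (5 / 6 : ℝ) → Real.exp (-(C * u ^ (6 / 5 : ℝ))) ≤ P.real {ω | u ≤ Y n ω})
    (hdn : ∀ n : ℕ, 2 ≤ n → ∀ u : ℝ, 0 ≤ u → P.real {ω | Y n ω ≤ -u} ≤ Real.exp (-(c * u ^ 2)))
    (hup : ∀ n : ℕ, 2 ≤ n → ∀ u : ℝ, 0 ≤ u →
      P.real {ω | u ≤ Y n ω} ≤ Real.exp (-(c * min (u ^ 2) (u ^ (6 / 5 : ℝ)))))
    (hstep : ∀ᵐ ω ∂P, ∀ᶠ n : ℕ in atTop, |X (n + 1) ω - X n ω| ≤ K + 2 * Real.log n)
    (hs : ∃ L : EReal, ∀ᵐ ω ∂P, limsup (fun n => ((Y n ω / ell n : ℝ) : EReal)) atTop = L)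
    (hi : ∃ l : EReal, ∀ᵐ ω ∂P, liminf (fun n => (Y n ω : EReal)) atTop = l) :
    ∃ (L A : ℝ) (l : EReal), 0 < L ∧ 0 < A ∧ l < 0 ∧ ∀ᵐ ω ∂P,
      (∀ e > 0, ∀ᶠ n in atTop, -e ≤ Y n ω / ell n ∧ Y n ω / ell n ≤ L + e) ∧
      (∀ x, MapClusterPt x atTop (fun n => Y n ω / ell n) ↔ x ∈ Set.Icc 0 L) ∧
      (∀ᶠ n : ℕ in atTop, -(A * √(Real.log n)) ≤ Y n ω) ∧
      Tendsto (fun n => Y (n + 1) ω - Y n ω) atTop (𝓝 0) ∧
      liminf (fun n => (Y n ω : EReal)) atTop = l ∧
      ∀ x : ℝ, MapClusterPt x atTop (fun n => Y n ω) ↔ l ≤ x := by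
  obtain ⟨a, ha, hbig⟩ := big_often hm hcov hc hC hlow
  obtain ⟨A, hA, hU⟩ := upper_env hc hup
  obtain ⟨A', hA', hD⟩ := lower_env hc hdn
  obtain ⟨L0, hL0⟩ := hs
  obtain ⟨l, hl⟩ := hi
  have ellpos : ∀ᶠ n in atTop, 0 < ell n := ell_top.eventually_gt_atTop 0
  -- the upper limit is a positive real number
  obtain ⟨ω0, h1, h2, h3⟩ := (hbig.and (hU.and hL0)).exists
  have l1 : (a : EReal) ≤ L0 := by
    rw [← h3]
    refine le_limsup_of_frequently_le ((h1.and_eventually ellpos).mono fun n h => ?_)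
    exact_mod_cast (le_div_iff₀ h.2).2 h.1
  have l2 : L0 ≤ (A : EReal) := by
    rw [← h3]
    refine limsup_le_of_le (by isBoundedDefault) ?_
    filter_upwards [h2, ellpos] with n h h'
    exact_mod_cast (div_le_iff₀ h').2 h.le
  lift L0 to ℝ using ⟨ne_top_of_le_ne_top (EReal.coe_ne_top A) l2,
    ne_bot_of_le_ne_bot (EReal.coe_ne_bot a) l1⟩ with L
  have hL : 0 < L := lt_of_lt_of_le ha (by exact_mod_cast l1)
  -- the lower limit is negative
  have l3 : l < 0 := by
    by_contra hh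
    have h4 := tendsto_of_ae (P := P) (E := fun n => {ω | Y n ω ≤ -c})
      (fun n => measurableSet_le (hm n) measurable_const) (by
        filter_upwards [hl] with ω hω
        have : ((-c : ℝ) : EReal) < liminf (fun n => (Y n ω : EReal)) atTop := by
          rw [hω]
          exact lt_of_lt_of_le (by exact_mod_cast (by linarith : -c < 0)) (not_lt.1 hh)
        filter_upwards [eventually_lt_of_lt_liminf this] with n hn
        have : -c < Y n ω := by exact_mod_cast hn
        exact not_le.2 this)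
    have h5 := ge_of_tendsto h4 ((eventually_ge_atTop 2).mono hneg)
    linarith
  refine ⟨L, A', l, hL, hA', l3, ?_⟩
  filter_upwards [hbig, hU, hD, hL0, hl, hstep] with ω b1 b2 b3 b4 b5 b6
  have env : ∀ e > 0, ∀ᶠ n in atTop, -e ≤ Y n ω / ell n ∧ Y n ω / ell n ≤ L + e := by
    intro e he
    have a1 : limsup (fun n => ((Y n ω / ell n : ℝ) : EReal)) atTop < ((L + e : ℝ) : EReal) := by
      rw [b4]; exact_mod_cast (by linarith : L < L + e)
    have a2 := sqrt_div_ell.const_mul A'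
    rw [mul_zero] at a2
    filter_upwards [eventually_lt_of_limsup_lt a1, a2.eventually (gt_mem_nhds he), b3, ellpos]
      with n c1 c2 c3 c4
    refine ⟨?_, le_of_lt (by exact_mod_cast c1)⟩
    rw [← mul_div_assoc, div_lt_iff₀ c4] at c2
    rw [le_div_iff₀ c4]
    linarith
  have stepY : Tendsto (fun n => Y (n + 1) ω - Y n ω) atTop (𝓝 0) := by
    simp_rw [hX]
    refine step_div (X := fun n => X n ω) (a := fun n : ℕ => (n : ℝ) ^ (1 / 6 : ℝ))
      ((sixth_top.eventually_gt_atTop 0).mono fun n h => h.ne') ?_ ?_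
    · have a1 := ((tendsto_const_nhds (x := K)).div_atTop sixth_top).add (log_div_sixth.const_mul 2)
      rw [mul_zero, add_zero] at a1
      refine squeeze_zero_norm' ?_ a1
      filter_upwards [b6, eventually_ge_atTop 1] with n c1 c2
      have n1 : (1 : ℝ) ≤ n := by exact_mod_cast c2
      have c3 : (n : ℝ) ^ (1 / 6 : ℝ) ≤ ((n + 1 : ℕ) : ℝ) ^ (1 / 6 : ℝ) :=
        Real.rpow_le_rpow (by positivity) (by push_cast; linarith) (by norm_num)
      rw [Real.norm_eq_abs, abs_div, abs_of_pos (by positivity : 0 < ((n + 1 : ℕ) : ℝ) ^ (1 / 6 : ℝ)),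
        ← mul_div_assoc, ← add_div]
      exact div_le_div₀ ((abs_nonneg _).trans c1) c1 (by positivity) c3
    · have a1 := log_div_sixth.const_mul (A + A')
      rw [mul_zero] at a1
      refine squeeze_zero_norm' ?_ a1
      filter_upwards [b2, b3, eventually_ge_atTop 1, log_top.eventually_ge_atTop 1]
        with n c1 c2 c3 c4
      have d1 : ell n ≤ Real.log n := by
        have := Real.rpow_le_rpow_of_exponent_le c4 (by norm_num : (5 / 6 : ℝ) ≤ 1)
        rwa [Real.rpow_one] at this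
      have d2 : √(Real.log n) ≤ Real.log n := by
        rw [Real.sqrt_le_left (by linarith)]; nlinarith
      have d3 : |Y n ω| ≤ (A + A') * Real.log n := by
        rw [abs_le]; constructor <;> nlinarith
      rw [← hX, Real.norm_eq_abs, abs_mul]
      refine (mul_le_mul d3 (sixth_ratio c3) (abs_nonneg _) ((abs_nonneg _).trans d3)).trans
        (le_of_eq ?_)
      ring
  have stepZ : Tendsto (fun n => Y (n + 1) ω / ell (n + 1) - Y n ω / ell n) atTop (𝓝 0) := by
    refine step_div (X := fun n => Y n ω) (a := ell) (ellpos.mono fun n h => h.ne')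
      (stepY.div_atTop (ell_top.comp (tendsto_add_atTop_nat 1))) ?_
    have a1 := ((ell_ratio.sub_const 1).abs).const_mul (L + 1)
    rw [sub_self, abs_zero, mul_zero] at a1
    refine squeeze_zero_norm' ?_ a1
    filter_upwards [env 1 one_pos] with n c1
    rw [Real.norm_eq_abs, abs_mul]
    refine mul_le_mul_of_nonneg_right ?_ (abs_nonneg _)
    rw [abs_le]; constructor <;> linarith [c1.1, c1.2]
  have low : ∀ x : ℝ, l < x → ∃ᶠ n in atTop, Y n ω < x := by
    intro x hx
    rw [← b5] at hx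
    exact (frequently_lt_of_liminf_lt (by isBoundedDefault) hx).mono fun n h => by
      exact_mod_cast h
  refine ⟨env, fun x => ⟨fun h => ?_, fun h => ?_⟩, b3.mono fun n h => h.le, stepY, b5,
    fun x => ⟨fun h => ?_, fun h => ?_⟩⟩
  · constructor
    · refine le_of_forall_pos_le_add fun e he => ?_
      obtain ⟨n, c1, c2⟩ := ((h.frequently (gt_mem_nhds (by linarith : x < x + e / 2))).and_eventually
        (env (e / 2) (by linarith))).exists
      linarith [c2.1]
    · refine le_of_forall_pos_le_add fun e he => ?_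
      obtain ⟨n, c1, c2⟩ := ((h.frequently (lt_mem_nhds (by linarith : x - e / 2 < x))).and_eventually
        (env (e / 2) (by linarith))).exists
      linarith [c2.2]
  · refine cluster_of_slow stepZ (fun e he => ?_) fun e he => ?_
    · refine ((low 0 (by exact_mod_cast l3)).and_eventually ellpos).mono fun n c1 => ?_
      have := div_neg_of_neg_of_pos c1.1 c1.2
      linarith [h.1]
    · have a1 : ((x - e : ℝ) : EReal) < limsup (fun n => ((Y n ω / ell n : ℝ) : EReal)) atTop := by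
        rw [b4]; exact_mod_cast (by linarith [h.2] : x - e < L)
      exact (frequently_lt_of_lt_limsup (by isBoundedDefault) a1).mono fun n h => by
        exact_mod_cast h
  · by_contra hh
    obtain ⟨y, hy1, hy2⟩ := EReal.lt_iff_exists_real_btwn.1 (not_le.1 hh)
    rw [← b5] at hy2
    obtain ⟨n, c1, c2⟩ := ((h.frequently (gt_mem_nhds (by exact_mod_cast hy1 : x < y))).and_eventually
      (eventually_lt_of_lt_liminf hy2)).exists
    have : y < Y n ω := by exact_mod_cast c2
    linarith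
  · refine cluster_of_slow stepY (fun e he => low _ ?_) fun e _ => ?_
    · exact lt_of_le_of_lt h (by exact_mod_cast (by linarith : x < x + e))
    · refine (b1.and_eventually ((ell_top.const_mul_atTop ha).eventually_gt_atTop (x - e))).mono
        fun n c1 => ?_
      linarith [c1.1, c1.2]

end Prob

end Vale.Agent.N146.LogA
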