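import Vale.Agent.N146.SiteE

/-!
# P146, the window in the number of sites, part F: resampling the couplings of the last sites
-/

open MeasureTheory ProbabilityTheory Filter Topology Finset

namespace Vale.Agent.N146

open Vale.Agent.P146 Vale.Agent.P146.Ub.Cv Vale.Agent.P146.H605 Vale.Agent.P146.R2
  Vale.Agent.P146.R2.H749 Vale.Agent.P146.R3.H793

variable {β : ℝ}

lemma cov_spl (m : ℕ) (β : ℝ) (S : Finset (Fin m)) :
    cov[fun q => freeEnergy m β q.1, fun q => freeEnergy m β (spl (out S) q.1 q.2);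
      (gpi (Pair m)).prod (gpi (Pair m))] =
    ∫ q, (freeEnergy m β q.1 - ∫ g, freeEnergy m β g ∂(gpi (Pair m))) *
      (freeEnergy m β (spl (out S) q.1 q.2) - ∫ g, freeEnergy m β g ∂(gpi (Pair m)))
      ∂((gpi (Pair m)).prod (gpi (Pair m))) ∧
    cov[fun q => freeEnergy m β q.1, fun q => freeEnergy m β (spl (out S) q.1 q.2);
      (gpi (Pair m)).prod (gpi (Pair m))] =
    ∫ q, freeEnergy m β q.1 * freeEnergy m β (spl (out S) q.1 q.2)
      ∂((gpi (Pair m)).prod (gpi (Pair m))) - (∫ g, freeEnergy m β g ∂(gpi (Pair m))) ^ 2 := by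
  have hA := freeEnergy_dom m β
  have p1 : MeasurePreserving (Prod.fst : (Pair m → ℝ) × (Pair m → ℝ) → Pair m → ℝ)
      ((gpi (Pair m)).prod (gpi (Pair m))) (gpi (Pair m)) := measurePreserving_fst
  have p2 := mp_spl (ι := Pair m) (out S)
  have e1 := integral_map (μ := (gpi (Pair m)).prod (gpi (Pair m))) p1.measurable.aemeasurable
    (f := freeEnergy m β) hA.cont.aestronglyMeasurable
  have e2 := integral_map (μ := (gpi (Pair m)).prod (gpi (Pair m))) p2.measurable.aemeasurable
    (f := freeEnergy m β) hA.cont.aestronglyMeasurable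
  rw [p1.map_eq] at e1
  rw [p2.map_eq] at e2
  have m1 : MemLp (fun q : (Pair m → ℝ) × (Pair m → ℝ) => freeEnergy m β q.1) 2
      ((gpi (Pair m)).prod (gpi (Pair m))) := (memLp_dom hA).comp_measurePreserving p1
  have m2 : MemLp (fun q : (Pair m → ℝ) × (Pair m → ℝ) => freeEnergy m β (spl (out S) q.1 q.2)) 2
      ((gpi (Pair m)).prod (gpi (Pair m))) := (memLp_dom hA).comp_measurePreserving p2
  constructor
  · unfold covariance
    simp only
    rw [← e1, ← e2]
  · rw [covariance_eq_sub m1 m2, ← e1, ← e2, sq]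
    rfl

lemma rn_splice (n m : ℕ) (ω ω' : ℕ × ℕ → ℝ) :
    rn m (splice n ω ω') = spl (out (late n m)) (rn m ω) (rn m ω') := by
  funext p
  unfold spl
  by_cases h : out (late n m) p
  · rw [if_pos h]
    exact if_pos ((out_late p).1 h)
  · rw [if_neg h]
    exact if_neg fun h' => h ((out_late p).2 h')

/-- **The window in the number of resampled sites is `m^{2/3}`.** -/
theorem siteWin (hβ : 1 < β) : ∃ C : ℝ, 0 < C ∧ ∀ n m : ℕ, n < m → 2 ≤ m →
    (1 - C * (((m : ℝ) - n) / (m : ℝ) ^ (2 / 3 : ℝ)) ^ (1 / 1000 : ℝ)) *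
      Var[freeEnergy m β; disorder m] ≤
    cov[fun q => freeEnergy m β (rn m q.1), fun q => freeEnergy m β (rn m (splice n q.1 q.2));
      arr.prod arr] ∧
    cov[fun q => freeEnergy m β (rn m q.1), fun q => freeEnergy m β (rn m (splice n q.1 q.2));
      arr.prod arr] ≤
      C * (((m : ℝ) - n) / (m : ℝ) ^ (2 / 3 : ℝ)) ^ (-(1 / 4000) : ℝ) *
        Var[freeEnergy m β; disorder m] := by
  obtain ⟨C, hC, H⟩ := inputs hβ
  obtain ⟨D, hD, G⟩ := far hβ
  have hCD : 0 < D * C := by positivity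
  refine ⟨3 * C + D * C, by linarith, fun n m h hm => ?_⟩
  obtain ⟨hV, -, H⟩ := H m hm
  have hm1 : (1 : ℝ) ≤ m := by exact_mod_cast (by omega : 1 ≤ m)
  have hm0 : (0 : ℝ) < m := by linarith
  have hnm : (0 : ℝ) < (m : ℝ) - n := by
    have : (n : ℝ) < m := by exact_mod_cast h
    linarith
  have hA := freeEnergy_dom m β
  have pp : MeasurePreserving (Prod.map (rn m) (rn m)) (arr.prod arr)
      ((gpi (Pair m)).prod (gpi (Pair m))) := (mp_rn m).prod (mp_rn m)
  have e0 : cov[fun q => freeEnergy m β (rn m q.1),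
      fun q => freeEnergy m β (rn m (splice n q.1 q.2)); arr.prod arr] =
      cov[fun q => freeEnergy m β q.1, fun q => freeEnergy m β (spl (out (late n m)) q.1 q.2);
        (gpi (Pair m)).prod (gpi (Pair m))] := by
    have a1 : Measurable fun q : (Pair m → ℝ) × (Pair m → ℝ) => freeEnergy m β q.1 :=
      hA.cont.measurable.comp measurable_fst
    have a2 : Measurable fun q : (Pair m → ℝ) × (Pair m → ℝ) =>
        freeEnergy m β (spl (out (late n m)) q.1 q.2) := hA.cont.measurable.comp (meas_spl _)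
    rw [← pp.map_eq, covariance_map_fun a1.aestronglyMeasurable a2.aestronglyMeasurable
      pp.measurable.aemeasurable]
    simp_rw [rn_splice]
    rfl
  rw [e0]
  obtain ⟨e1, e2⟩ := cov_spl m β (late n m)
  have v0 := variance_nonneg (freeEnergy m β) (disorder m)
  have r0 : 0 < ((m : ℝ) - n) / (m : ℝ) ^ (2 / 3 : ℝ) := by positivity
  constructor
  · have k1 := near_raw (β := β) (by omega) (hasSum_spl (out (late n m)) hA)
    rw [card_late h.le] at k1
    have T1 : ((m : ℝ) - n) / m ≤ 1 := by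
      rw [div_le_one hm0]
      have : (0 : ℝ) ≤ n := Nat.cast_nonneg _
      linarith
    obtain ⟨b, -, -⟩ := H _ (div_pos hnm hm0) T1
    have e3 : ((m : ℝ) - n) / m * (m : ℝ) ^ (1 / 3 : ℝ) =
        ((m : ℝ) - n) / (m : ℝ) ^ (2 / 3 : ℝ) := by
      have k : (m : ℝ) ^ (1 / 3 : ℝ) * (m : ℝ) ^ (2 / 3 : ℝ) = m := by
        rw [← Real.rpow_add hm0]
        norm_num
      rw [div_mul_eq_mul_div, div_eq_div_iff hm0.ne' (by positivity), mul_assoc, k]
    rw [e3] at b
    rw [e2]
    have k2 := var_F m β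
    have k3 : 0 ≤ D * C * (((m : ℝ) - n) / (m : ℝ) ^ (2 / 3 : ℝ)) ^ (1 / 1000 : ℝ) *
        Var[freeEnergy m β; disorder m] := by positivity
    nlinarith
  · obtain ⟨μ, hμ⟩ : ∃ μ : ℝ, μ = ∫ g, freeEnergy m β g ∂(gpi (Pair m)) := ⟨_, rfl⟩
    have hC2 : C2 (fun x => x - μ) (fun _ => 1) (fun _ => 0) :=
      ⟨fun x => (hasDerivAt_id x).sub_const μ, fun x => hasDerivAt_const x 1, continuous_const,
        fun _ => by simp, fun _ => by simp⟩
    have hm0' : ∫ g, (freeEnergy m β g - μ) ∂(gpi (Pair m)) = 0 := by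
      rw [integral_sub hA.integrable (integrable_const _), ← hμ]
      simp
    have hcard : 0 < (late n m).card := by
      have : (0 : ℝ) < (late n m).card := by rw [card_late h.le]; exact hnm
      exact_mod_cast this
    have k1 := G m hm _ _ _ hC2 hm0' (late n m) hcard _
      (hasSum_spl (out (late n m)) (hC2.dom0 (n := m) (β := β)))
    rw [card_late h.le] at k1
    rw [e1, ← hμ]
    refine k1.trans ?_
    have w0 : 0 < (((m : ℝ) - n) / (m : ℝ) ^ (2 / 3 : ℝ)) ^ (-(1 / 4000) : ℝ) := by positivity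
    have k2 := mul_le_mul_of_nonneg_left hV (by positivity :
      0 ≤ D * (((m : ℝ) - n) / (m : ℝ) ^ (2 / 3 : ℝ)) ^ (-(1 / 4000) : ℝ))
    have k3 : 0 ≤ 3 * C * (((m : ℝ) - n) / (m : ℝ) ^ (2 / 3 : ℝ)) ^ (-(1 / 4000) : ℝ) *
        Var[freeEnergy m β; disorder m] := by positivity
    nlinarith

end Vale.Agent.N146
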