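import Vale.Agent.N146.Slow
import Vale.Agent.N146.Arr

/-!
# P146: exponential moments of the difference of the free energies of two sizes
-/

open MeasureTheory ProbabilityTheory Filter Topology

namespace Vale.Agent.N146.Slow

section Gauss

set_option linter.unusedSectionVars false

variable {ι S : Type} [Fintype ι] [Fintype S] [Nonempty S]

/-- the Gibbs weights -/
noncomputable def wt (c : S → ι → ℝ) (s : S) (g : ι → ℝ) : ℝ :=
  Real.exp (lin (c s) g) / ∑ s, Real.exp (lin (c s) g)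

lemma wt0 (c : S → ι → ℝ) (s : S) (g : ι → ℝ) : 0 ≤ wt c s g :=
  div_nonneg (Real.exp_pos _).le (Z_pos c g).le

lemma wt1 (c : S → ι → ℝ) (g : ι → ℝ) : ∑ s, wt c s g = 1 := by
  unfold wt; rw [← Finset.sum_div, div_self (Z_pos c g).ne']

lemma wt_le (c : S → ι → ℝ) (s : S) (g : ι → ℝ) : wt c s g ≤ 1 := by
  rw [← wt1 c g]; exact Finset.single_le_sum (fun s _ => wt0 c s g) (Finset.mem_univ s)

lemma wt_cont (c : S → ι → ℝ) (s : S) : Continuous (wt c s) :=
  (Real.continuous_exp.comp (cont_lin _)).div (cont_Z c) fun g => (Z_pos c g).ne'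

lemma wt_int (c : S → ι → ℝ) (s : S) : Integrable (wt c s) (γ ι) :=
  (integrable_const (1 : ℝ)).mono' (wt_cont c s).aestronglyMeasurable
    (Eventually.of_forall fun g => by
      rw [Real.norm_eq_abs, abs_of_nonneg (wt0 c s g)]; exact wt_le c s g)

lemma exp_LS_sub (c d : S → ι → ℝ) (g : ι → ℝ) :
    Real.exp (LS (c + d) g - LS c g) = ∑ s, wt c s g * Real.exp (lin (d s) g) := by
  unfold LS
  rw [Real.exp_sub, Real.exp_log (Z_pos _ g), Real.exp_log (Z_pos _ g), Finset.sum_div]
  refine Finset.sum_congr rfl fun s _ => ?_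
  simp only [wt, Pi.add_apply c d s, lin_add, Real.exp_add]
  ring

/-- the annealed bound for an independent field -/
lemma int_wt (p : ι → Prop) [DecidablePred p] (c d : S → ι → ℝ) {v : ℝ}
    (hc : ∀ s e, ¬ p e → c s e = 0) (hd : ∀ s e, p e → d s e = 0)
    (hv : ∀ s, ∑ e, d s e ^ 2 ≤ v) (x : ℝ) :
    Integrable (fun g => ∑ s, wt c s g * Real.exp (x * lin (d s) g)) (γ ι) ∧
      ∫ g, ∑ s, wt c s g * Real.exp (x * lin (d s) g) ∂(γ ι) ≤ Real.exp (x ^ 2 * v / 2) := by
  have wdep : ∀ s (x y : ι → ℝ), (∀ e, p e → x e = y e) → wt c s x = wt c s y := by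
    intro s x y hxy
    have : ∀ s, lin (c s) x = lin (c s) y := fun s => Finset.sum_congr rfl fun e _ => by
      by_cases he : p e
      · rw [hxy e he]
      · rw [hc s e he]; simp
    simp only [wt, this]
  simp_rw [← lin_smul]
  have piece : ∀ s : S, Integrable (fun g => wt c s g * Real.exp (lin (x • d s) g)) (γ ι) ∧
      ∫ g, wt c s g * Real.exp (lin (x • d s) g) ∂(γ ι) ≤
        (∫ g, wt c s g ∂(γ ι)) * Real.exp (x ^ 2 * v / 2) := by
    intro s
    refine ⟨(int_exp_lin (x • d s)).mono' ((wt_cont c s).mul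
      (Real.continuous_exp.comp (cont_lin _))).aestronglyMeasurable
      (Eventually.of_forall fun g => ?_), ?_⟩
    · rw [Real.norm_eq_abs, abs_of_nonneg (mul_nonneg (wt0 c s g) (Real.exp_pos _).le)]
      exact mul_le_of_le_one_left (Real.exp_pos _).le (wt_le c s g)
    · rw [integral_mul_disj p (wt c s) (fun g => Real.exp (lin (x • d s) g)) (wdep s),
        integral_exp_lin]
      · refine mul_le_mul_of_nonneg_left (Real.exp_le_exp.2 ?_)
          (integral_nonneg fun g => wt0 c s g)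
        simp only [Pi.smul_apply, smul_eq_mul, mul_pow]
        rw [← Finset.mul_sum]
        have := mul_le_mul_of_nonneg_left (hv s) (sq_nonneg x)
        linarith
      · intro y z hyz
        have : lin (x • d s) y = lin (x • d s) z := Finset.sum_congr rfl fun e _ => by
          by_cases he : p e
          · simp [hd s e he]
          · rw [hyz e he]
        rw [this]
  refine ⟨integrable_finsetSum _ fun s _ => (piece s).1, ?_⟩
  rw [integral_finsetSum _ fun s _ => (piece s).1]
  refine (Finset.sum_le_sum fun s _ => (piece s).2).trans ?_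
  rw [← Finset.sum_mul, ← integral_finsetSum _ fun s _ => wt_int c s]
  simp [wt1]

lemma jensen_exp (w y : S → ℝ) (w0 : ∀ s, 0 ≤ w s) (w1 : ∑ s, w s = 1) :
    Real.exp (∑ s, w s * y s) ≤ ∑ s, w s * Real.exp (y s) := by
  have h := convexOn_exp.map_sum_le (t := Finset.univ) (w := w) (p := y) (fun s _ => w0 s) w1
    fun s _ => Set.mem_univ _
  simpa only [smul_eq_mul] using h

lemma exp_abs_le (c d : S → ι → ℝ) (g : ι → ℝ) {x : ℝ} (hx : 1 ≤ x) :
    Real.exp (x * |LS (c + d) g - LS c g|) ≤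
      ∑ s, wt c s g * Real.exp (x * lin (d s) g) + ∑ s, wt c s g * Real.exp (-x * lin (d s) g) := by
  have n1 : 0 ≤ ∑ s, wt c s g * Real.exp (x * lin (d s) g) :=
    Finset.sum_nonneg fun s _ => mul_nonneg (wt0 c s g) (Real.exp_pos _).le
  have n2 : 0 ≤ ∑ s, wt c s g * Real.exp (-x * lin (d s) g) :=
    Finset.sum_nonneg fun s _ => mul_nonneg (wt0 c s g) (Real.exp_pos _).le
  rcases abs_cases (LS (c + d) g - LS c g) with h | h <;> rw [h.1]
  · have h1 := Real.rpow_arith_mean_le_arith_mean_rpow Finset.univ (fun s => wt c s g)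
      (fun s => Real.exp (lin (d s) g)) (fun s _ => wt0 c s g) (wt1 c g)
      (fun s _ => (Real.exp_pos _).le) hx
    rw [← exp_LS_sub] at h1
    simp only [← Real.exp_mul] at h1
    simp only [mul_comm _ x] at h1
    linarith
  · have h1 := jensen_exp (fun s => wt c s g) (fun s => lin (d s) g) (fun s => wt0 c s g) (wt1 c g)
    rw [← exp_LS_sub, Real.exp_le_exp] at h1
    have h2 := jensen_exp (fun s => wt c s g) (fun s => -x * lin (d s) g) (fun s => wt0 c s g)
      (wt1 c g)
    have h3 : ∑ s, wt c s g * (-x * lin (d s) g) = -x * ∑ s, wt c s g * lin (d s) g := by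
      rw [Finset.mul_sum]; exact Finset.sum_congr rfl fun s _ => by ring
    rw [h3] at h2
    have h4 : x * -(LS (c + d) g - LS c g) ≤ -x * ∑ s, wt c s g * lin (d s) g := by nlinarith
    linarith [Real.exp_le_exp.2 h4]

/-- adding an independent Gaussian field: exponential moments -/
theorem add_field_exp (p : ι → Prop) [DecidablePred p] (c d : S → ι → ℝ) {v : ℝ}
    (hc : ∀ s e, ¬ p e → c s e = 0) (hd : ∀ s e, p e → d s e = 0)
    (hv : ∀ s, ∑ e, d s e ^ 2 ≤ v) {x : ℝ} (hx : 1 ≤ x) :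
    Integrable (fun g => Real.exp (x * |LS (c + d) g - LS c g|)) (γ ι) ∧
      ∫ g, Real.exp (x * |LS (c + d) g - LS c g|) ∂(γ ι) ≤ 2 * Real.exp (x ^ 2 * v / 2) := by
  have P1 := int_wt p c d hc hd hv x
  have P2 := int_wt p c d hc hd hv (-x)
  have ct : Continuous fun g => Real.exp (x * |LS (c + d) g - LS c g|) :=
    Real.continuous_exp.comp (continuous_const.mul ((cont_LS _).sub (cont_LS _)).abs)
  have hI : Integrable (fun g => Real.exp (x * |LS (c + d) g - LS c g|)) (γ ι) :=
    (P1.1.add P2.1).mono' ct.aestronglyMeasurable (Eventually.of_forall fun g => by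
      rw [Real.norm_eq_abs, abs_of_nonneg (Real.exp_pos _).le]; exact exp_abs_le c d g hx)
  refine ⟨hI, (integral_mono hI (P1.1.add P2.1) fun g => exp_abs_le c d g hx).trans ?_⟩
  simp only [Pi.add_apply]
  rw [integral_add P1.1 P2.1]
  have h2 := P2.2
  rw [neg_sq] at h2
  linarith [P1.2]

/-- changing the amplitude of a Gaussian field: exponential moments -/
theorem scale_field_exp (c d : S → ι → ℝ) (t : ℝ) {v x θ l : ℝ} (hv : ∀ s, ∑ e, d s e ^ 2 ≤ v)
    (hx : 0 ≤ x) (h0 : 0 ≤ θ) (h1 : θ ≤ 1) (ht : x * |t| ≤ θ * l) :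
    Integrable (fun g => Real.exp (x * |LS (c + t • d) g - LS c g|)) (γ ι) ∧
      ∫ g, Real.exp (x * |LS (c + t • d) g - LS c g|) ∂(γ ι) ≤
        2 * Real.exp (θ * (Real.log (2 * Fintype.card S) + l ^ 2 * v / 2)) := by
  set U : (ι → ℝ) → ℝ :=
    fun g => ∑ s, (Real.exp (lin (l • d s) g) + Real.exp (lin (-(l • d s)) g)) with hU
  have iU : Integrable U (γ ι) :=
    integrable_finsetSum _ fun s _ => (int_exp_lin _).add (int_exp_lin _)
  have hv' : ∀ s, ∑ e, (l • d s) e ^ 2 ≤ l ^ 2 * v := fun s => by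
    simp only [Pi.smul_apply, smul_eq_mul, mul_pow]
    rw [← Finset.mul_sum]
    exact mul_le_mul_of_nonneg_left (hv s) (sq_nonneg l)
  have hneg : ∀ s, ∑ e, (-(l • d s)) e ^ 2 ≤ l ^ 2 * v := fun s => by
    simpa only [Pi.neg_apply, neg_sq] using hv' s
  have hc : (1 : ℝ) ≤ Fintype.card S := by exact_mod_cast Fintype.card_pos
  set A : ℝ := 2 * Fintype.card S * Real.exp (l ^ 2 * v / 2) with hA
  have A0 : 0 < A := by positivity
  have bU : ∫ g, U g ∂(γ ι) ≤ A := by
    rw [hU, integral_finsetSum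
      (f := fun s g => Real.exp (lin (l • d s) g) + Real.exp (lin (-(l • d s)) g)) _
      fun s _ => (int_exp_lin _).add (int_exp_lin _)]
    have h : ∀ s ∈ (Finset.univ : Finset S),
        ∫ g, (Real.exp (lin (l • d s) g) + Real.exp (lin (-(l • d s)) g)) ∂(γ ι) ≤
          2 * Real.exp (l ^ 2 * v / 2) := by
      intro s _
      rw [integral_add (int_exp_lin _) (int_exp_lin _), integral_exp_lin, integral_exp_lin]
      have h1 := Real.exp_le_exp.2
        (by linarith [hv' s] : (∑ e, (l • d s) e ^ 2) / 2 ≤ l ^ 2 * v / 2)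
      have h2 := Real.exp_le_exp.2
        (by linarith [hneg s] : (∑ e, (-(l • d s)) e ^ 2) / 2 ≤ l ^ 2 * v / 2)
      linarith
    refine (Finset.sum_le_sum h).trans ?_
    rw [Finset.sum_const, Finset.card_univ, nsmul_eq_mul]
    exact le_of_eq (by ring)
  have hs : ∀ g s, Real.exp (lin (l • d s) g) + Real.exp (lin (-(l • d s)) g) ≤ U g := fun g s =>
    Finset.single_le_sum
      (f := fun s => Real.exp (lin (l • d s) g) + Real.exp (lin (-(l • d s)) g))
      (fun s _ => by positivity) (Finset.mem_univ s)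
  have one : ∀ g, 1 ≤ U g := fun g => by
    have h1 := hs g (Classical.arbitrary S)
    have h2 := two_le_exp_add (lin (l • d (Classical.arbitrary S)) g)
    rw [lin_neg] at h1
    linarith
  have habs : ∀ g s, l * |lin (d s) g| ≤ Real.log (U g) := fun g s => by
    have h1 := hs g s
    rw [lin_neg, lin_smul] at h1
    have hu : 0 < U g := by linarith [one g]
    rw [Real.le_log_iff_exp_le hu]
    have h2 := Real.exp_pos (l * lin (d s) g)
    have h3 := Real.exp_pos (-(l * lin (d s) g))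
    rcases abs_cases (lin (d s) g) with h | h <;> rw [h.1]
    · linarith
    · rw [mul_neg]; linarith
  have hb : ∀ g, x * |LS (c + t • d) g - LS c g| ≤ θ * Real.log (U g) := by
    intro g
    obtain ⟨s0, -, hs0⟩ := Finset.exists_max_image Finset.univ (fun s => |lin (d s) g|)
      Finset.univ_nonempty
    have k1 : ∀ s, |t * lin (d s) g| ≤ |t| * |lin (d s0) g| := fun s => by
      rw [abs_mul]; exact mul_le_mul_of_nonneg_left (hs0 s (Finset.mem_univ s)) (abs_nonneg t)
    have k2 : ∀ s, lin ((c + t • d) s) g = lin (c s) g + t * lin (d s) g := fun s => by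
      rw [Pi.add_apply, Pi.smul_apply, lin_add, lin_smul]
    have k3 := LS_le c (c + t • d) g (M := |t| * |lin (d s0) g|) fun s => by
      rw [k2]; linarith [(abs_le.1 (k1 s)).2]
    have k4 := LS_le (c + t • d) c g (M := |t| * |lin (d s0) g|) fun s => by
      rw [k2]; linarith [(abs_le.1 (k1 s)).1]
    have k5 : |LS (c + t • d) g - LS c g| ≤ |t| * |lin (d s0) g| := by
      rw [abs_le]; constructor <;> linarith
    calc _ ≤ x * (|t| * |lin (d s0) g|) := mul_le_mul_of_nonneg_left k5 hx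
      _ = x * |t| * |lin (d s0) g| := by ring
      _ ≤ θ * l * |lin (d s0) g| := mul_le_mul_of_nonneg_right ht (abs_nonneg _)
      _ = θ * (l * |lin (d s0) g|) := by ring
      _ ≤ _ := mul_le_mul_of_nonneg_left (habs g s0) h0
  have hp : ∀ g, Real.exp (x * |LS (c + t • d) g - LS c g|) ≤
      Real.exp (θ * Real.log A) * (1 + U g / A) := by
    intro g
    have hu : 0 < U g := by linarith [one g]
    have hr : 0 < U g / A := div_pos hu A0
    have k1 : θ * Real.log (U g) = θ * Real.log A + θ * Real.log (U g / A) := by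
      rw [Real.log_div hu.ne' A0.ne']; ring
    refine (Real.exp_le_exp.2 (hb g)).trans ?_
    rw [k1, Real.exp_add]
    refine mul_le_mul_of_nonneg_left ?_ (Real.exp_pos _).le
    by_cases h : 0 ≤ Real.log (U g / A)
    · have : θ * Real.log (U g / A) ≤ Real.log (U g / A) := mul_le_of_le_one_left h h1
      have k2 := Real.exp_le_exp.2 this
      rw [Real.exp_log hr] at k2
      linarith
    · have : θ * Real.log (U g / A) ≤ 0 := mul_nonpos_of_nonneg_of_nonpos h0 (by linarith)
      have k2 := Real.exp_le_one_iff.2 this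
      linarith
  have ct : Continuous fun g => Real.exp (x * |LS (c + t • d) g - LS c g|) :=
    Real.continuous_exp.comp (continuous_const.mul ((cont_LS _).sub (cont_LS _)).abs)
  have iB : Integrable (fun g => Real.exp (θ * Real.log A) * (1 + U g / A)) (γ ι) :=
    ((integrable_const _).add (iU.div_const A)).const_mul _
  have hI : Integrable (fun g => Real.exp (x * |LS (c + t • d) g - LS c g|)) (γ ι) :=
    iB.mono' ct.aestronglyMeasurable (Eventually.of_forall fun g => by
      rw [Real.norm_eq_abs, abs_of_nonneg (Real.exp_pos _).le]; exact hp g)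
  refine ⟨hI, (integral_mono hI iB hp).trans ?_⟩
  rw [integral_const_mul, integral_add (integrable_const _) (iU.div_const A), integral_div]
  simp only [integral_const, probReal_univ, smul_eq_mul, one_mul]
  have k1 : (∫ g, U g ∂(γ ι)) / A ≤ 1 := (div_le_one A0).2 bU
  have k2 : Real.log A = Real.log (2 * Fintype.card S) + l ^ 2 * v / 2 := by
    rw [hA, Real.log_mul (by positivity) (Real.exp_pos _).ne', Real.log_exp]
  rw [← k2]
  nlinarith [Real.exp_pos (θ * Real.log A)]

end Gauss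

open Vale.Agent.P146 Vale.Agent.P146.H196

lemma exp_new (b : ℝ) {x : ℝ} (hx : 1 ≤ x) (n k : ℕ) (hn : 1 ≤ n) :
    Integrable (fun g => Real.exp (x * |LS (cf (n + k) (b / √((n + k : ℕ) : ℝ))) g -
      LS (cold n k (b / √((n + k : ℕ) : ℝ))) g|)) (disorder (n + k)) ∧
    ∫ g, Real.exp (x * |LS (cf (n + k) (b / √((n + k : ℕ) : ℝ))) g -
      LS (cold n k (b / √((n + k : ℕ) : ℝ))) g|) ∂(disorder (n + k)) ≤
      2 * Real.exp (x ^ 2 * b ^ 2 * (k : ℝ) ^ 2 / 2) := by
  have hn1 : (1 : ℝ) ≤ n := by exact_mod_cast hn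
  have hk0 : (0 : ℝ) ≤ k := Nat.cast_nonneg k
  have hkk : (k : ℝ) ≤ (k : ℝ) ^ 2 := by exact_mod_cast Nat.le_self_pow two_ne_zero k
  set m : ℝ := ((n + k : ℕ) : ℝ) with hm
  have hm' : m = n + k := by rw [hm]; push_cast; ring
  have hm0 : 0 < m := by linarith
  have hv : ∀ s, ∑ e, cnew n k (b / √m) s e ^ 2 ≤ b ^ 2 * (k : ℝ) ^ 2 := fun s => by
    have h1 : ∀ e : Pair (n + k), cnew n k (b / √m) s e ^ 2 =
        if ¬ (e.1.2 : ℕ) < n then b ^ 2 / m else 0 := fun e => by
      unfold cnew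
      by_cases h : (e.1.2 : ℕ) < n
      · simp [h]
      · simp only [h, if_false, not_false_eq_true, if_true, cf_sq, div_pow, Real.sq_sqrt hm0.le]
    simp_rw [h1]
    rw [← Finset.sum_filter, Finset.sum_const, nsmul_eq_mul]
    calc _ ≤ ((n : ℝ) + k) * k * (b ^ 2 / m) :=
          mul_le_mul_of_nonneg_right (card_new n k) (by positivity)
      _ = b ^ 2 * k := by rw [← hm']; field_simp
      _ ≤ _ := mul_le_mul_of_nonneg_left hkk (sq_nonneg b)
  have A := add_field_exp (fun e : Pair (n + k) => (e.1.2 : ℕ) < n) (cold n k (b / √m))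
    (cnew n k (b / √m)) (fun s e he => by simp [cold, he]) (fun s e he => by simp [cnew, he]) hv hx
  rw [cold_add, ← mul_assoc] at A
  exact A

lemma ratio_le (n k : ℕ) (hn : 1 ≤ n) :
    |√(n : ℝ) / √((n + k : ℕ) : ℝ) - 1| ≤ k / n := by
  have hn1 : (1 : ℝ) ≤ n := by exact_mod_cast hn
  have hk0 : (0 : ℝ) ≤ k := Nat.cast_nonneg k
  set m : ℝ := ((n + k : ℕ) : ℝ) with hm
  have hm' : m = n + k := by rw [hm]; push_cast; ring
  have hm0 : 0 < m := by linarith
  have sm : 0 < √m := Real.sqrt_pos.2 hm0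
  have r1 : √(n : ℝ) / √m ≤ 1 := (div_le_one sm).2 (Real.sqrt_le_sqrt (by linarith))
  have r0 : 0 ≤ √(n : ℝ) / √m := by positivity
  have r2 : (√(n : ℝ) / √m) ^ 2 = n / m := by
    rw [div_pow, Real.sq_sqrt (by linarith), Real.sq_sqrt hm0.le]
  have h5 : (n : ℝ) / m ≤ √(n : ℝ) / √m := by rw [← r2]; nlinarith
  have h6 : 1 - (n : ℝ) / m ≤ k / n := by
    have : 1 - (n : ℝ) / m = k / m := by rw [hm']; field_simp; ring
    rw [this]
    exact div_le_div_of_nonneg_left hk0 (by linarith) (by linarith)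
  rw [abs_sub_comm, abs_of_nonneg (by linarith)]
  linarith

lemma exp_temp (b : ℝ) {x : ℝ} (hx : 0 ≤ x) (n k : ℕ) (hn : 1 ≤ n) :
    Integrable (fun g => Real.exp (x * |LS (cf n (b / √((n + k : ℕ) : ℝ))) g -
      LS (cf n (b / √n)) g|)) (disorder n) ∧
    ∫ g, Real.exp (x * |LS (cf n (b / √((n + k : ℕ) : ℝ))) g - LS (cf n (b / √n)) g|)
      ∂(disorder n) ≤ 8 * Real.exp (x ^ 2 * b ^ 2 * (k : ℝ) ^ 2 / 2) := by
  have hn1 : (1 : ℝ) ≤ n := by exact_mod_cast hn
  have hr := ratio_le n k hn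
  set m : ℝ := ((n + k : ℕ) : ℝ) with hm
  have hm0 : 0 < m := by rw [hm]; exact_mod_cast (by omega : 0 < n + k)
  have sn : 0 < √(n : ℝ) := Real.sqrt_pos.2 (by linarith)
  have sm : 0 < √m := Real.sqrt_pos.2 hm0
  have r4 : x * |b * (√n / √m - 1)| ≤ 1 / n * (x * |b| * k) := by
    calc _ = x * |b| * |√n / √m - 1| := by rw [abs_mul]; ring
      _ ≤ x * |b| * (k / n) := mul_le_mul_of_nonneg_left hr (by positivity)
      _ = _ := by ring
  have hv2 : ∀ s, ∑ e, cf n (1 / √n) s e ^ 2 ≤ (n : ℝ) := fun s => by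
    simp only [cf_sq, Finset.sum_const, Finset.card_univ, nsmul_eq_mul]
    rw [div_pow, Real.sq_sqrt (by linarith), one_pow, mul_one_div, div_le_iff₀ (by linarith)]
    exact card_pair n
  have B := scale_field_exp (cf n (b / √n)) (cf n (1 / √n)) (b * (√n / √m - 1)) hv2 hx
    (by positivity) ((div_le_one (by linarith)).2 hn1) r4
  have e1 : b / √(n : ℝ) + b * (√n / √m - 1) * (1 / √n) = b / √m := by field_simp; ring
  rw [cf_add, e1] at B
  refine ⟨B.1, B.2.trans ?_⟩
  have l0 : 0 ≤ Real.log 2 := Real.log_nonneg one_le_two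
  have hl : Real.log (2 * (Fintype.card (Fin n → ℤˣ) : ℝ)) = (n + 1) * Real.log 2 := by
    rw [Fintype.card_fun, Fintype.card_units_int, Fintype.card_fin]
    push_cast
    rw [← pow_succ', Real.log_pow]; push_cast; ring
  have h4 : (8 : ℝ) = 2 * Real.exp (2 * Real.log 2) := by
    rw [mul_comm 2 (Real.log 2), Real.exp_mul, Real.exp_log two_pos]; norm_num
  rw [h4, mul_assoc 2, ← Real.exp_add, hl]
  refine mul_le_mul_of_nonneg_left (Real.exp_le_exp.2 ?_) two_pos.le
  have h5 : 1 / (n : ℝ) * ((n + 1) * Real.log 2) ≤ 2 * Real.log 2 := by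
    rw [← mul_assoc]
    refine mul_le_mul_of_nonneg_right ?_ l0
    rw [one_div, inv_mul_le_iff₀ (by linarith)]; linarith
  have h6 : 1 / (n : ℝ) * ((x * |b| * k) ^ 2 * n / 2) = x ^ 2 * b ^ 2 * (k : ℝ) ^ 2 / 2 := by
    rw [mul_pow, mul_pow, sq_abs]; field_simp
  rw [mul_add, h6]; linarith

lemma exp_three {x k D u w : ℝ} (hx : 0 ≤ x) (h : |D| ≤ k + (|u| + |w|)) :
    Real.exp (x * |D|) ≤
      Real.exp (x * k) / 2 * (Real.exp (2 * x * |u|) + Real.exp (2 * x * |w|)) := by
  have h2 := Real.exp_le_exp.2 (mul_le_mul_of_nonneg_left h hx)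
  rw [mul_add, mul_add, Real.exp_add, Real.exp_add] at h2
  refine h2.trans ?_
  have h3 : Real.exp (2 * x * |u|) = Real.exp (x * |u|) ^ 2 := by
    rw [← Real.exp_nat_mul]; congr 1; push_cast; ring
  have h4 : Real.exp (2 * x * |w|) = Real.exp (x * |w|) ^ 2 := by
    rw [← Real.exp_nat_mul]; congr 1; push_cast; ring
  rw [h3, h4]
  have h5 := mul_nonneg (Real.exp_pos (x * k)).le
    (sq_nonneg (Real.exp (x * |u|) - Real.exp (x * |w|)))
  nlinarith

/-- adding `k` sites: exponential moments -/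
theorem exp_step (b : ℝ) {x : ℝ} (hx : 1 ≤ x) (n k : ℕ) (hn : 1 ≤ n) :
    Integrable (fun g => Real.exp (x * |freeEnergy (n + k) b g - freeEnergy n b (res n k g)|))
      (disorder (n + k)) ∧
    ∫ g, Real.exp (x * |freeEnergy (n + k) b g - freeEnergy n b (res n k g)|)
      ∂(disorder (n + k)) ≤ 5 * Real.exp (x * k + 2 * x ^ 2 * b ^ 2 * (k : ℝ) ^ 2) := by
  have A := exp_new b (x := 2 * x) (by linarith) n k hn
  have B := exp_temp b (x := 2 * x) (by linarith) n k hn
  have e : (2 * x) ^ 2 * b ^ 2 * (k : ℝ) ^ 2 / 2 = 2 * x ^ 2 * b ^ 2 * (k : ℝ) ^ 2 := by ring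
  rw [e] at A B
  have c2 : Continuous fun g => Real.exp (2 * x * |LS (cf n (b / √((n + k : ℕ) : ℝ))) g -
      LS (cf n (b / √n)) g|) :=
    Real.continuous_exp.comp (continuous_const.mul ((cont_LS _).sub (cont_LS _)).abs)
  have i2 := ((mp_res n k).integrable_comp c2.aestronglyMeasurable).2 B.1
  have B2 := B.2
  rw [← int_res n k c2] at B2
  have l2 : Real.log 2 ≤ 1 := by linarith [Real.log_two_lt_d9]
  have l0 : 0 ≤ Real.log 2 := Real.log_nonneg one_le_two
  have hk0 : (0 : ℝ) ≤ k := Nat.cast_nonneg k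
  have hp : ∀ g, Real.exp (x * |freeEnergy (n + k) b g - freeEnergy n b (res n k g)|) ≤
      Real.exp (x * k) / 2 *
        (Real.exp (2 * x * |LS (cf (n + k) (b / √((n + k : ℕ) : ℝ))) g -
          LS (cold n k (b / √((n + k : ℕ) : ℝ))) g|) +
        Real.exp (2 * x * |LS (cf n (b / √((n + k : ℕ) : ℝ))) (res n k g) -
          LS (cf n (b / √n)) (res n k g)|)) := by
    intro g
    refine exp_three (by linarith) ?_
    have eD : freeEnergy (n + k) b g - freeEnergy n b (res n k g) =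
        k * Real.log 2 + ((LS (cf (n + k) (b / √((n + k : ℕ) : ℝ))) g -
          LS (cold n k (b / √((n + k : ℕ) : ℝ))) g) +
        (LS (cf n (b / √((n + k : ℕ) : ℝ))) (res n k g) - LS (cf n (b / √n)) (res n k g))) := by
      rw [F_eq, F_eq, LS_cold]; ring
    rw [eD]
    refine (abs_add_le _ _).trans (add_le_add ?_ (abs_add_le _ _))
    rw [abs_of_nonneg (by positivity)]
    exact mul_le_of_le_one_right hk0 l2
  have ct : Continuous fun g =>
      Real.exp (x * |freeEnergy (n + k) b g - freeEnergy n b (res n k g)|) :=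
    Real.continuous_exp.comp (continuous_const.mul
      ((cont_F _ b).sub ((cont_F n b).comp (cont_res n k))).abs)
  have iB := (A.1.add i2).const_mul (Real.exp (x * k) / 2)
  have hI := iB.mono' ct.aestronglyMeasurable (Eventually.of_forall fun g => by
      rw [Real.norm_eq_abs, abs_of_nonneg (Real.exp_pos _).le]; exact hp g)
  refine ⟨hI, (integral_mono hI iB hp).trans ?_⟩
  simp only [Pi.add_apply]
  rw [integral_const_mul, integral_add A.1 i2, Real.exp_add]
  have h6 := mul_le_mul_of_nonneg_left (add_le_add A.2 B2) (half_pos (Real.exp_pos (x * k))).le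
  exact h6.trans (le_of_eq (by ring))

/-- the means -/
theorem mean_step (b : ℝ) (n k : ℕ) (hn : 1 ≤ n) :
    |meanF (n + k) b - meanF n b| ≤ (1 + √(KK b)) * k := by
  rcases Nat.eq_zero_or_pos k with rfl | hk
  · simp
  have m2 : MemLp (fun g => freeEnergy n b (res n k g)) 2 (disorder (n + k)) :=
    (memLp_F n b).comp_measurePreserving (mp_res n k)
  have m3 : MemLp (fun g => freeEnergy (n + k) b g - freeEnergy n b (res n k g) - k * Real.log 2) 2
      (disorder (n + k)) := ((memLp_F _ b).sub m2).sub (memLp_const _)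
  have h1 := int_abs_le m3 (r := √(KK b) * k) (by positivity)
    (by rw [mul_pow, Real.sq_sqrt (KK_pos b).le]; exact step b n k hn hk)
  have h2 := abs_integral_le_integral_abs.trans h1
  have i1 := (memLp_F (n + k) b).integrable one_le_two
  have i2 := m2.integrable one_le_two
  rw [integral_sub (f := fun g => freeEnergy (n + k) b g - freeEnergy n b (res n k g))
    (i1.sub i2) (integrable_const _), integral_sub i1 i2, int_res n k (cont_F n b)] at h2
  simp only [integral_const, probReal_univ, smul_eq_mul, one_mul] at h2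
  have l2 : Real.log 2 ≤ 1 := by linarith [Real.log_two_lt_d9]
  have l0 : 0 ≤ Real.log 2 := Real.log_nonneg one_le_two
  have hk0 : (0 : ℝ) ≤ k := Nat.cast_nonneg k
  have h3 : (k : ℝ) * Real.log 2 ≤ k := mul_le_of_le_one_right hk0 l2
  have h4 : 0 ≤ (k : ℝ) * Real.log 2 := by positivity
  unfold meanF
  rw [abs_le] at h2 ⊢
  constructor <;> linarith [h2.1, h2.2]

/-! ### The same on the infinite array -/

lemma arr_of (n k : ℕ) {Φ : ℝ → ℝ → ℝ} (hΦ : Continuous fun z : ℝ × ℝ => Φ z.1 z.2) (b : ℝ) :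
    (Integrable (fun g => Φ (freeEnergy (n + k) b g) (freeEnergy n b (res n k g)))
        (disorder (n + k)) →
      Integrable (fun ω => Φ (freeEnergy (n + k) b (rn (n + k) ω)) (freeEnergy n b (rn n ω))) arr) ∧
    ∫ ω, Φ (freeEnergy (n + k) b (rn (n + k) ω)) (freeEnergy n b (rn n ω)) ∂arr =
      ∫ g, Φ (freeEnergy (n + k) b g) (freeEnergy n b (res n k g)) ∂(disorder (n + k)) := by
  have ct : Continuous fun g => Φ (freeEnergy (n + k) b g) (freeEnergy n b (res n k g)) :=
    hΦ.comp ((cont_F _ b).prodMk ((cont_F n b).comp (cont_res n k)))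
  refine ⟨fun h => ((mp_rn (n + k)).integrable_comp ct.aestronglyMeasurable).2 h, ?_⟩
  rw [← (mp_rn (n + k)).map_eq, integral_map (meas_rn _).aemeasurable ct.aestronglyMeasurable]
  rfl

/-- exponential moments of `F_m - F_n` on the infinite array -/
theorem exp_arr (b : ℝ) {x : ℝ} (hx : 1 ≤ x) {n m : ℕ} (hn : 1 ≤ n) (h : n ≤ m) :
    Integrable (fun ω => Real.exp (x * |freeEnergy m b (rn m ω) - freeEnergy n b (rn n ω)|)) arr ∧
    ∫ ω, Real.exp (x * |freeEnergy m b (rn m ω) - freeEnergy n b (rn n ω)|) ∂arr ≤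
      5 * Real.exp (x * ((m : ℝ) - n) + 2 * x ^ 2 * b ^ 2 * ((m : ℝ) - n) ^ 2) := by
  obtain ⟨k, rfl⟩ := Nat.exists_eq_add_of_le h
  have h1 := arr_of n k (Φ := fun u w => Real.exp (x * |u - w|)) (by fun_prop) b
  have h2 := exp_step b hx n k hn
  push_cast
  rw [add_sub_cancel_left]
  exact ⟨h1.1 h2.1, h1.2 ▸ h2.2⟩

/-- the means -/
theorem mean_two (b : ℝ) {n m : ℕ} (hn : 1 ≤ n) (h : n ≤ m) :
    |meanF m b - meanF n b| ≤ (1 + √(KK b)) * ((m : ℝ) - n) := by
  obtain ⟨k, rfl⟩ := Nat.exists_eq_add_of_le h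
  have := mean_step b n k hn
  push_cast
  rwa [add_sub_cancel_left]

/-- exponential moments of `X_m - X_n` on the infinite array -/
theorem expX_arr (b : ℝ) {x : ℝ} (hx : 1 ≤ x) {n m : ℕ} (hn : 1 ≤ n) (h : n ≤ m) :
    Integrable (fun ω => Real.exp (x * |(freeEnergy m b (rn m ω) - meanF m b) -
      (freeEnergy n b (rn n ω) - meanF n b)|)) arr ∧
    ∫ ω, Real.exp (x * |(freeEnergy m b (rn m ω) - meanF m b) -
      (freeEnergy n b (rn n ω) - meanF n b)|) ∂arr ≤
      5 * Real.exp (x * (2 + √(KK b)) * ((m : ℝ) - n) + 2 * x ^ 2 * b ^ 2 * ((m : ℝ) - n) ^ 2) := by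
  have h1 := exp_arr b hx hn h
  have h2 := mean_two b hn h
  have hp : ∀ ω, Real.exp (x * |(freeEnergy m b (rn m ω) - meanF m b) -
      (freeEnergy n b (rn n ω) - meanF n b)|) ≤ Real.exp (x * ((1 + √(KK b)) * ((m : ℝ) - n))) *
        Real.exp (x * |freeEnergy m b (rn m ω) - freeEnergy n b (rn n ω)|) := by
    intro ω
    rw [← Real.exp_add, ← mul_add, Real.exp_le_exp]
    refine mul_le_mul_of_nonneg_left ?_ (by linarith)
    have h3 := abs_sub (freeEnergy m b (rn m ω) - freeEnergy n b (rn n ω)) (meanF m b - meanF n b)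
    rw [show freeEnergy m b (rn m ω) - meanF m b - (freeEnergy n b (rn n ω) - meanF n b) =
      freeEnergy m b (rn m ω) - freeEnergy n b (rn n ω) - (meanF m b - meanF n b) by ring]
    linarith
  have ms : Measurable fun ω => Real.exp (x * |(freeEnergy m b (rn m ω) - meanF m b) -
      (freeEnergy n b (rn n ω) - meanF n b)|) :=
    (measurable_const.mul (((cont_X m b).measurable.comp (meas_rn m)).sub
      ((cont_X n b).measurable.comp (meas_rn n))).abs).exp
  have iB := h1.1.const_mul (Real.exp (x * ((1 + √(KK b)) * ((m : ℝ) - n))))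
  have hI := iB.mono' ms.aestronglyMeasurable (Eventually.of_forall fun ω => by
      rw [Real.norm_eq_abs, abs_of_nonneg (Real.exp_pos _).le]; exact hp ω)
  refine ⟨hI, (integral_mono hI iB hp).trans ?_⟩
  rw [integral_const_mul]
  refine (mul_le_mul_of_nonneg_left h1.2 (Real.exp_pos _).le).trans (le_of_eq ?_)
  rw [mul_left_comm, ← Real.exp_add]
  congr 2
  ring

/-- second moment of `X_m - X_n` on the infinite array -/
theorem sqX_arr (b : ℝ) {n m : ℕ} (hn : 1 ≤ n) (h : n ≤ m) :
    ∫ ω, ((freeEnergy m b (rn m ω) - meanF m b) - (freeEnergy n b (rn n ω) - meanF n b)) ^ 2 ∂arr ≤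
      KK b * ((m : ℝ) - n) ^ 2 := by
  obtain ⟨k, rfl⟩ := Nat.exists_eq_add_of_le h
  have h1 := arr_of n k (Φ := fun u w => ((u - meanF (n + k) b) - (w - meanF n b)) ^ 2)
    (by fun_prop) b
  have h2 := stepX b n k hn
  push_cast
  rw [add_sub_cancel_left]
  exact h1.2 ▸ h2

/-- second moment of `Y_m - Y_n` on the infinite array -/
theorem sqY_arr (b : ℝ) {n m : ℕ} (hn : 1 ≤ n) (h : n ≤ m) :
    ∫ ω, (Y m b (rn m ω) - Y n b (rn n ω)) ^ 2 ∂arr ≤
      4 * KK b * ((m : ℝ) - n) ^ 2 / (n : ℝ) ^ (1 / 3 : ℝ) := by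
  obtain ⟨k, rfl⟩ := Nat.exists_eq_add_of_le h
  have h1 := arr_of n k (Φ := fun u w => ((u - meanF (n + k) b) / ((n + k : ℕ) : ℝ) ^ (1 / 6 : ℝ) -
    (w - meanF n b) / (n : ℝ) ^ (1 / 6 : ℝ)) ^ 2) (by fun_prop) b
  have h2 := stepY b n k hn
  have e : ((n + k : ℕ) : ℝ) - n = k := by push_cast; ring
  rw [e]
  exact h1.2.trans_le h2

end Vale.Agent.N146.Slow
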