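import Vale.Agent.N146.LawDefs
import Vale.Agent.N146.LawK
import Vale.Agent.N146.Log
import Vale.Agent.N146.Step
import Vale.Agent.N146.SiteF
import Vale.Agent.N146.Proc.Plug

/-!
# P146: the five parts of the theorem on the law of the fluctuations
-/

open MeasureTheory ProbabilityTheory Filter Topology

namespace Vale.Agent.N146

open Vale.Agent.P146 Vale.Agent.P146.H196
open Vale.Agent.P146.H509 (Yn lawY)
open Vale.Agent.N146.Proc (lawP shift rev)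

variable {b : ℝ}

lemma law_Iic {n : ℕ} (hn : 2 ≤ n) (u : ℝ) : (lawY b n : Measure ℝ).real (Set.Iic (-u)) =
    (disorder n).real {g | freeEnergy n b g ≤ meanF n b - u * (n : ℝ) ^ (1 / 6 : ℝ)} := by
  have n0 : (0 : ℝ) < n := by exact_mod_cast (by omega : 0 < n)
  rw [LawK.real_lawY n measurableSet_Iic]
  congr 1
  ext g
  simp only [Set.mem_ofPred_eq, Set.mem_Iic, Yn]
  rw [div_le_iff₀ (by positivity), sub_le_iff_le_add', neg_mul, ← sub_eq_add_neg]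

lemma law_Ici {n : ℕ} (hn : 2 ≤ n) (u : ℝ) : (lawY b n : Measure ℝ).real (Set.Ici u) =
    (disorder n).real {g | meanF n b + u * (n : ℝ) ^ (1 / 6 : ℝ) ≤ freeEnergy n b g} := by
  have n0 : (0 : ℝ) < n := by exact_mod_cast (by omega : 0 < n)
  rw [LawK.real_lawY n measurableSet_Ici]
  congr 1
  ext g
  simp only [Set.mem_ofPred_eq, Set.mem_Ici, Yn]
  rw [le_div_iff₀ (by positivity), le_sub_iff_add_le']

theorem part1 (hb : 1 < b) : ∃ c C : ℝ, 0 < c ∧ 0 < C ∧ ∀ n : ℕ, 2 ≤ n →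
    MemLp (freeEnergy n b) 2 (disorder n) ∧
    c * (n : ℝ) ^ (1 / 3 : ℝ) ≤ Var[freeEnergy n b; disorder n] ∧
    Var[freeEnergy n b; disorder n] ≤ C * (n : ℝ) ^ (1 / 3 : ℝ) ∧
    (∀ u : ℝ, 0 ≤ u → (lawY b n : Measure ℝ).real (Set.Iic (-u)) ≤ Real.exp (-(c * u ^ 2)) ∧
      (lawY b n : Measure ℝ).real (Set.Ici u) ≤
        Real.exp (-(c * min (u ^ 2) (u ^ (6 / 5 : ℝ))))) ∧
    (∀ u : ℝ, C ≤ u → u ≤ c * (n : ℝ) ^ (5 / 6 : ℝ) →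
      Real.exp (-(C * u ^ (6 / 5 : ℝ))) ≤ (lawY b n : Measure ℝ).real (Set.Ici u)) ∧
    ∃ q : ℝ → ℝ, LogConc q ∧ Integrable q ∧ ∫ x, q x = 1 ∧ ∀ A : Set ℝ, MeasurableSet A →
      |(lawY b n : Measure ℝ).real A - ∫ x in A, q x| ≤ C / (n : ℝ) ^ (1 / 6 : ℝ) := by
  obtain ⟨⟨c, C, hc, hC, H⟩, -⟩ := H566.two_sided hb (H865.le_all hb)
  have hS : LawK.SB b C := fun n hn => (H n hn).2.2.1
  refine ⟨c, 4 * C, hc, by linarith, fun n hn => ?_⟩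
  obtain ⟨h1, -, -, -, h5, -, -, -, -, h10, -⟩ := H n hn
  refine ⟨((Slow.memLp_X n b).add (memLp_const (meanF n b))).ae_eq
    (ae_of_all _ fun g => by simp [Slow.Xc]),
    h1.1, h1.2.trans (mul_le_mul_of_nonneg_right (by linarith) (by positivity)),
    fun u hu => ?_, fun u h1 h2 => ?_, ?_⟩
  · rw [law_Iic hn, law_Ici hn]
    exact h10 u hu
  · rw [law_Ici hn]
    refine le_trans (Real.exp_le_exp.2 (neg_le_neg ?_)) (h5 u (by linarith) h2)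
    have : 0 ≤ u := by linarith
    exact mul_le_mul_of_nonneg_right (by linarith) (by positivity)
  · obtain ⟨q, q0, q1, q2, q3, q4⟩ := LawK.tv_lc hS hn
    exact ⟨q, ⟨q0, q1⟩, q2, q3, q4⟩

theorem part2 (hb : 1 < b) :
    IsCompact (limits b) ∧ IsConnected (limits b) ∧
    (∀ ε : ℝ, 0 < ε → ∀ᶠ n in atTop, ∃ ν ∈ limits b, ∀ A : Set ℝ, MeasurableSet A →
      |(lawY b n : Measure ℝ).real A - (ν : Measure ℝ).real A| ≤ ε) ∧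
    ((fun ν : ProbabilityMeasure ℝ => ∫ y, y ^ 2 ∂(ν : Measure ℝ)) '' limits b =
      Set.Icc
        (liminf (fun n : ℕ => Var[freeEnergy n b; disorder n] / (n : ℝ) ^ (1 / 3 : ℝ)) atTop)
        (limsup (fun n : ℕ => Var[freeEnergy n b; disorder n] / (n : ℝ) ^ (1 / 3 : ℝ)) atTop)) ∧
    ∃ c C : ℝ, 0 < c ∧ 0 < C ∧ ∀ φ : ℕ → ℕ, Tendsto φ atTop atTop → ∀ ν : ProbabilityMeasure ℝ,
      Tendsto (lawY b ∘ φ) atTop (𝓝 ν) →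
      (∀ ε : ℝ, 0 < ε → ∀ᶠ j in atTop, ∀ A : Set ℝ, MeasurableSet A →
        |(lawY b (φ j) : Measure ℝ).real A - (ν : Measure ℝ).real A| ≤ ε) ∧
      (∀ k : ℕ, Tendsto (fun j => ∫ g, Yn (φ j) b g ^ k ∂(disorder (φ j))) atTop
        (𝓝 (∫ y, y ^ k ∂(ν : Measure ℝ)))) ∧
      (∀ x : ℝ, Integrable (fun y => Real.exp (x * y)) (ν : Measure ℝ) ∧
        Tendsto (fun j => ∫ g, Real.exp (x * Yn (φ j) b g) ∂(disorder (φ j))) atTop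
          (𝓝 (∫ y, Real.exp (x * y) ∂(ν : Measure ℝ)))) ∧
      (∃ p : ℝ → ℝ, LogConc p ∧ (∀ x, p x ≤ C) ∧
        ((ν : Measure ℝ) = volume.withDensity fun x => ENNReal.ofReal (p x)) ∧
        ∀ a x : ℝ, a < x → 0 < p a → 0 < p x ∧ ContinuousAt p x ∧ ∀ ε : ℝ, 0 < ε →
          ∃ δ : ℝ, 0 < δ ∧ ∀ᶠ j in atTop, ∀ u v : ℝ, x - δ ≤ u → u < v → v ≤ x + δ →
            |(lawY b (φ j) : Measure ℝ).real (Set.Ioc u v) / (v - u) - p x| ≤ ε) ∧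
      ∫ y, y ∂(ν : Measure ℝ) = 0 ∧
      c ≤ ∫ y, y ^ 2 ∂(ν : Measure ℝ) ∧ ∫ y, y ^ 2 ∂(ν : Measure ℝ) ≤ C ∧
      0 ≤ ∫ y, y ^ 3 ∂(ν : Measure ℝ) ∧
      (∀ x : ℝ, C ≤ x → Real.exp (c * x ^ 6) ≤ ∫ y, Real.exp (x * y) ∂(ν : Measure ℝ) ∧
        ∫ y, Real.exp (x * y) ∂(ν : Measure ℝ) ≤ Real.exp (C * x ^ 6)) ∧
      (∀ u : ℝ, C ≤ u → Real.exp (-(C * u ^ (6 / 5 : ℝ))) ≤ (ν : Measure ℝ).real (Set.Ici u) ∧
        (ν : Measure ℝ).real (Set.Ici u) ≤ Real.exp (-(c * u ^ (6 / 5 : ℝ)))) ∧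
      (∀ u : ℝ, 0 ≤ u → (ν : Measure ℝ).real (Set.Iic (-u)) ≤
        Real.exp (-(u ^ 2 / (2 * ∫ y, y ^ 2 ∂(ν : Measure ℝ))))) ∧
      ∀ (a : ℝ) (w : NNReal), (ν : Measure ℝ) ≠ gaussianReal a w := by
  obtain ⟨⟨c0, C0, -, -, H⟩, -, c, C, hc, hC, G⟩ := H566.two_sided hb (H865.le_all hb)
  have hS : LawK.SB b C0 := fun n hn => (H n hn).2.2.1
  obtain ⟨D, hD, hU⟩ := H566.mgU hb
  have hd : LawK.Dens b := fun φ hφ ν hν => by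
    obtain ⟨-, -, -, -, ⟨p, q1, q2, q3⟩, -⟩ := G φ hφ ν hν
    exact ⟨p, fun x => (q1 x).1, q2, q3⟩
  obtain ⟨k1, k2, k3, -, -, k6, -, ⟨k8, -⟩, k9⟩ := LawK.limit_set hD hU hS hd
  have e : {ν | MapClusterPt ν atTop (lawY b)} = limits b := Set.ext k3
  rw [e] at k1 k2 k8
  refine ⟨k1, k2, fun ε hε => (k6 ε hε).mono fun n ⟨ν, h1, h2⟩ => ⟨ν, (k3 ν).1 h1, h2⟩, k8,
    c, C, hc, hC, fun φ hφ ν hν => ?_⟩
  obtain ⟨p1, p2, p3, p4, ⟨p, q1, q2, q3⟩, p6, -, p8, p9, p10, p11⟩ := G φ hφ ν hν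
  obtain ⟨m1, m2⟩ := k9 φ hφ ν hν
  have hT : ∀ t, 0 < (ν : Measure ℝ).real (Set.Ici t) := fun t =>
    ((Real.exp_pos _).trans_le (p10 (max C t) (le_max_left _ _)).1).trans_le
      (measureReal_mono (Set.Ici_subset_Ici.2 (le_max_right _ _)))
  exact ⟨fun ε hε => LawK.tv_lim hS hφ hν (fun x => (q1 x).1) q2 q3 hε, m1,
    fun x => ⟨p6 x, m2 x⟩, ⟨p, ⟨fun x => (q1 x).1, q2⟩, fun x => (q1 x).2, q3,
      fun a x hax ha => LawK.llt hS hφ hν (fun x => (q1 x).1) q2 q3 hT hax ha⟩,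
    p1, p2, p3, p4, p8, p10, p9, p11⟩

theorem part3 (hb : 1 < b) : ∃ C : ℝ, 0 < C ∧ ∀ n m : ℕ, 1 ≤ n → n < m →
    ∫ ω, (Yn m b (rn m ω) - Yn n b (rn n ω)) ^ 2 ∂arr ≤
      C * (((m : ℝ) - n) / (n : ℝ) ^ (1 / 6 : ℝ)) ^ 2 ∧
    (∀ f : (Pair n → ℝ) → ℝ, Measurable f → (∀ g, |f g| ≤ 1) → ∀ h : ℝ → ℝ, LipschitzWith 1 h →
      |cov[fun ω => f (rn n ω), fun ω => h (Yn m b (rn m ω)); arr]| ≤
        C * (((m : ℝ) - n) / (m : ℝ) ^ (2 / 3 : ℝ)) ^ (-(1 / 8000) : ℝ)) ∧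
    (1 - C * (((m : ℝ) - n) / (m : ℝ) ^ (2 / 3 : ℝ)) ^ (1 / 1000 : ℝ)) *
      Var[freeEnergy m b; disorder m] ≤
    cov[fun q => freeEnergy m b (rn m q.1), fun q => freeEnergy m b (rn m (splice n q.1 q.2));
      arr.prod arr] ∧
    cov[fun q => freeEnergy m b (rn m q.1), fun q => freeEnergy m b (rn m (splice n q.1 q.2));
      arr.prod arr] ≤
      C * (((m : ℝ) - n) / (m : ℝ) ^ (2 / 3 : ℝ)) ^ (-(1 / 4000) : ℝ) *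
        Var[freeEnergy m b; disorder m] := by
  obtain ⟨C1, hC1, h1⟩ := siteCov hb
  obtain ⟨C2, hC2, h2⟩ := siteWin hb
  have hK : 0 ≤ |4 * Slow.KK b| := abs_nonneg _
  refine ⟨C1 + C2 + |4 * Slow.KK b|, by linarith, fun n m hn h => ?_⟩
  have hm : 2 ≤ m := by omega
  have n0 : (0 : ℝ) < n := by exact_mod_cast hn
  have hnm : (0 : ℝ) < (m : ℝ) - n := by
    have : (n : ℝ) < m := by exact_mod_cast h
    linarith
  have m0 : (0 : ℝ) < m := by linarith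
  have v0 := variance_nonneg (freeEnergy m b) (disorder m)
  obtain ⟨a1, a2⟩ := h2 n m h hm
  refine ⟨(Slow.sqY_arr b hn h.le).trans ?_, fun f hf hf1 g hg =>
    (h1 n m h hm f hf hf1 g hg).trans (mul_le_mul_of_nonneg_right (by linarith) (by positivity)),
    le_trans (mul_le_mul_of_nonneg_right ?_ v0) a1, a2.trans ?_⟩
  · have e : ((n : ℝ) ^ (1 / 6 : ℝ)) ^ 2 = (n : ℝ) ^ (1 / 3 : ℝ) := by
      rw [← Real.rpow_natCast, ← Real.rpow_mul n0.le]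
      norm_num
    rw [div_pow, e, mul_div_assoc]
    exact mul_le_mul_of_nonneg_right (by linarith [le_abs_self (4 * Slow.KK b)]) (by positivity)
  · have := mul_le_mul_of_nonneg_right (show C2 ≤ C1 + C2 + |4 * Slow.KK b| by linarith)
      (by positivity : 0 ≤ (((m : ℝ) - n) / (m : ℝ) ^ (2 / 3 : ℝ)) ^ (1 / 1000 : ℝ))
    linarith
  · exact mul_le_mul_of_nonneg_right (mul_le_mul_of_nonneg_right (by linarith) (by positivity)) v0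

theorem part4 (hb : 1 < b) : ∃ (L : ℝ) (l : EReal), 0 < L ∧ l < 0 ∧ ∀ᵐ ω ∂arr,
    (∀ e : ℝ, 0 < e → ∀ᶠ n : ℕ in atTop, -e ≤ Yn n b (rn n ω) / Real.log n ^ (5 / 6 : ℝ) ∧
      Yn n b (rn n ω) / Real.log n ^ (5 / 6 : ℝ) ≤ L + e) ∧
    (∀ x : ℝ, MapClusterPt x atTop (fun n : ℕ => Yn n b (rn n ω) / Real.log n ^ (5 / 6 : ℝ)) ↔
      x ∈ Set.Icc 0 L) ∧
    ∀ x : ℝ, MapClusterPt x atTop (fun n : ℕ => Yn n b (rn n ω)) ↔ l ≤ x := by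
  obtain ⟨⟨c, C, hc, hC, H⟩, -⟩ := H566.two_sided hb (H865.le_all hb)
  have hT : Log.Tails b := ⟨c, C, hc, hC, fun n hn => by
    obtain ⟨-, h2, -, -, h5, -, -, -, -, h10, -⟩ := H n hn
    exact ⟨h2.2, h5, h10⟩⟩
  obtain ⟨D, -, G⟩ := siteCov hb
  have hS : Log.SiteCov b := by
    refine ⟨D, 1 / 8000, by norm_num, fun n m hn h f ψ hf hf1 hψ h1 _ => ?_⟩
    have hL : LipschitzWith 1 ψ :=
      lipschitzWith_of_nnnorm_deriv_le (hψ.differentiable (by norm_num)) fun x => by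
        have := h1 x
        exact_mod_cast this
    exact G n m h (by omega) (fun g => f (Slow.Y n b g))
      (hf.comp (Slow.cont_Y n b).measurable) (fun g => hf1 _) ψ hL
  obtain ⟨L, A, l, hL, -, hl, h⟩ := Log.logLaw b hT hS
  exact ⟨L, l, hL, hl, h.mono fun ω hω => ⟨hω.1, hω.2.1, hω.2.2.2.2.2⟩⟩

theorem part5 [MeasurableSpace C(ℝ, ℝ)] [BorelSpace C(ℝ, ℝ)] (hb : 1 < b) :
    IsTightMeasureSet {(lawP b n : Measure C(ℝ, ℝ)) | n} ∧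
    ∃ C : ℝ, 0 < C ∧ ∀ φ : ℕ → ℕ, Tendsto φ atTop atTop →
      ∀ Q : ProbabilityMeasure C(ℝ, ℝ), Tendsto (lawP b ∘ φ) atTop (𝓝 Q) →
      (∃ ν : ProbabilityMeasure ℝ, Tendsto (lawY b ∘ φ) atTop (𝓝 ν) ∧
        ∀ τ : ℝ, (Q : Measure C(ℝ, ℝ)).map (fun y => y τ) = ν) ∧
      (∀ s, MeasurePreserving (shift s) (Q : Measure C(ℝ, ℝ)) Q) ∧
      MeasurePreserving rev (Q : Measure C(ℝ, ℝ)) Q ∧
      (∀ᵐ y ∂(Q : Measure C(ℝ, ℝ)), ∀ S : ℝ, ∃ K : ℝ, ∀ σ τ : ℝ, |σ| ≤ S → |τ| ≤ S →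
        |y τ - y σ| ≤ K * |τ - σ| ^ (1 / 2000 : ℝ)) ∧
      (∀ τ : ℝ, τ ≠ 0 → 0 ≤ ∫ y, y 0 * y τ ∂(Q : Measure C(ℝ, ℝ)) ∧
        ∫ y, y 0 * y τ ∂(Q : Measure C(ℝ, ℝ)) ≤ C * |τ| ^ (-(1 / 500) : ℝ)) ∧
      ∀ A B : Set C(ℝ, ℝ), MeasurableSet A → MeasurableSet B →
        Tendsto (fun τ => (Q : Measure C(ℝ, ℝ)).real (A ∩ shift τ ⁻¹' B)) atTop
          (𝓝 ((Q : Measure C(ℝ, ℝ)).real A * (Q : Measure C(ℝ, ℝ)).real B)) := by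
  obtain ⟨⟨c, C, hc, hC, h1⟩, -⟩ := H566.two_sided hb (H865.le_all hb)
  obtain ⟨D, hD, h2⟩ := H566.Ch.corr_all hb (H566.Ch.vl_of hb (H865.le_all hb))
  obtain ⟨k1, -, c', C', -, hC', k3⟩ := Proc.process hb hc hC (by linarith : 0 < D)
    (fun n hn => (h1 n hn).1) (fun n hn p hp => ((h1 n hn).2.2.2.2.2.2.2.2.2.2.1 p hp).1)
    (fun n hn T h0 hT => ⟨(h2 n hn T h0 hT).1, (h2 n hn T h0 hT).2.1⟩) (lawY b) (fun _ => rfl)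
  refine ⟨k1, C', hC', fun φ hφ Q hQ => ?_⟩
  obtain ⟨a1, a2, a3, a4, -, -, -, a8, a9, -⟩ := k3 φ hφ Q hQ
  exact ⟨a1, a2, a3, a4, fun τ hτ => ⟨(a8 τ hτ).1, (a8 τ hτ).2.1⟩, a9⟩

end Vale.Agent.N146
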