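import Vale.Agent.P146.R3.OrdDefs

/-!
# P146: the slope at the origin of the Parisi order parameter
-/

open Filter Topology

namespace Vale.Agent.N146

open Vale.Agent.P146.R3

/-- `a` is the slope at the origin of the Parisi order parameter at the inverse temperature `b`:
`p` is the infimum of the Parisi functional, the distribution functions of the near minimisers
approach the nondecreasing function `x` on `[0, 1]`, and `x y / y → a` as `y → 0+`. -/
def Slope (b a : ℝ) : Prop :=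
  ∃ (p : ℝ) (x : ℝ → ℝ),
    IsGLB {v : ℝ | ∃ (K : ℕ) (m q : ℕ → ℝ), OrdPar K m q ∧ v = Real.log 2 + parisiSK b K m q} p ∧
    Monotone x ∧
    (∀ ε : ℝ, 0 < ε → ∃ δ : ℝ, 0 < δ ∧ ∀ (K : ℕ) (m q : ℕ → ℝ), OrdPar K m q →
      Real.log 2 + parisiSK b K m q ≤ p + δ → ∀ y ∈ Set.Icc (0 : ℝ) 1,
        |(∫ u in y..1, dfn K m q u) - ∫ u in y..1, x u| ≤ ε) ∧
    Tendsto (fun y => x y / y) (𝓝[>] 0) (𝓝 a)

end Vale.Agent.N146
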