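import Vale.Agent.N146.LawK
import Vale.Agent.P146.Bd4.B3

/-!
# P146: from the sharp exponential moments at the typical scale to the tails of the limit laws
-/

open MeasureTheory ProbabilityTheory Filter Topology Set

namespace Vale.Agent.N146.Soft

open Vale.Agent.P146 Vale.Agent.P146.H509 Vale.Agent.N146.Llt
open Vale.Agent.P146.H196 (meanF)

/-- the constant of the right tail -/
noncomputable def JJ (L : ℝ) : ℝ := 5 / 6 * (6 * L) ^ (-(1 / 5) : ℝ)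

lemma JJ_pos {L : ℝ} (hL : 0 < L) : 0 < JJ L := by
  unfold JJ
  positivity

/-- the exponential moments on a window -/
def Win (μ : Measure ℝ) (L e K M : ℝ) : Prop := ∀ ξ : ℝ, K ≤ ξ → ξ ≤ M →
  |Real.log (∫ y, Real.exp (ξ * y) ∂μ) - L * ξ ^ 6| ≤ e * ξ ^ 6

/-- **From the exponential moments on a window to the tail.** -/
theorem tail_win {L ε : ℝ} (hL : 0 < L) (hε : 0 < ε) : ∃ e K0 : ℝ, 0 < e ∧ 0 < K0 ∧
    ∀ (μ : Measure ℝ) [IsProbabilityMeasure μ],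
      (∀ ξ : ℝ, Integrable (fun y => Real.exp (ξ * y)) μ) → ∀ K M : ℝ, K0 ≤ K → Win μ L e K M →
      ∀ u : ℝ, 6 * L * (2 * K) ^ 5 ≤ u → u ≤ 6 * L * (M / 2) ^ 5 →
        0 < μ.real (Ici u) ∧
        |Real.log (μ.real (Ici u)) + JJ L * u ^ (6 / 5 : ℝ)| ≤ ε * u ^ (6 / 5 : ℝ) := by
  have hA6 : 0 < 6 * L := by positivity
  set κ : ℝ := (6 * L) ^ (6 / 5 : ℝ) with hκ
  have hκ0 : 0 < κ := by positivity
  set η : ℝ := ε * κ with hη
  have hη0 : 0 < η := by positivity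
  obtain ⟨δ, h0, h1, hδ⟩ : ∃ δ : ℝ, 0 < δ ∧ δ ≤ 1 / 10 ∧ 138 * L * δ ≤ η / 4 := by
    refine ⟨min (1 / 10) (η / (552 * L)), by positivity, min_le_left _ _, ?_⟩
    have h2 : min (1 / 10) (η / (552 * L)) ≤ η / (552 * L) := min_le_right _ _
    calc 138 * L * min (1 / 10) (η / (552 * L)) ≤ 138 * L * (η / (552 * L)) :=
          mul_le_mul_of_nonneg_left h2 (by positivity)
      _ = η / 4 := by field_simp; norm_num
  obtain ⟨e, he, he1, he2⟩ : ∃ e : ℝ, 0 < e ∧ 5 * e ≤ L * δ ^ 2 ∧ 2 * e ≤ η / 4 := by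
    refine ⟨min (L * δ ^ 2 / 5) (η / 8), by positivity, ?_, ?_⟩
    · have := min_le_left (L * δ ^ 2 / 5) (η / 8)
      linarith only [this]
    · have := min_le_right (L * δ ^ 2 / 5) (η / 8)
      linarith only [this]
  refine ⟨e, 1 + 2 / (5 * L * δ ^ 2) + 4 / η, he, by positivity,
    fun μ _ hX K M hK hW u hu1 hu2 => ?_⟩
  have a1 : 0 < 2 / (5 * L * δ ^ 2) := by positivity
  have a2 : 0 < 4 / η := by positivity
  have hK1 : 1 ≤ K := by linarith
  have hu : 0 < u := lt_of_lt_of_le (by positivity) hu1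
  obtain ⟨t, ht, hst, hst2⟩ : ∃ t : ℝ, 0 < t ∧ u = 6 * L * t ^ 5 ∧
      u ^ (6 / 5 : ℝ) = κ * t ^ 6 := by
    refine ⟨(u / (6 * L)) ^ (1 / 5 : ℝ), by positivity, ?_, ?_⟩
    · rw [← Real.rpow_natCast, ← Real.rpow_mul (by positivity)]
      norm_num
      field_simp
    · rw [← Real.rpow_natCast, ← Real.rpow_mul (by positivity)]
      rw [show (1 / 5 : ℝ) * ((6 : ℕ) : ℝ) = 6 / 5 by norm_num, hκ,
        ← Real.mul_rpow (by positivity) (by positivity)]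
      congr 1
      field_simp
  have t1 : 2 * K ≤ t := by
    rw [hst] at hu1
    exact le_of_pow_le_pow_left₀ (by norm_num) ht.le (le_of_mul_le_mul_left hu1 hA6)
  have t2 : t ≤ M / 2 := by
    rw [hst] at hu2
    exact (Odd.strictMono_pow (by decide : Odd 5)).le_iff_le.1 (le_of_mul_le_mul_left hu2 hA6)
  have cv : ∀ x : ℝ, K ≤ x → x ≤ M →
      |Real.log (∫ y, Real.exp (x * id y) ∂μ) - x * (1 * 0) - L * 1 * x ^ 6| ≤ e * 1 * x ^ 6 :=
    fun x a b => by simpa using hW x a b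
  have b1 : δ * t ≤ t / 10 := by nlinarith
  have b2 : 0 ≤ δ * t := by positivity
  have b3 : δ * (δ * t) ≤ δ * t / 10 := by nlinarith
  have b4 : 0 ≤ δ * (δ * t) := by positivity
  have k0 := cv t (by linarith) (by linarith)
  have k1 := cv ((1 + δ) * t) (by linarith) (by linarith)
  have k2 := cv ((1 + δ) * t - δ * ((1 + δ) * t)) (by linarith) (by linarith)
  have k3 := cv ((1 + δ) * t + δ * ((1 + δ) * t)) (by linarith) (by linarith)
  have t6 : t ≤ t ^ 6 := le_self_pow₀ (by linarith) (by norm_num)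
  have k4 : 2 ≤ 1 * (5 * L * δ ^ 2 * t ^ 6) := by
    have h2 : 2 / (5 * L * δ ^ 2) ≤ t ^ 6 := by linarith
    rw [div_le_iff₀ (by positivity)] at h2
    linarith
  have k5 : 1 ≤ η / 4 * t ^ 6 := by
    have h2 : 4 / η ≤ t ^ 6 := by linarith
    rw [div_le_iff₀ hη0] at h2
    linarith
  obtain ⟨hP, hlow⟩ := Sh.ldp_low (μ := μ) (X := id) measurable_id hX hL h0 h1 he.le he1 ht
    zero_le_one k1 k2 k3 k4
  have hup := Sh.ldp_up (μ := μ) (X := id) hX ht k0 hP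
  have es : {ω : ℝ | 1 * (0 + 6 * L * t ^ 5) ≤ id ω} = Ici u := by
    ext ω
    simp [hst]
  rw [es] at hP hlow hup
  refine ⟨hP, ?_⟩
  have eJ : JJ L * κ = 5 * L := by
    unfold JJ
    rw [hκ, mul_assoc, ← Real.rpow_add hA6]
    norm_num
    ring
  have hnt : 0 ≤ t ^ 6 := by positivity
  have d1 : (138 * L * δ + 2 * e) * (1 * t ^ 6) ≤ (η / 4 + η / 4) * (1 * t ^ 6) :=
    mul_le_mul_of_nonneg_right (add_le_add hδ he2) (by linarith)
  have d2 : e * t ^ 6 ≤ η * t ^ 6 := mul_le_mul_of_nonneg_right (by linarith) hnt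
  rw [hst2, ← mul_assoc, eJ, ← mul_assoc, ← hη, abs_le]
  constructor <;> linarith

/-- the tail drops by a factor `4` when the argument is multiplied by `q` -/
lemma drop {S : ℝ → ℝ} {J e K q v : ℝ} (hq : 1 < q) (hq2 : q ≤ 2) (he : 0 < e)
    (heJ : 4 * e ≤ J * (q - 1)) (hK : 0 < K)
    (h : ∀ u, K ≤ u → 0 < S u ∧ |Real.log (S u) + J * u ^ (6 / 5 : ℝ)| ≤ e * u ^ (6 / 5 : ℝ))
    (hv : K ≤ v) (hv1 : 1 ≤ v) (hv2 : 2 / e ≤ v) : S (q * v) ≤ S v / 4 := by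
  have v0 : 0 < v := by linarith
  obtain ⟨p1, q1⟩ := h v hv
  obtain ⟨p2, q2⟩ := h (q * v) (by nlinarith)
  rw [Real.mul_rpow (by linarith) v0.le] at q2
  have w1 : q ≤ q ^ (6 / 5 : ℝ) := by
    have := Real.rpow_le_rpow_of_exponent_le hq.le (by norm_num : (1 : ℝ) ≤ 6 / 5)
    rwa [Real.rpow_one] at this
  have w2 : v ≤ v ^ (6 / 5 : ℝ) := by
    have := Real.rpow_le_rpow_of_exponent_le hv1 (by norm_num : (1 : ℝ) ≤ 6 / 5)
    rwa [Real.rpow_one] at this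
  generalize v ^ (6 / 5 : ℝ) = V at *
  generalize q ^ (6 / 5 : ℝ) = Q at *
  have V0 : 0 < V := by linarith
  have hJ : 4 * e ≤ J := by
    have : 0 < J * (q - 1) := by linarith
    have hJ0 : 0 < J := (mul_pos_iff_of_pos_right (by linarith)).1 this
    nlinarith
  have r1 : (J - e) * (q * V) ≤ (J - e) * (Q * V) :=
    mul_le_mul_of_nonneg_left (mul_le_mul_of_nonneg_right w1 V0.le) (by linarith)
  have r2 : 2 ≤ e * V := by
    rw [div_le_iff₀ he] at hv2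
    nlinarith
  have r3 : (J + e) * V + e * V ≤ (J - e) * (q * V) := by
    have : J + e + e ≤ (J - e) * q := by nlinarith
    nlinarith
  refine le_trans ?_ (Sh.ldp_quarter (c := 0) p1 p2 ?_)
  · simp
  · rw [abs_le] at q1 q2
    linarith [q1.1, q2.2]

/-- a quasi-concave density between two values of its tail -/
lemma sand {p S : ℝ → ℝ} (h0 : ∀ x, 0 ≤ p x) (hq : QC p) (hi : Integrable p)
    (mass : ∀ a c : ℝ, a ≤ c → ∫ y in a..c, p y = S a - S c) {v w u z : ℝ} (l1 : v < w)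
    (l2 : w < u) (l3 : u < z) (g1 : w - v ≤ u - w) (g2 : w - v ≤ u) (g3 : z - u ≤ u)
    (g4 : 1 ≤ u - w) (s1 : S w ≤ S v / 4) (s2 : S u ≤ S w / 4) (s3 : S z ≤ S u / 4)
    (pu : 0 < S u) (_u0 : 0 < u) : S u / (2 * u) ≤ p u ∧ p u ≤ S w := by
  obtain ⟨a, ha, hpa⟩ := exists_gt_avg (c := S v / 2 / (w - v)) l1 hi.intervalIntegrable (by
    rw [mass _ _ l1.le, div_mul_cancel₀ _ (by linarith)]
    linarith)
  obtain ⟨c, hc, hpc⟩ := exists_gt_avg (c := S u / 2 / (z - u)) l3 hi.intervalIntegrable (by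
    rw [mass _ _ l3.le, div_mul_cancel₀ _ (by linarith)]
    linarith)
  rw [div_lt_iff₀ (by linarith)] at hpa hpc
  constructor
  · refine le_trans (le_min ?_ ?_) (hq a u c (by linarith [ha.2]) hc.1.le)
    · rw [div_le_iff₀ (by linarith)]
      have := mul_le_mul_of_nonneg_left g2 (h0 a)
      linarith
    · rw [div_le_iff₀ (by linarith)]
      have := mul_le_mul_of_nonneg_left g3 (h0 c)
      linarith
  · have b1 : ∫ _y in w..u, min (p a) (p u) ≤ ∫ y in w..u, p y :=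
      intervalIntegral.integral_mono_on l2.le intervalIntegrable_const hi.intervalIntegrable
        fun y hy => hq a y u (by linarith [ha.2, hy.1]) hy.2
    rw [intervalIntegral.integral_const, smul_eq_mul, mass _ _ l2.le] at b1
    rcases le_total (p a) (p u) with h | h
    · rw [min_eq_left h] at b1
      have := mul_le_mul_of_nonneg_right g1 (h0 a)
      linarith
    · rw [min_eq_right h] at b1
      have := mul_le_mul_of_nonneg_right g4 (h0 u)
      linarith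

lemma mass_eq {ν : ProbabilityMeasure ℝ} {p : ℝ → ℝ} (h0 : ∀ x, 0 ≤ p x) (hi : Integrable p)
    (hν : (ν : Measure ℝ) = volume.withDensity (fun x => ENNReal.ofReal (p x))) (a c : ℝ)
    (hac : a ≤ c) :
    ∫ y in a..c, p y = (ν : Measure ℝ).real (Ici a) - (ν : Measure ℝ).real (Ici c) := by
  rw [intervalIntegral.integral_of_le hac, ← integral_Ico_eq_integral_Ioc,
    ← real_dens hν h0 hi measurableSet_Ico]
  have h1 : (ν : Measure ℝ).real (Ico a c ∪ Ici c) =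
      (ν : Measure ℝ).real (Ico a c) + (ν : Measure ℝ).real (Ici c) :=
    measureReal_union (Set.disjoint_left.2 fun x hx hx2 => absurd hx.2 (not_lt.2 hx2))
      measurableSet_Ici
  rw [Ico_union_Ici_eq_Ici hac] at h1
  linarith

lemma log_small {e u : ℝ} (e0 : 0 < e) (hu : (2 / e) ^ 5 ≤ u) :
    Real.log (2 * u) ≤ e * u ^ (6 / 5 : ℝ) := by
  have a1 : 0 < 2 / e := by positivity
  have a2 : 0 < (2 / e) ^ 5 := by positivity
  have u0 : 0 < u := by linarith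
  have b1 := Real.log_le_sub_one_of_pos (show 0 < 2 * u by linarith)
  have b2 : 2 / e ≤ u ^ (1 / 5 : ℝ) := by
    have := Real.rpow_le_rpow a2.le hu (by norm_num : (0 : ℝ) ≤ 1 / 5)
    rwa [← Real.rpow_natCast, ← Real.rpow_mul a1.le, show ((5 : ℕ) : ℝ) * (1 / 5) = 1 by norm_num,
      Real.rpow_one] at this
  have b3 : u ^ (6 / 5 : ℝ) = u * u ^ (1 / 5 : ℝ) := by
    rw [show (6 / 5 : ℝ) = 1 + 1 / 5 by norm_num, Real.rpow_add u0, Real.rpow_one]
  rw [div_le_iff₀ e0] at b2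
  rw [b3]
  nlinarith

lemma back {J ε e δ w : ℝ} (hJ : 0 < J) (d0 : 0 < δ) (d1 : δ ≤ 1) (d2 : 6 * J * δ ≤ ε)
    (e0 : 0 < e) (e2 : 2 * e ≤ ε) (w0 : 0 < w) :
    (J - ε) * ((1 + δ) * w) ^ (6 / 5 : ℝ) ≤ (J - e) * w ^ (6 / 5 : ℝ) := by
  have w1 : ((1 + δ) * w) ^ (6 / 5 : ℝ) ≤ (1 + δ) ^ 2 * w ^ (6 / 5 : ℝ) := by
    rw [Real.mul_rpow (by linarith) w0.le]
    refine mul_le_mul_of_nonneg_right ?_ (by positivity)
    have := Real.rpow_le_rpow_of_exponent_le (show 1 ≤ 1 + δ by linarith)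
      (by norm_num : (6 / 5 : ℝ) ≤ (2 : ℕ))
    rwa [Real.rpow_natCast] at this
  have w2 : w ^ (6 / 5 : ℝ) ≤ ((1 + δ) * w) ^ (6 / 5 : ℝ) :=
    Real.rpow_le_rpow w0.le (by nlinarith) (by norm_num)
  have w3 : 0 ≤ w ^ (6 / 5 : ℝ) := by positivity
  generalize ((1 + δ) * w) ^ (6 / 5 : ℝ) = U at *
  generalize w ^ (6 / 5 : ℝ) = W at *
  have w4 : (1 + δ) ^ 2 ≤ 1 + 3 * δ := by nlinarith
  have w5 : U ≤ (1 + 3 * δ) * W := w1.trans (mul_le_mul_of_nonneg_right w4 w3)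
  have b1 := mul_le_mul_of_nonneg_left w5 hJ.le
  have hε : 0 ≤ ε / 2 := by linarith
  have b2 : (3 * J * δ) * W ≤ ε / 2 * U := mul_le_mul (by linarith) w2 w3 hε
  have w7 : e * W ≤ ε / 2 * U := mul_le_mul (by linarith) w2 w3 hε
  linarith

lemma geo {δ v : ℝ} (d0 : 0 < δ) (d1 : δ ≤ 1) (v0 : 0 < v) (h : 2 / δ ≤ v) :
    v < (1 + δ) * v ∧ (1 + δ) * v - v ≤ v ∧ 1 ≤ (1 + δ) * v - v := by
  rw [div_le_iff₀ d0] at h
  refine ⟨by nlinarith, by nlinarith, by nlinarith⟩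

/-- **From the tail to a log-concave density.** -/
theorem dens_tail {J ε : ℝ} (hJ : 0 < J) (hε : 0 < ε) : ∃ e : ℝ, 0 < e ∧ ∀ K : ℝ, ∃ K' : ℝ,
    ∀ (ν : ProbabilityMeasure ℝ) (p : ℝ → ℝ), (∀ x, 0 ≤ p x) → LC p →
      (ν : Measure ℝ) = volume.withDensity (fun x => ENNReal.ofReal (p x)) →
      (∀ u, K ≤ u → 0 < (ν : Measure ℝ).real (Ici u) ∧
        |Real.log ((ν : Measure ℝ).real (Ici u)) + J * u ^ (6 / 5 : ℝ)| ≤ e * u ^ (6 / 5 : ℝ)) →
      ∀ u, K' ≤ u → |Real.log (p u) + J * u ^ (6 / 5 : ℝ)| ≤ ε * u ^ (6 / 5 : ℝ) := by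
  obtain ⟨δ, d0, d1, d2⟩ : ∃ δ : ℝ, 0 < δ ∧ δ ≤ 1 ∧ 6 * J * δ ≤ ε := by
    refine ⟨min 1 (ε / (6 * J)), by positivity, min_le_left _ _, ?_⟩
    have := min_le_right 1 (ε / (6 * J))
    rw [le_div_iff₀ (by positivity)] at this
    linarith
  obtain ⟨e, e0, e1, e2⟩ : ∃ e : ℝ, 0 < e ∧ 4 * e ≤ J * δ ∧ 2 * e ≤ ε := by
    refine ⟨min (J * δ / 4) (ε / 2), by positivity, ?_, ?_⟩
    · linarith [min_le_left (J * δ / 4) (ε / 2)]
    · linarith [min_le_right (J * δ / 4) (ε / 2)]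
  refine ⟨e, e0, fun K => ⟨4 * (|K| + 1 + 2 / e + 2 / δ) + (2 / e) ^ 5,
    fun ν p h0 hp hν hT u hu => ?_⟩⟩
  have hi := LawK.lc_int h0 hp hν
  have mass := mass_eq h0 hi hν
  have a1 : 0 < 2 / e := by positivity
  have a2 : 0 < (2 / e) ^ 5 := by positivity
  have a3 : 0 < 2 / δ := by positivity
  have a4 := abs_nonneg K
  have a5 := le_abs_self K
  have lg := log_small e0 (show (2 / e) ^ 5 ≤ u by linarith)
  generalize (2 / e) ^ 5 = E at hu a2
  have hT' : ∀ u, |K| + 1 ≤ u → 0 < (ν : Measure ℝ).real (Ici u) ∧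
      |Real.log ((ν : Measure ℝ).real (Ici u)) + J * u ^ (6 / 5 : ℝ)| ≤ e * u ^ (6 / 5 : ℝ) :=
    fun u hu => hT u (by linarith)
  have dr : ∀ v, |K| + 1 + 2 / e ≤ v →
      (ν : Measure ℝ).real (Ici ((1 + δ) * v)) ≤ (ν : Measure ℝ).real (Ici v) / 4 := fun v hv =>
    drop (S := fun u => (ν : Measure ℝ).real (Ici u)) (by linarith) (by linarith) e0
      (by linarith) (by linarith : 0 < |K| + 1) hT' (by linarith) (by linarith) (by linarith)
  obtain ⟨v, rfl⟩ : ∃ v : ℝ, u = (1 + δ) * ((1 + δ) * v) :=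
    ⟨u / (1 + δ) / (1 + δ), by field_simp⟩
  have v0 : 0 < v := pos_of_mul_pos_left (b := 1 + δ) (pos_of_mul_pos_left (b := 1 + δ)
    (by linarith) (by linarith)) (by linarith)
  have v4 : (1 + δ) * ((1 + δ) * v) ≤ 4 * v := by
    have : (1 + δ) * (1 + δ) ≤ 4 := by nlinarith
    rw [← mul_assoc]
    exact mul_le_mul_of_nonneg_right this v0.le
  obtain ⟨l1, m1, -⟩ := geo d0 d1 v0 (by linarith)
  obtain ⟨l2, -, n2⟩ := geo (v := (1 + δ) * v) d0 d1 (by linarith) (by linarith)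
  obtain ⟨l3, m3, -⟩ := geo (v := (1 + δ) * ((1 + δ) * v)) d0 d1 (by linarith) (by linarith)
  have bk := back hJ d0 d1 d2 e0 e2 (show 0 < (1 + δ) * v by linarith)
  obtain ⟨-, tw⟩ := hT' ((1 + δ) * v) (by linarith)
  obtain ⟨pu, tu⟩ := hT' ((1 + δ) * ((1 + δ) * v)) (by linarith)
  obtain ⟨lo, up⟩ := sand (S := fun u => (ν : Measure ℝ).real (Ici u)) h0 (hp.qc h0) hi mass l1 l2
    l3 (by have := mul_le_mul_of_nonneg_left l1.le d0.le; linarith) (by linarith) m3 n2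
    (dr _ (by linarith)) (dr _ (by linarith)) (dr _ (by linarith)) pu (by linarith)
  have u0 : 0 < (1 + δ) * ((1 + δ) * v) := by linarith
  have pp : 0 < (ν : Measure ℝ).real (Ici ((1 + δ) * ((1 + δ) * v))) /
      (2 * ((1 + δ) * ((1 + δ) * v))) := by positivity
  have lo2 := Real.log_le_log pp lo
  have up2 := Real.log_le_log (pp.trans_le lo) up
  rw [Real.log_div pu.ne' (by positivity)] at lo2
  have w8 : (2 * e) * ((1 + δ) * ((1 + δ) * v)) ^ (6 / 5 : ℝ) ≤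
      ε * ((1 + δ) * ((1 + δ) * v)) ^ (6 / 5 : ℝ) := mul_le_mul_of_nonneg_right e2 (by positivity)
  rw [abs_le] at tu tw ⊢
  constructor
  · linarith only [tu.1, lo2, lg, w8]
  · linarith only [tw.2, up2, bk]

/-- the sharp law of the exponential moments down to the typical scale -/
def Sharp (b L : ℝ) : Prop := ∀ ε : ℝ, 0 < ε → ∃ K d : ℝ, 0 < d ∧ ∀ᶠ n : ℕ in atTop, ∀ x : ℝ,
  K * (n : ℝ) ^ (-(1 / 6) : ℝ) ≤ x → x ≤ d →
    |Real.log (∫ g, Real.exp (x * (freeEnergy n b g - meanF n b)) ∂(disorder n)) -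
      L * n * x ^ 6| ≤ ε * n * x ^ 6

variable {b L : ℝ}

lemma Sharp.win (h : Sharp b L) {e : ℝ} (he : 0 < e) : ∃ K d : ℝ, 0 < d ∧ ∀ᶠ n : ℕ in atTop,
    Win (lawY b n : Measure ℝ) L e K (d * (n : ℝ) ^ (1 / 6 : ℝ)) := by
  obtain ⟨K, d, hd, h⟩ := h e he
  refine ⟨K, d, hd, ?_⟩
  filter_upwards [h, eventually_ge_atTop 1] with n hn hn1 ξ h1 h2
  have hn0 : (0 : ℝ) < n := by exact_mod_cast hn1
  have hp : 0 < (n : ℝ) ^ (-(1 / 6) : ℝ) := Real.rpow_pos_of_pos hn0 _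
  have h3 := hn (ξ * (n : ℝ) ^ (-(1 / 6) : ℝ)) (mul_le_mul_of_nonneg_right h1 hp.le) (by
    refine (mul_le_mul_of_nonneg_right h2 hp.le).trans (le_of_eq ?_)
    rw [mul_assoc, ← Real.rpow_add hn0]
    norm_num)
  rw [mul_assoc L, mul_assoc e, scale_six hn1] at h3
  rw [(exp_lawY (β := b) hn1 ξ).2]
  exact h3

/-- **The matching at the typical scale**: tails at finite size and of all limit laws. -/
theorem soft {D : ℝ} (hL : 0 < L) (hD : 0 < D) (hU : MgU b D) (h : Sharp b L) {ε : ℝ}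
    (hε : 0 < ε) : ∃ K d : ℝ, 0 < d ∧
    (∀ᶠ n : ℕ in atTop, ∀ u : ℝ, K ≤ u → u ≤ d * (n : ℝ) ^ (5 / 6 : ℝ) →
      |Real.log ((disorder n).real
          {g | meanF n b + u * (n : ℝ) ^ (1 / 6 : ℝ) ≤ freeEnergy n b g}) +
        5 / 6 * (6 * L) ^ (-(1 / 5) : ℝ) * u ^ (6 / 5 : ℝ)| ≤ ε * u ^ (6 / 5 : ℝ)) ∧
    ∀ φ : ℕ → ℕ, Tendsto φ atTop atTop → ∀ ν : ProbabilityMeasure ℝ,
      Tendsto (lawY b ∘ φ) atTop (𝓝 ν) →
      (∀ ξ : ℝ, K ≤ ξ →
        |Real.log (∫ y, Real.exp (ξ * y) ∂(ν : Measure ℝ)) - L * ξ ^ 6| ≤ ε * ξ ^ 6) ∧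
      (∀ u : ℝ, K ≤ u → |Real.log ((ν : Measure ℝ).real (Ici u)) +
        5 / 6 * (6 * L) ^ (-(1 / 5) : ℝ) * u ^ (6 / 5 : ℝ)| ≤ ε * u ^ (6 / 5 : ℝ)) ∧
      ∀ p : ℝ → ℝ, (∀ x, 0 ≤ p x) → (∀ s t : ℝ, 0 < s → 0 < t → s + t = 1 → ∀ x y : ℝ,
          p x ^ s * p y ^ t ≤ p (s * x + t * y)) →
        (ν : Measure ℝ) = volume.withDensity (fun x => ENNReal.ofReal (p x)) →
        ∀ u : ℝ, K ≤ u → |Real.log (p u) +
          5 / 6 * (6 * L) ^ (-(1 / 5) : ℝ) * u ^ (6 / 5 : ℝ)| ≤ ε * u ^ (6 / 5 : ℝ) := by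
  obtain ⟨e1, e10, hden⟩ := dens_tail (JJ_pos hL) hε
  obtain ⟨e2, K0, e20, hK0, htail⟩ := tail_win hL (lt_min hε e10)
  obtain ⟨K1, d, hd, hW⟩ := h.win (lt_min hε e20)
  set K : ℝ := max K0 K1 with hK
  have kK : 0 < K := hK0.trans_le (le_max_left _ _)
  obtain ⟨K', hden⟩ := hden (6 * L * (2 * K) ^ 5)
  have mono : ∀ {μ : Measure ℝ} {M e : ℝ}, min ε e2 ≤ e → Win μ L (min ε e2) K1 M →
      Win μ L e K M := fun he hw ξ a c =>
    (hw ξ ((le_max_right _ _).trans a) c).trans (mul_le_mul_of_nonneg_right he (by positivity))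
  have pw : ∀ {u : ℝ}, max K (max (6 * L * (2 * K) ^ 5) K') ≤ u → 0 ≤ u ^ (6 / 5 : ℝ) :=
    fun hu => Real.rpow_nonneg (kK.le.trans ((le_max_left _ _).trans hu)) _
  refine ⟨max K (max (6 * L * (2 * K) ^ 5) K'), 6 * L * (d / 2) ^ 5, by positivity, ?_,
    fun φ hφ ν hν => ?_⟩
  · filter_upwards [hW, eventually_ge_atTop 1] with n hn hn1 u h1 h2
    have hn0 : (0 : ℝ) < n := by exact_mod_cast hn1
    have hN := LawK.N_pos hn1
    have h3 := (htail (lawY b n : Measure ℝ) (fun ξ => (exp_lawY (β := b) hn1 ξ).1) K _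
      (le_max_left _ _) (mono (min_le_right _ _) hn) u
      (((le_max_left _ _).trans (le_max_right _ _)).trans h1) (h2.trans (le_of_eq (by
        have : ((n : ℝ) ^ (1 / 6 : ℝ)) ^ 5 = (n : ℝ) ^ (5 / 6 : ℝ) := by
          rw [← Real.rpow_natCast, ← Real.rpow_mul hn0.le]
          norm_num
        rw [← this]
        ring)))).2
    rw [LawK.real_lawY n measurableSet_Ici] at h3
    have es : {g | Yn n b g ∈ Ici u} =
        {g | meanF n b + u * (n : ℝ) ^ (1 / 6 : ℝ) ≤ freeEnergy n b g} := by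
      ext g
      simp only [mem_ofPred_eq, mem_Ici, Yn]
      rw [le_div_iff₀ hN]
      constructor <;> intro h <;> linarith
    rw [es] at h3
    exact h3.trans (mul_le_mul_of_nonneg_right (min_le_left _ _) (pw h1))
  · have hB := (LawK.expB hD hU).comp hφ
    have hX : ∀ ξ : ℝ, Integrable (fun y => Real.exp (ξ * y)) (ν : Measure ℝ) :=
      fun ξ => (exp_lim hB hν ξ).1
    have hw : ∀ M, Win (ν : Measure ℝ) L (min ε e2) K1 M := by
      intro M ξ h1 _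
      have t1 := ((Conn.gr_exp ξ).lim (LawK.expB hD hU) hφ hν).2
      have t2 := ((t1.log (integral_exp_pos (hX ξ)).ne').sub_const (L * ξ ^ 6)).abs
      refine le_of_tendsto t2 ?_
      have t3 : Tendsto (fun k => d * (φ k : ℝ) ^ (1 / 6 : ℝ)) atTop atTop :=
        (LawK.N_lim.comp hφ).const_mul_atTop hd
      filter_upwards [hφ.eventually hW, t3.eventually_ge_atTop ξ] with k a c using a ξ h1 c
    have ht : ∀ u : ℝ, 6 * L * (2 * K) ^ 5 ≤ u → 0 < (ν : Measure ℝ).real (Ici u) ∧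
        |Real.log ((ν : Measure ℝ).real (Ici u)) + JJ L * u ^ (6 / 5 : ℝ)| ≤
          min ε e1 * u ^ (6 / 5 : ℝ) := by
      intro u hu
      obtain ⟨M, hM⟩ : ∃ M : ℝ, u ≤ 6 * L * (M / 2) ^ 5 := by
        refine ⟨2 * (1 + |u| / (6 * L)), ?_⟩
        have a0 : 0 ≤ |u| / (6 * L) := by positivity
        have a1 : 1 + |u| / (6 * L) ≤ (1 + |u| / (6 * L)) ^ 5 :=
          le_self_pow₀ (by linarith) (by norm_num)
        have a2 : 6 * L * (|u| / (6 * L)) = |u| := by field_simp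
        have a3 := mul_le_mul_of_nonneg_left a1 (show 0 ≤ 6 * L by positivity)
        rw [mul_div_cancel_left₀ _ two_ne_zero]
        nlinarith [le_abs_self u]
      exact htail (ν : Measure ℝ) hX K M (le_max_left _ _) (mono (min_le_right _ _) (hw M)) u hu hM
    refine ⟨fun ξ hξ => mono (min_le_left _ _) (hw ξ) ξ ((le_max_left _ _).trans hξ) le_rfl,
      fun u hu => ?_, fun p h0 hp hd u hu => ?_⟩
    · exact (ht u (((le_max_left _ _).trans (le_max_right _ _)).trans hu)).2.trans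
        (mul_le_mul_of_nonneg_right (min_le_left _ _) (pw hu))
    · refine hden ν p h0 hp hd (fun v hv => ⟨(ht v hv).1, (ht v hv).2.trans
        (mul_le_mul_of_nonneg_right (min_le_right _ _) (Real.rpow_nonneg
          (le_trans (by positivity) hv) _))⟩) u
        (((le_max_right _ _).trans (le_max_right _ _)).trans hu)

end Vale.Agent.N146.Soft
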