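import Vale.Agent.P146.R3.H793.LevP

/-!
# P146, the window in the number of sites, part A: Hermite coefficients

The squares `cs A a` of the normalised Hermite coefficients, the polarised Parseval identity, the
coefficients of second derivatives, of functions which do not depend on a coordinate, and of
partial averages.
-/

open MeasureTheory ProbabilityTheory Filter Topology

namespace Vale.Agent.N146

open Vale.Agent.P146 Vale.Agent.P146.Ub.Cv Vale.Agent.P146.H605 Vale.Agent.P146.R2
  Vale.Agent.P146.R2.H749 Vale.Agent.P146.R3.H793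

variable {ι : Type*} [Fintype ι]

/-- the square of the normalised coefficient -/
noncomputable def cs (A : (ι → ℝ) → ℝ) (α : ι → ℕ) : ℝ :=
  co A α ^ 2 / ∏ i, ((α i).factorial : ℝ)

lemma cs_nonneg (A : (ι → ℝ) → ℝ) (α : ι → ℕ) : 0 ≤ cs A α := by
  unfold cs
  positivity

lemma cs_zero (A : (ι → ℝ) → ℝ) : cs A 0 = (∫ g, A g ∂(gpi ι)) ^ 2 := by
  unfold cs co heM
  simp

lemma hs_congr {κ : Type*} {u v : κ → ℝ} {S : ℝ} (h : HasSum u S) (e : ∀ k, v k = u k) :
    HasSum v S := by
  rwa [show v = u from funext e]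

variable [DecidableEq ι]

lemma hasSum_cs {f : (ι → ℝ) → ℝ} (hf : MemLp f 2 (gpi ι)) :
    HasSum (cs f) (∫ g, f g ^ 2 ∂(gpi ι)) := parseval hf

lemma hasSum_QQ {A : (ι → ℝ) → ℝ} (hA : Dom A) {t : ℝ} (h0 : 0 ≤ t) (h1 : t ≤ 1) :
    HasSum (fun α : ι → ℕ => t ^ (∑ i, α i) * cs A α) (QQ A t) := QQ_hasSum hA h0 h1

/-- **Parseval, polarised.** -/
theorem parseval2 {f h : (ι → ℝ) → ℝ} (hf : MemLp f 2 (gpi ι)) (hh : MemLp h 2 (gpi ι)) :
    HasSum (fun α : ι → ℕ => co f α * co h α / ∏ i, ((α i).factorial : ℝ))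
      (∫ g, f g * h g ∂(gpi ι)) := by
  obtain ⟨b, hb⟩ : ∃ b : HilbertBasis (ι → ℕ) ℝ (Lp ℝ 2 (gpi ι)), ⇑b = vec :=
    ⟨HilbertBasis.mkOfOrthogonalEqBot orthonormal_vec span_vec,
      HilbertBasis.coe_mkOfOrthogonalEqBot _ _⟩
  have h1 := b.hasSum_inner_mul_inner (hf.toLp f) (hh.toLp h)
  rw [hb] at h1
  have h2 : inner ℝ (hf.toLp f) (hh.toLp h) = ∫ g, f g * h g ∂(gpi ι) := by
    rw [L2.inner_def]
    refine integral_congr_ae ?_
    filter_upwards [hf.coeFn_toLp, hh.coeFn_toLp] with g h3 h4
    rw [h3, h4]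
    simp [mul_comm]
  rw [h2] at h1
  have h4 : ∀ α : ι → ℕ, inner ℝ (hf.toLp f) (vec α) * inner ℝ (vec α) (hh.toLp h) =
      co f α * co h α / ∏ i, ((α i).factorial : ℝ) := by
    intro α
    rw [real_inner_comm (hh.toLp h) (vec α), inner_vec hf α, inner_vec hh α, ← nrm_sq]
    unfold co
    have := (nrm_pos α).ne'
    field_simp
  rw [show (fun α : ι → ℕ => inner ℝ (hf.toLp f) (vec α) * inner ℝ (vec α) (hh.toLp h)) =
    fun α => co f α * co h α / ∏ i, ((α i).factorial : ℝ) from funext h4] at h1
  exact h1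

/-! ### derivatives -/

lemma step {A A' : (ι → ℝ) → ℝ} (e : ι) (hc : ∀ α, co A (α + Pi.single e 1) = co A' α)
    (w : (ι → ℕ) → ℝ) {S : ℝ}
    (h : HasSum (fun α : ι → ℕ => w (α + Pi.single e 1) * cs A' α) S) :
    HasSum (fun γ : ι → ℕ => w γ * ((γ e : ℝ) * cs A γ)) S := by
  have hinj : Function.Injective (fun α : ι → ℕ => α + Pi.single e 1) := add_left_injective _
  refine (hinj.hasSum_iff ?_).1 ?_
  · intro γ hγ
    have h0 : γ e = 0 := by
      by_contra h1
      exact hγ ⟨γ - Pi.single e 1, sub_add_single h1⟩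
    rw [h0]
    simp
  · have e1 : ((fun γ : ι → ℕ => w γ * ((γ e : ℝ) * cs A γ)) ∘ fun α => α + Pi.single e 1) =
        fun α : ι → ℕ => w (α + Pi.single e 1) * cs A' α := by
      funext α
      simp only [Function.comp]
      congr 1
      unfold cs
      rw [hc, prod_fact_add, Pi.add_apply, Pi.single_eq_same]
      have : (0 : ℝ) < ∏ i, ((α i).factorial : ℝ) := by positivity
      push_cast
      field_simp
    rw [e1]
    exact h

/-- **The coefficients of a second derivative.** -/
theorem hasSum_two {A A' A'' : (ι → ℝ) → ℝ} (p q : ι) (hA : Dom A) (hA' : Dom A') (hA'' : Dom A'')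
    (hd : ∀ g t, HasDerivAt (fun t => A (Function.update g p t)) (A' (Function.update g p t)) t)
    (hd' : ∀ g t, HasDerivAt (fun t => A' (Function.update g q t)) (A'' (Function.update g q t)) t)
    {t : ℝ} (h0 : 0 ≤ t) (h1 : t ≤ 1) :
    HasSum (fun γ : ι → ℕ => t ^ (∑ i, γ i) * ((γ q : ℝ) - if p = q then 1 else 0) *
      ((γ p : ℝ) * cs A γ)) (t * (t * QQ A'' t)) := by
  have s0 := (hasSum_QQ hA'' h0 h1).mul_left t
  have s1 := step (A := A') (A' := A'') q (co_ibp hA' hA'' q hd') (fun γ => t ^ (∑ i, γ i))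
    (S := t * QQ A'' t) (by
      refine hs_congr s0 ?_
      intro α
      rw [sum_add_single, pow_succ]
      ring)
  have s2 := s1.mul_left t
  refine step (A := A) (A' := A') p (co_ibp hA hA' p hd)
    (fun γ => t ^ (∑ i, γ i) * ((γ q : ℝ) - if p = q then 1 else 0)) ?_
  refine hs_congr s2 ?_
  intro α
  rw [sum_add_single, pow_succ]
  by_cases hpq : p = q
  · subst hpq
    rw [if_pos rfl, Pi.add_apply, Pi.single_eq_same]
    push_cast
    ring
  · rw [if_neg hpq, Pi.add_apply, Pi.single_eq_of_ne (Ne.symm hpq)]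
    push_cast
    ring

/-! ### functions which do not depend on a coordinate -/

lemma int_he {k : ℕ} (hk : k ≠ 0) : ∫ x, he k x ∂(gaussianReal 0 1) = 0 := by
  have h1 := int_heM (ι := Unit) (fun _ => k)
  rw [if_neg (fun h => hk (congrFun h ()))] at h1
  have h2 : MeasurePreserving (Function.eval ()) (gpi Unit) (gaussianReal 0 1) :=
    measurePreserving_eval (fun _ : Unit => gaussianReal 0 1) ()
  have h3 := integral_map (μ := gpi Unit) h2.measurable.aemeasurable (f := he k)
    (H749.continuous_he k).aestronglyMeasurable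
  rw [h2.map_eq] at h3
  rw [h3, ← h1]
  refine integral_congr_ae (Filter.Eventually.of_forall fun g => ?_)
  simp [heM]

theorem co_indep {f : (ι → ℝ) → ℝ} (hf : Measurable f) (e : ι)
    (hi : ∀ g s, f (Function.update g e s) = f g) {α : ι → ℕ} (hα : α e ≠ 0) : co f α = 0 := by
  have hm := measurePreserving_upd (ι := ι) e
  have hc : Measurable fun g => f g * heM α g := hf.mul (dom_heM α).cont.measurable
  have h1 := integral_map (μ := (gpi ι).prod (gaussianReal 0 1)) hm.measurable.aemeasurable
    (f := fun g => f g * heM α g) hc.aestronglyMeasurable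
  rw [hm.map_eq] at h1
  unfold co
  rw [h1]
  have h2 : ∀ q : (ι → ℝ) × ℝ, f (Function.update q.1 e q.2) * heM α (Function.update q.1 e q.2) =
      (f q.1 * ∏ i ∈ Finset.univ.erase e, he (α i) (q.1 i)) * he (α e) q.2 := by
    intro q
    rw [hi, heM_split α e, Function.update_self]
    have h3 : ∏ i ∈ Finset.univ.erase e, he (α i) (Function.update q.1 e q.2 i) =
        ∏ i ∈ Finset.univ.erase e, he (α i) (q.1 i) :=
      Finset.prod_congr rfl fun i hi => by rw [Function.update_of_ne (Finset.ne_of_mem_erase hi)]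
    rw [h3]
    ring
  simp_rw [h2]
  rw [integral_prod_mul (fun g : ι → ℝ => f g * ∏ i ∈ Finset.univ.erase e, he (α i) (g i))
    (he (α e)), int_he hα, mul_zero]

/-! ### partial resampling -/

/-- keep the coordinates in `P`, take the others from `h` -/
def spl (P : ι → Prop) [DecidablePred P] (g h : ι → ℝ) : ι → ℝ :=
  fun i => if P i then g i else h i

omit [Fintype ι] [DecidableEq ι] in
lemma meas_spl (P : ι → Prop) [DecidablePred P] :
    Measurable fun q : (ι → ℝ) × (ι → ℝ) => spl P q.1 q.2 := by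
  refine measurable_pi_lambda _ fun i => ?_
  unfold spl
  split_ifs
  · exact (measurable_pi_apply i).comp measurable_fst
  · exact (measurable_pi_apply i).comp measurable_snd

omit [DecidableEq ι] in
theorem mp_spl (P : ι → Prop) [DecidablePred P] :
    MeasurePreserving (fun q : (ι → ℝ) × (ι → ℝ) => spl P q.1 q.2) ((gpi ι).prod (gpi ι))
      (gpi ι) := by
  refine ⟨meas_spl P, ?_⟩
  unfold gpi
  symm
  refine Measure.pi_eq fun s hs => ?_
  rw [Measure.map_apply (meas_spl P) (MeasurableSet.univ_pi hs)]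
  have e : (fun q : (ι → ℝ) × (ι → ℝ) => spl P q.1 q.2) ⁻¹' Set.pi Set.univ s =
      (Set.pi Set.univ fun i => if P i then s i else Set.univ) ×ˢ
        (Set.pi Set.univ fun i => if P i then Set.univ else s i) := by
    ext q
    simp only [Set.mem_preimage, Set.mem_pi, Set.mem_univ, true_imp_iff, Set.mem_prod, spl]
    constructor
    · intro h
      refine ⟨fun i => ?_, fun i => ?_⟩
      · have := h i
        split_ifs at this ⊢ with hP
        · exact this
        · trivial
      · have := h i
        split_ifs at this ⊢ with hP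
        · trivial
        · exact this
    · rintro ⟨h1, h2⟩ i
      have a1 := h1 i
      have a2 := h2 i
      split_ifs at a1 a2 ⊢ with hP
      · exact a1
      · exact a2
  rw [e, Measure.prod_prod, Measure.pi_pi, Measure.pi_pi, ← Finset.prod_mul_distrib]
  refine Finset.prod_congr rfl fun i _ => ?_
  split_ifs <;> simp

/-- the partial average -/
noncomputable def pav (P : ι → Prop) [DecidablePred P] (A : (ι → ℝ) → ℝ) (g : ι → ℝ) : ℝ :=
  ∫ h, A (spl P g h) ∂(gpi ι)

omit [DecidableEq ι] in
lemma meas_pav (P : ι → Prop) [DecidablePred P] {A : (ι → ℝ) → ℝ} (hA : Measurable A) :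
    Measurable (pav P A) :=
  ((hA.comp (meas_spl P)).stronglyMeasurable.integral_prod_right' (ν := gpi ι)).measurable

omit [DecidableEq ι] in
lemma memLp_pav (P : ι → Prop) [DecidablePred P] {A : (ι → ℝ) → ℝ} (hA : Dom A) :
    MemLp (pav P A) 2 (gpi ι) := by
  have hm := hA.cont.measurable
  rw [memLp_two_iff_integrable_sq (meas_pav P hm).aestronglyMeasurable]
  have i2 : Integrable (fun q : (ι → ℝ) × (ι → ℝ) => A (spl P q.1 q.2) ^ 2)
      ((gpi ι).prod (gpi ι)) := (mp_spl P).integrable_comp_of_integrable (hA.pow 2).integrable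
  refine Integrable.mono' i2.integral_prod_left
    ((meas_pav P hm).pow_const 2).aestronglyMeasurable ?_
  filter_upwards [i2.prod_right_ae] with g hg
  rw [Real.norm_eq_abs, abs_of_nonneg (sq_nonneg _)]
  have hg' : Measurable fun h => A (spl P g h) :=
    hm.comp ((meas_spl P).comp measurable_prodMk_left)
  have h2 : MemLp (fun h => A (spl P g h)) 2 (gpi ι) :=
    (memLp_two_iff_integrable_sq hg'.aestronglyMeasurable).2 hg
  have h3 := variance_nonneg (fun h => A (spl P g h)) (gpi ι)
  rw [variance_eq_sub h2] at h3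
  unfold pav
  simp only [Pi.pow_apply] at h3
  linarith

theorem co_pav (P : ι → Prop) [DecidablePred P] {A : (ι → ℝ) → ℝ} (hA : Dom A) (α : ι → ℕ) :
    co (pav P A) α = if ∀ e, ¬ P e → α e = 0 then co A α else 0 := by
  have hm := hA.cont.measurable
  split_ifs with h
  · have e1 : ∀ g h' : ι → ℝ, heM α g = heM α (spl P g h') := by
      intro g h'
      unfold heM spl
      refine Finset.prod_congr rfl fun i _ => ?_
      split_ifs with hP
      · rfl
      · rw [h i hP, he_zero, he_zero]
    have i1 : Integrable (fun q : (ι → ℝ) × (ι → ℝ) =>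
        A (spl P q.1 q.2) * heM α (spl P q.1 q.2)) ((gpi ι).prod (gpi ι)) :=
      (mp_spl P).integrable_comp_of_integrable (hA.mul (dom_heM α)).integrable
    have h1 := integral_map (μ := (gpi ι).prod (gpi ι)) (meas_spl P).aemeasurable
      (f := fun g => A g * heM α g) (hA.mul (dom_heM α)).cont.aestronglyMeasurable
    rw [(mp_spl P).map_eq, integral_prod _ i1] at h1
    unfold co
    rw [h1]
    refine integral_congr_ae (Filter.Eventually.of_forall fun g => ?_)
    simp only
    unfold pav
    rw [← integral_mul_const]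
    refine integral_congr_ae (Filter.Eventually.of_forall fun h' => ?_)
    simp only
    rw [← e1]
  · push Not at h
    obtain ⟨e, he1, he2⟩ := h
    refine co_indep (meas_pav P hm) e (fun g s => ?_) he2
    unfold pav
    congr 1
    funext h'
    congr 1
    funext i
    unfold spl
    split_ifs with hP
    · rw [Function.update_of_ne]
      rintro rfl
      exact he1 hP
    · rfl

/-- the part of the square norm carried by the coordinates in `P` -/
noncomputable def inP (P : ι → Prop) [DecidablePred P] (A : (ι → ℝ) → ℝ) (α : ι → ℕ) : ℝ :=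
  if ∀ e, ¬ P e → α e = 0 then cs A α else 0

/-- **The covariance under partial resampling.** -/
theorem hasSum_spl (P : ι → Prop) [DecidablePred P] {A : (ι → ℝ) → ℝ} (hA : Dom A) :
    HasSum (inP P A) (∫ q, A q.1 * A (spl P q.1 q.2) ∂((gpi ι).prod (gpi ι))) := by
  have h1 := parseval2 (memLp_dom hA) (memLp_pav P hA)
  have m1 : MemLp (fun q : (ι → ℝ) × (ι → ℝ) => A q.1) 2 ((gpi ι).prod (gpi ι)) :=
    (memLp_dom hA).comp_measurePreserving measurePreserving_fst
  have m2 : MemLp (fun q : (ι → ℝ) × (ι → ℝ) => A (spl P q.1 q.2)) 2 ((gpi ι).prod (gpi ι)) :=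
    (memLp_dom hA).comp_measurePreserving (mp_spl P)
  have i1 : Integrable (fun q : (ι → ℝ) × (ι → ℝ) => A q.1 * A (spl P q.1 q.2))
      ((gpi ι).prod (gpi ι)) := m1.integrable_mul m2
  have e1 : ∫ q, A q.1 * A (spl P q.1 q.2) ∂((gpi ι).prod (gpi ι)) =
      ∫ g, A g * pav P A g ∂(gpi ι) := by
    rw [integral_prod _ i1]
    refine integral_congr_ae (Filter.Eventually.of_forall fun g => ?_)
    simp only
    unfold pav
    rw [integral_const_mul]
  rw [e1]
  refine hs_congr h1 ?_
  intro α
  unfold inP cs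
  rw [co_pav P hA]
  split_ifs
  · rw [sq]
  · simp

/-- **A function of the coordinates in `P` against a centred function.** -/
theorem cov_inP (P : ι → Prop) [DecidablePred P] {f A : (ι → ℝ) → ℝ} (hf : Measurable f)
    (hf1 : ∀ g, |f g| ≤ 1) (hi : ∀ e, ¬ P e → ∀ g s, f (Function.update g e s) = f g)
    (hA : Dom A) {Q : ℝ} (hQ : HasSum (inP P A) Q) {η : ℝ} (hη : 0 < η) :
    |∫ g, f g * A g ∂(gpi ι)| ≤ η / 2 + Q / (2 * η) := by
  have mf : MemLp f 2 (gpi ι) :=
    MemLp.of_bound hf.aestronglyMeasurable 1 (ae_of_all _ fun g => hf1 g)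
  have h1 := parseval2 mf (memLp_dom hA)
  have h2 := ((hasSum_cs mf).mul_left (η / 2)).add (hQ.div_const (2 * η))
  have h3 : ∫ g, f g ^ 2 ∂(gpi ι) ≤ 1 := by
    have := integral_mono mf.integrable_sq (integrable_const (1 : ℝ)) fun g => by
      show f g ^ 2 ≤ 1
      rw [← sq_abs]
      exact pow_le_one₀ (abs_nonneg _) (hf1 g)
    simpa using this
  have key : ∀ α : ι → ℕ, |co f α * co A α / ∏ i, ((α i).factorial : ℝ)| ≤
      η / 2 * cs f α + inP P A α / (2 * η) := by
    intro α
    have hp : (0 : ℝ) < ∏ i, ((α i).factorial : ℝ) := by positivity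
    unfold inP
    split_ifs with h
    · unfold cs
      rw [abs_div, abs_of_pos hp, div_le_iff₀ hp]
      have e : (η / 2 * (co f α ^ 2 / ∏ i, ((α i).factorial : ℝ)) +
          co A α ^ 2 / (∏ i, ((α i).factorial : ℝ)) / (2 * η)) * ∏ i, ((α i).factorial : ℝ) =
          (η ^ 2 * co f α ^ 2 + co A α ^ 2) / (2 * η) := by
        field_simp
      rw [e, le_div_iff₀ (by positivity), abs_mul]
      nlinarith [sq_nonneg (η * |co f α| - |co A α|), sq_abs (co f α), sq_abs (co A α)]
    · push Not at h
      obtain ⟨e, he1, he2⟩ := h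
      rw [co_indep hf e (hi e he1) he2]
      have := cs_nonneg f α
      simp only [zero_mul, zero_div, abs_zero, add_zero]
      positivity
  have u1 := hasSum_le (fun α => (le_abs_self _).trans (key α)) h1 h2
  have u2 := hasSum_le (fun α => (neg_le_abs _).trans (key α)) h1.neg h2
  have u3 : η / 2 * ∫ g, f g ^ 2 ∂(gpi ι) ≤ η / 2 := mul_le_of_le_one_right (by positivity) h3
  rw [abs_le]
  constructor <;> linarith

end Vale.Agent.N146
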