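import Vale.Agent.N146.SiteA
import Vale.Agent.P146.R2.H597.Sym
import Vale.Agent.P146.R2.H453.Equiv

/-!
# P146, the window in the number of sites, part B: vertices of a multi-index, averaging over the
sets of `k` sites
-/

open MeasureTheory ProbabilityTheory Filter Topology Finset

namespace Vale.Agent.N146

open Vale.Agent.P146 Vale.Agent.P146.H605 Vale.Agent.P146.R2
open Vale.Agent.P146.H453 (MI st ot deg mem_st pe deg_perm deg_zero_iff)

/-! ### binomial coefficients -/

lemma choose_up {N k : ℕ} (hk : k ≤ N) : ∀ v, v ≤ N →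
    ((N - v).choose k : ℝ) * (N + k * v) ≤ N * N.choose k := by
  intro v
  induction v with
  | zero => intro _; simp [mul_comm]
  | succ v ih =>
    intro hv
    have h1 := ih (by omega)
    obtain ⟨M, hM⟩ : ∃ M, N - v = M + 1 := ⟨N - v - 1, by omega⟩
    have hM' : N - (v + 1) = M := by omega
    rw [hM] at h1
    rw [hM']
    have h2 := Nat.choose_mul_succ_eq M k
    have hN : (M : ℝ) + 1 ≤ N := by exact_mod_cast (by omega : M + 1 ≤ N)
    have hkN : (k : ℝ) ≤ N := by exact_mod_cast hk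
    have hM0 : (0 : ℝ) ≤ M := Nat.cast_nonneg _
    have hk0 : (0 : ℝ) ≤ k := Nat.cast_nonneg _
    have hv0 : (0 : ℝ) ≤ v := Nat.cast_nonneg _
    have c0 : (0 : ℝ) ≤ ((M + 1).choose k : ℝ) := Nat.cast_nonneg _
    have c1 : (0 : ℝ) ≤ (M.choose k : ℝ) := Nat.cast_nonneg _
    have h3 : (M.choose k : ℝ) * N ≤ ((M + 1).choose k : ℝ) * (N - k) := by
      by_cases hkM : k ≤ M + 1
      · have h4 : (M.choose k : ℝ) * (M + 1) = ((M + 1).choose k : ℝ) * (M + 1 - k) := by
          have := congrArg (Nat.cast : ℕ → ℝ) h2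
          push_cast [Nat.cast_sub hkM] at this
          exact this
        have h5 : (M.choose k : ℝ) * N * (M + 1) ≤ ((M + 1).choose k : ℝ) * (N - k) * (M + 1) := by
          have h6 : (M.choose k : ℝ) * N * (M + 1) = ((M + 1).choose k : ℝ) * ((M + 1 - k) * N) := by
            rw [mul_right_comm, h4]
            ring
          rw [h6, mul_assoc]
          refine mul_le_mul_of_nonneg_left ?_ c0
          nlinarith
        exact le_of_mul_le_mul_right h5 (by linarith)
      · rw [Nat.choose_eq_zero_of_lt (by omega : M < k)]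
        simp only [Nat.cast_zero, zero_mul]
        exact mul_nonneg c0 (by linarith)
    have hN0 : (0 : ℝ) < N := by linarith
    push_cast
    have h7 : (M.choose k : ℝ) * (N + k * (v + 1)) * N ≤ N * N.choose k * N := by
      calc (M.choose k : ℝ) * (N + k * (v + 1)) * N
          = (M.choose k : ℝ) * N * (N + k * (v + 1)) := by ring
        _ ≤ ((M + 1).choose k : ℝ) * (N - k) * (N + k * (v + 1)) :=
          mul_le_mul_of_nonneg_right h3 (by positivity)
        _ = ((M + 1).choose k : ℝ) * ((N - k) * (N + k * (v + 1))) := by ring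
        _ ≤ ((M + 1).choose k : ℝ) * ((N + k * v) * N) := by
          refine mul_le_mul_of_nonneg_left ?_ c0
          nlinarith [mul_nonneg (mul_nonneg hk0 hk0) hv0, mul_nonneg hk0 hk0]
        _ = ((M + 1).choose k : ℝ) * (N + k * v) * N := by ring
        _ ≤ N * N.choose k * N := mul_le_mul_of_nonneg_right h1 hN0.le
    exact le_of_mul_le_mul_right h7 hN0

lemma choose_low {N k : ℕ} : ∀ v, v ≤ N →
    N * N.choose k ≤ N * (N - v).choose k + k * v * N.choose k := by
  intro v
  induction v with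
  | zero => intro _; simp
  | succ v ih =>
    intro hv
    have h1 := ih (by omega)
    obtain ⟨M, hM⟩ : ∃ M, N - v = M + 1 := ⟨N - v - 1, by omega⟩
    have hM' : N - (v + 1) = M := by omega
    rw [hM] at h1
    rw [hM']
    rcases k with _ | j
    · simp
    · obtain ⟨L, rfl⟩ : ∃ L, N = L + 1 := ⟨N - 1, by omega⟩
      have h2 : (M + 1).choose (j + 1) = M.choose j + M.choose (j + 1) := Nat.choose_succ_succ _ _
      have h3 : M.choose j ≤ L.choose j := Nat.choose_le_choose j (by omega)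
      have h4 := Nat.add_one_mul_choose_eq L j
      have h5 : (L + 1) * M.choose j ≤ (L + 1) * L.choose j := Nat.mul_le_mul_left _ h3
      rw [h2] at h1
      nlinarith

variable {N : ℕ}

/-- the vertices of a multi-index -/
def vs (α : MI N) : Finset (Fin N) := univ.filter fun v => deg α v ≠ 0

lemma sum_deg (α : MI N) : ∑ v, deg α v = 2 * ∑ e, α e := by
  unfold deg st
  simp_rw [Finset.sum_filter]
  rw [Finset.sum_comm, Finset.mul_sum]
  refine Finset.sum_congr rfl fun e _ => ?_
  have h : ∀ v : Fin N, (if e.1.1 = v ∨ e.1.2 = v then α e else 0) =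
      (if e.1.1 = v then α e else 0) + (if e.1.2 = v then α e else 0) := by
    intro v
    have h2 := e.2
    by_cases h1 : e.1.1 = v
    · have h3 : e.1.2 ≠ v := by rw [← h1]; exact (ne_of_lt h2).symm
      simp [h1, h3]
    · by_cases h3 : e.1.2 = v <;> simp [h1, h3]
  simp_rw [h]
  rw [Finset.sum_add_distrib]
  simp
  ring

lemma sum_deg_vs (α : MI N) : ∑ v ∈ vs α, deg α v = 2 * ∑ e, α e := by
  rw [← sum_deg]
  unfold vs
  exact Finset.sum_filter_ne_zero _

lemma card_vs_le (α : MI N) : (vs α).card ≤ 2 * ∑ e, α e := by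
  rw [← sum_deg_vs, Finset.card_eq_sum_ones]
  refine Finset.sum_le_sum fun v hv => ?_
  have := (Finset.mem_filter.1 hv).2
  omega

lemma card_vs_N (α : MI N) : (vs α).card ≤ N := by
  simpa using Finset.card_le_univ (vs α)

/-- the sum of `deg (deg - 1)` -/
noncomputable def dg2 (α : MI N) : ℝ := ∑ v, (deg α v : ℝ) * ((deg α v : ℝ) - 1)

lemma dg2_nonneg (α : MI N) : 0 ≤ dg2 α := by
  refine Finset.sum_nonneg fun v _ => ?_
  rcases Nat.eq_zero_or_pos (deg α v) with h | h
  · simp [h]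
  · have : (1 : ℝ) ≤ deg α v := by exact_mod_cast h
    nlinarith

lemma cs_deg (α : MI N) :
    (2 * ((∑ e, α e : ℕ) : ℝ)) ^ 2 ≤ (vs α).card * (dg2 α + 2 * ((∑ e, α e : ℕ) : ℝ)) := by
  have h1 := sq_sum_le_card_mul_sum_sq (s := vs α) (f := fun v => (deg α v : ℝ))
  have h2 : ∑ v ∈ vs α, (deg α v : ℝ) = 2 * ((∑ e, α e : ℕ) : ℝ) := by
    exact_mod_cast sum_deg_vs α
  have h3 : ∑ v, (deg α v : ℝ) = 2 * ((∑ e, α e : ℕ) : ℝ) := by exact_mod_cast sum_deg α
  have h4 : ∑ v ∈ vs α, (deg α v : ℝ) ^ 2 ≤ ∑ v, (deg α v : ℝ) ^ 2 :=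
    Finset.sum_le_sum_of_subset_of_nonneg (Finset.subset_univ _) fun _ _ _ => sq_nonneg _
  have h5 : ∑ v, (deg α v : ℝ) ^ 2 = dg2 α + 2 * ((∑ e, α e : ℕ) : ℝ) := by
    rw [← h3]
    unfold dg2
    rw [← Finset.sum_add_distrib]
    exact Finset.sum_congr rfl fun v _ => by ring
  rw [h2] at h1
  rw [← h5]
  exact h1.trans (mul_le_mul_of_nonneg_left h4 (Nat.cast_nonneg _))

/-- the pairs of sites outside `S` -/
def out (S : Finset (Fin N)) (e : Pair N) : Prop := e.1.1 ∉ S ∧ e.1.2 ∉ S

instance (S : Finset (Fin N)) : DecidablePred (out S) := fun e => by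
  unfold out
  infer_instance

lemma out_iff (S : Finset (Fin N)) (α : MI N) :
    (∀ e, ¬ out S e → α e = 0) ↔ Disjoint S (vs α) := by
  rw [Finset.disjoint_left]
  unfold out vs
  constructor
  · intro h v hv hv'
    refine (Finset.mem_filter.1 hv').2 ((deg_zero_iff α v).2 fun e he => h e ?_)
    rcases mem_st.1 he with h1 | h1
    · exact fun h2 => h2.1 (h1 ▸ hv)
    · exact fun h2 => h2.2 (h1 ▸ hv)
  · intro h e he
    by_contra h0
    apply he
    have k : ∀ v, e ∈ st v → v ∉ S := fun v hv hS =>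
      h hS (Finset.mem_filter.2 ⟨Finset.mem_univ _,
        fun h1 => h0 ((deg_zero_iff α v).1 h1 e hv)⟩)
    exact ⟨k _ (mem_st.2 (Or.inl rfl)), k _ (mem_st.2 (Or.inr rfl))⟩

lemma inP_out (S : Finset (Fin N)) (A : (Pair N → ℝ) → ℝ) (α : MI N) :
    inP (out S) A α = if Disjoint S (vs α) then cs A α else 0 := by
  unfold inP
  simp only [out_iff]

lemma vs_perm (π : Equiv.Perm (Fin N)) (α : MI N) :
    vs (fun e => α ((pe π).symm e)) = (vs α).map π.toEmbedding := by
  ext v
  unfold vs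
  simp only [Finset.mem_filter, Finset.mem_univ, true_and, Finset.mem_map_equiv]
  rw [← deg_perm π α (π.symm v), Equiv.apply_symm_apply]

lemma cs_perm {A : (Pair N → ℝ) → ℝ} (hA : Dom A) (π : Equiv.Perm (Fin N))
    (hπ : ∀ g, A (rl π g) = A g) (α : MI N) : cs A (fun e => α ((pe π).symm e)) = cs A α := by
  have hm := measurePreserving_rl π
  have hc : Continuous fun g => A g * heM α g := hA.cont.mul (continuous_heM α)
  have h1 := integral_map (μ := disorder N) hm.measurable.aemeasurable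
    (f := fun g => A g * heM α g) hc.aestronglyMeasurable
  rw [hm.map_eq] at h1
  have h3 : co A α = ∫ g, A g * heM α g ∂(disorder N) := rfl
  have h4 : co A (fun e => α ((pe π).symm e)) = co A α := by
    rw [h3, h1]
    refine integral_congr_ae (Filter.Eventually.of_forall fun g => ?_)
    simp only [hπ, heM_rl]
  unfold cs
  rw [h4]
  congr 1
  exact Fintype.prod_equiv (pe π).symm _ _ fun e => rfl

lemma hasSum_perm {A : (Pair N → ℝ) → ℝ} (hA : Dom A)
    (hπ : ∀ (π : Equiv.Perm (Fin N)) g, A (rl π g) = A g) {S T : Finset (Fin N)}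
    (hST : S.card = T.card) {Q : ℝ} (h : HasSum (inP (out S) A) Q) :
    HasSum (inP (out T) A) Q := by
  obtain ⟨π, hπ'⟩ := Equiv.Perm.exists_map_finset_eq S T hST
  have e := (Equiv.arrowCongr (pe π) (Equiv.refl ℕ)).hasSum_iff (f := inP (out T) A) (a := Q)
  refine e.1 (hs_congr h fun α => ?_)
  have e1 : (Equiv.arrowCongr (pe π) (Equiv.refl ℕ)) α = fun e => α ((pe π).symm e) := rfl
  simp only [Function.comp]
  rw [e1, inP_out, inP_out, vs_perm, cs_perm hA π (hπ π), ← hπ']
  simp only [Finset.disjoint_map]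

lemma count_disj (V : Finset (Fin N)) (k : ℕ) :
    ((powersetCard k (univ : Finset (Fin N))).filter fun S => Disjoint S V).card =
      (N - V.card).choose k := by
  have e : ((powersetCard k (univ : Finset (Fin N))).filter fun S => Disjoint S V) =
      powersetCard k Vᶜ := by
    ext S
    simp only [Finset.mem_filter, Finset.mem_powersetCard, Finset.subset_univ, true_and]
    rw [and_comm, ← Finset.subset_compl_iff_disjoint_right]
  rw [e, Finset.card_powersetCard, Finset.card_compl, Fintype.card_fin]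

/-- the probability that `k` random sites miss the vertices of `α` -/
noncomputable def rho (k : ℕ) (α : MI N) : ℝ := ((N - (vs α).card).choose k : ℝ) / N.choose k

/-- **Averaging over the sets of `k` sites.** -/
theorem hasSum_rho {A : (Pair N → ℝ) → ℝ} (hA : Dom A)
    (hπ : ∀ (π : Equiv.Perm (Fin N)) g, A (rl π g) = A g) {S : Finset (Fin N)} {Q : ℝ}
    (h : HasSum (inP (out S) A) Q) : HasSum (fun α => rho S.card α * cs A α) Q := by
  have hk : S.card ≤ N := by simpa using Finset.card_le_univ S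
  have hc : (0 : ℝ) < N.choose S.card := by exact_mod_cast Nat.choose_pos hk
  have h1 := hasSum_sum (s := powersetCard S.card (univ : Finset (Fin N)))
    (f := fun T => inP (out T) A) (a := fun _ => Q) fun T hT =>
      hasSum_perm hA hπ (Finset.mem_powersetCard.1 hT).2.symm h
  rw [Finset.sum_const, Finset.card_powersetCard, Finset.card_univ, Fintype.card_fin,
    nsmul_eq_mul] at h1
  have h2 := h1.div_const (N.choose S.card : ℝ)
  rw [mul_div_cancel_left₀ _ hc.ne'] at h2
  refine hs_congr h2 fun α => ?_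
  simp_rw [inP_out]
  rw [← Finset.sum_filter, Finset.sum_const, count_disj, nsmul_eq_mul]
  unfold rho
  ring

lemma rho_nonneg (k : ℕ) (α : MI N) : 0 ≤ rho k α := by
  unfold rho
  positivity

lemma rho_up {k : ℕ} (hk : k ≤ N) (α : MI N) : rho k α * (N + k * (vs α).card) ≤ N := by
  have hc : (0 : ℝ) < N.choose k := by exact_mod_cast Nat.choose_pos hk
  have h := choose_up hk _ (card_vs_N α)
  unfold rho
  rw [div_mul_eq_mul_div, div_le_iff₀ hc]
  exact h

lemma rho_le_one {k : ℕ} (hk : k ≤ N) (α : MI N) : rho k α ≤ 1 := by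
  have hc : (0 : ℝ) < N.choose k := by exact_mod_cast Nat.choose_pos hk
  unfold rho
  rw [div_le_one hc]
  exact_mod_cast Nat.choose_le_choose k (Nat.sub_le _ _)

lemma rho_low {k : ℕ} (hk : k ≤ N) (α : MI N) :
    (N : ℝ) * (1 - rho k α) ≤ 2 * k * ((∑ e, α e : ℕ) : ℝ) := by
  have hc : (0 : ℝ) < N.choose k := by exact_mod_cast Nat.choose_pos hk
  have h : (N : ℝ) * N.choose k ≤
      N * (N - (vs α).card).choose k + k * (vs α).card * N.choose k := by
    exact_mod_cast choose_low (k := k) _ (card_vs_N α)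
  have h2 : ((vs α).card : ℝ) ≤ 2 * ((∑ e, α e : ℕ) : ℝ) := by exact_mod_cast card_vs_le α
  have h3 : (N : ℝ) * (1 - rho k α) ≤ k * (vs α).card := by
    unfold rho
    have e : (N : ℝ) * (1 - ((N - (vs α).card).choose k : ℝ) / N.choose k) =
        (N * N.choose k - N * ((N - (vs α).card).choose k : ℝ)) / N.choose k := by
      field_simp
    rw [e, div_le_iff₀ hc]
    linarith
  have hk0 : (0 : ℝ) ≤ k := Nat.cast_nonneg _
  nlinarith

/-- **The pointwise bound for many sites.** -/
lemma rho_far {k : ℕ} (hk : k ≤ N) (hk0 : 0 < k) {T U : ℝ} (hT : 0 < T) (hT1 : T ≤ 1)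
    (hU : 0 ≤ U) (hU1 : U ≤ 1) (α : MI N) :
    rho k α ≤ 2 * (1 - T) ^ (∑ e, α e) + 2 * (1 - (1 - U) ^ (∑ e, α e)) +
      (N / k * (2 * T ^ 2) * ((1 - U) ^ (∑ e, α e) * dg2 α) + N / k * T) := by
  obtain ⟨l, hl⟩ : ∃ l, l = ∑ e, α e := ⟨_, rfl⟩
  have hc := cs_deg α
  rw [← hl] at hc ⊢
  have r0 := rho_nonneg k α
  have r1 := rho_le_one hk α
  have r2 := rho_up hk α
  have d0 := dg2_nonneg α
  have a0 : 0 ≤ (1 - T) ^ l := pow_nonneg (by linarith) l
  have b0 : 0 ≤ (1 - U) ^ l := pow_nonneg (by linarith) l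
  have b1 : (1 - U) ^ l ≤ 1 := pow_le_one₀ (by linarith) (by linarith)
  have hkR : (0 : ℝ) < k := by exact_mod_cast hk0
  have hN0 : (0 : ℝ) ≤ N := Nat.cast_nonneg _
  have c0 : 0 ≤ (N : ℝ) / k * (2 * T ^ 2) * ((1 - U) ^ l * dg2 α) := by positivity
  have c1 : 0 ≤ (N : ℝ) / k * T := by positivity
  by_cases h1 : (l : ℝ) * T ≤ 1 / 2
  · have := one_add_mul_le_pow (a := -T) (by linarith) l
    rw [← sub_eq_add_neg] at this
    linarith
  · by_cases h2 : (1 - U) ^ l ≤ 1 / 2
    · linarith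
    · push Not at h1 h2
      have hl0 : (0 : ℝ) < l := by
        by_contra h
        have : (l : ℝ) * T ≤ 0 := mul_nonpos_of_nonpos_of_nonneg (not_lt.1 h) hT.le
        linarith
      have v0 : (0 : ℝ) ≤ (vs α).card := Nat.cast_nonneg _
      have h3 : rho k α * (k * (vs α).card) ≤ N := by nlinarith
      have h4 : rho k α * k * (2 * l) ^ 2 ≤ N * (dg2 α + 2 * l) := by
        calc rho k α * k * (2 * l) ^ 2 ≤ rho k α * k * ((vs α).card * (dg2 α + 2 * l)) :=
              mul_le_mul_of_nonneg_left hc (by positivity)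
          _ = rho k α * (k * (vs α).card) * (dg2 α + 2 * l) := by ring
          _ ≤ N * (dg2 α + 2 * l) := mul_le_mul_of_nonneg_right h3 (by positivity)
      have h5 : dg2 α + 2 * l ≤ (T ^ 2 * dg2 α + T) * (2 * l) ^ 2 := by
        have k1 : 1 ≤ (2 * l * T) ^ 2 := one_le_pow₀ (by linarith)
        have k2 : dg2 α * 1 ≤ dg2 α * (2 * l * T) ^ 2 := mul_le_mul_of_nonneg_left k1 d0
        have k3 : 2 * (l : ℝ) * 1 ≤ 2 * l * (2 * l * T) :=
          mul_le_mul_of_nonneg_left (by linarith) (by linarith)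
        nlinarith
      have h6 : rho k α * k ≤ N * (T ^ 2 * dg2 α + T) := by
        have k4 : rho k α * k * (2 * l) ^ 2 ≤ N * (T ^ 2 * dg2 α + T) * (2 * l) ^ 2 := by
          rw [mul_assoc (N : ℝ)]
          exact h4.trans (mul_le_mul_of_nonneg_left h5 hN0)
        exact le_of_mul_le_mul_right k4 (by positivity)
      have h7 : rho k α ≤ N / k * (T ^ 2 * dg2 α + T) := by
        rw [div_mul_eq_mul_div, le_div_iff₀ hkR]
        exact h6
      have h8 : T ^ 2 * dg2 α * 1 ≤ T ^ 2 * dg2 α * (2 * (1 - U) ^ l) :=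
        mul_le_mul_of_nonneg_left (by linarith) (by positivity)
      have h9 : (N : ℝ) / k * (T ^ 2 * dg2 α + T) ≤
          N / k * (T ^ 2 * dg2 α * (2 * (1 - U) ^ l) + T) :=
        mul_le_mul_of_nonneg_left (by linarith) (by positivity)
      nlinarith

/-- **The pointwise bound for few sites.** -/
lemma rho_near {k : ℕ} (hk : k ≤ N) (hN : 0 < N) (α : MI N) :
    1 - rho k α ≤ 3 * (1 - (1 - (k : ℝ) / N) ^ (∑ e, α e)) := by
  obtain ⟨l, hl⟩ : ∃ l, l = ∑ e, α e := ⟨_, rfl⟩
  have r3 := rho_low hk α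
  rw [← hl] at r3 ⊢
  have r0 := rho_nonneg k α
  have hNR : (0 : ℝ) < N := by exact_mod_cast hN
  have hkN : (k : ℝ) ≤ N := by exact_mod_cast hk
  obtain ⟨T, hT⟩ : ∃ T : ℝ, T = k / N := ⟨_, rfl⟩
  rw [← hT]
  have T0 : 0 ≤ T := by rw [hT]; positivity
  have T1 : T ≤ 1 := by rw [hT]; exact (div_le_one hNR).2 hkN
  have h1 : 1 - rho k α ≤ 2 * (l * T) := by
    rw [hT]
    have e : 2 * ((l : ℝ) * (k / N)) = 2 * k * l / N := by ring
    rw [e, le_div_iff₀ hNR]
    linarith
  have x0 : 0 ≤ (l : ℝ) * T := by positivity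
  have h2 : (1 - T) ^ l * (1 + l * T) ≤ 1 := by
    have k1 := one_add_mul_le_pow (a := T) (by linarith) l
    have k2 : (1 - T) ^ l * (1 + l * T) ≤ (1 - T) ^ l * (1 + T) ^ l :=
      mul_le_mul_of_nonneg_left k1 (pow_nonneg (by linarith) l)
    rw [← mul_pow] at k2
    exact k2.trans (pow_le_one₀ (by nlinarith) (by nlinarith))
  have a0 : 0 ≤ (1 - T) ^ l := pow_nonneg (by linarith) l
  by_cases h3 : (l : ℝ) * T ≤ 1 / 2
  · have h4 : (3 * (1 - (1 - T) ^ l) - 2 * (l * T)) * (1 + l * T) ≥ 0 := by nlinarith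
    have h5 : 0 ≤ 3 * (1 - (1 - T) ^ l) - 2 * (l * T) :=
      nonneg_of_mul_nonneg_left h4 (by linarith)
    linarith
  · push Not at h3
    nlinarith

end Vale.Agent.N146
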