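import Vale.Agent.N146.SiteB
import Vale.Agent.P146.R2.H749.Fams
import Vale.Agent.P146.H605.Lip

/-!
# P146, the window in the number of sites, part C: second derivatives along the rows
-/

open MeasureTheory ProbabilityTheory Filter Topology Finset

namespace Vale.Agent.N146

open Vale.Agent.P146 Vale.Agent.P146.Ub.Cv Vale.Agent.P146.H605 Vale.Agent.P146.R2
  Vale.Agent.P146.R2.H749
open Vale.Agent.P146.H453 (MI st ot deg mem_st ot_inj)

section finite

variable {S V : Type*} [Fintype S] [Fintype V]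

lemma jensen_sq {w : S → ℝ} (h0 : ∀ s, 0 ≤ w s) (h1 : ∑ s, w s = 1) (u : S → ℝ) :
    (∑ s, u s * w s) ^ 2 ≤ ∑ s, u s ^ 2 * w s := by
  obtain ⟨m, hm⟩ : ∃ m, m = ∑ s, u s * w s := ⟨_, rfl⟩
  have h2 : 0 ≤ ∑ s, (u s - m) ^ 2 * w s :=
    Finset.sum_nonneg fun s _ => mul_nonneg (sq_nonneg _) (h0 s)
  have h3 : ∑ s, (u s - m) ^ 2 * w s =
      ∑ s, u s ^ 2 * w s - 2 * m * ∑ s, u s * w s + m ^ 2 * ∑ s, w s := by
    rw [Finset.mul_sum, Finset.mul_sum, ← Finset.sum_sub_distrib, ← Finset.sum_add_distrib]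
    exact Finset.sum_congr rfl fun s _ => by ring
  rw [h3, h1, ← hm] at h2
  rw [← hm]
  nlinarith

/-- the two-point function -/
def mm (x : S → V → ℝ) (w : S → ℝ) (j l : V) : ℝ := ∑ s, x s j * x s l * w s

lemma mm_quad (x : S → V → ℝ) (w : S → ℝ) (c : V → ℝ) :
    ∑ j, ∑ l, mm x w j l * (c j * c l) = ∑ s, (∑ j, x s j * c j) ^ 2 * w s := by
  unfold mm
  simp_rw [Finset.sum_mul]
  have e : ∀ s, (∑ j, x s j * c j) ^ 2 * w s =
      ∑ j, ∑ l, x s j * x s l * w s * (c j * c l) := by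
    intro s
    rw [sq, Finset.sum_mul_sum, Finset.sum_mul]
    refine Finset.sum_congr rfl fun j _ => ?_
    rw [Finset.sum_mul]
    exact Finset.sum_congr rfl fun l _ => by ring
  simp_rw [e]
  symm
  rw [Finset.sum_comm]
  refine Finset.sum_congr rfl fun j _ => ?_
  rw [Finset.sum_comm]

lemma mm_tr (x : S → V → ℝ) (w w' : S → ℝ) :
    ∑ j, ∑ l, mm x w j l * mm x w' j l =
      ∑ s, (∑ s', (∑ j, x s j * x s' j) ^ 2 * w' s') * w s := by
  have e : ∀ j l, mm x w j l * mm x w' j l =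
      ∑ s', mm x w j l * (x s' j * x s' l) * w' s' := by
    intro j l
    rw [show mm x w' j l = ∑ s, x s j * x s l * w' s from rfl, Finset.mul_sum]
    exact Finset.sum_congr rfl fun s _ => by ring
  simp_rw [e]
  have e2 : ∑ j, ∑ l, ∑ s', mm x w j l * (x s' j * x s' l) * w' s' =
      ∑ s', (∑ j, ∑ l, mm x w j l * (x s' j * x s' l)) * w' s' := by
    simp_rw [Finset.sum_mul]
    symm
    rw [Finset.sum_comm]
    refine Finset.sum_congr rfl fun j _ => ?_
    rw [Finset.sum_comm]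
  rw [e2]
  simp_rw [mm_quad, Finset.sum_mul]
  rw [Finset.sum_comm]
  refine Finset.sum_congr rfl fun s _ => Finset.sum_congr rfl fun s' _ => by ring

lemma row_sq {x : S → V → ℝ} (hx : ∀ s v, x s v * x s v = 1) {w' : S → ℝ} (h0 : ∀ s, 0 ≤ w' s)
    (h1 : ∑ s, w' s = 1) (v : V) (s : S) :
    (∑ j, x s j * mm x w' v j) ^ 2 ≤ ∑ s', (∑ j, x s j * x s' j) ^ 2 * w' s' := by
  have e : ∑ j, x s j * mm x w' v j = ∑ s', (x s' v * ∑ j, x s j * x s' j) * w' s' := by
    unfold mm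
    simp_rw [Finset.mul_sum, Finset.sum_mul]
    rw [Finset.sum_comm]
    exact Finset.sum_congr rfl fun s' _ => Finset.sum_congr rfl fun j _ => by ring
  rw [e]
  refine (jensen_sq h0 h1 _).trans (le_of_eq ?_)
  refine Finset.sum_congr rfl fun s' _ => ?_
  rw [mul_pow, sq (x s' v), hx, one_mul]

lemma t2 {x : S → V → ℝ} (hx : ∀ s v, x s v * x s v = 1) {w w' : S → ℝ} (g0 : ∀ s, 0 ≤ w s)
    (h0 : ∀ s, 0 ≤ w' s) (h1 : ∑ s, w' s = 1) (v : V) :
    0 ≤ ∑ j, ∑ l, mm x w j l * (mm x w' v j * mm x w' v l) ∧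
    ∑ j, ∑ l, mm x w j l * (mm x w' v j * mm x w' v l) ≤ ∑ j, ∑ l, mm x w j l * mm x w' j l := by
  rw [mm_quad, mm_tr]
  exact ⟨Finset.sum_nonneg fun s _ => mul_nonneg (sq_nonneg _) (g0 s),
    Finset.sum_le_sum fun s _ => mul_le_mul_of_nonneg_right (row_sq hx h0 h1 v s) (g0 s)⟩

lemma t4 {x : S → V → ℝ} (hx : ∀ s v, x s v * x s v = 1) {w w' : S → ℝ} (g0 : ∀ s, 0 ≤ w s)
    (g1 : ∑ s, w s = 1) (h0 : ∀ s, 0 ≤ w' s) (h1 : ∑ s, w' s = 1) (v : V) :
    (∑ j, mm x w v j * mm x w' v j) ^ 2 ≤ ∑ j, ∑ l, mm x w j l * mm x w' j l := by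
  have e : ∑ j, mm x w v j * mm x w' v j = ∑ s, (x s v * ∑ j, x s j * mm x w' v j) * w s := by
    rw [show (∑ j, mm x w v j * mm x w' v j) =
      ∑ j, (∑ s, x s v * x s j * w s) * mm x w' v j from rfl]
    simp_rw [Finset.mul_sum, Finset.sum_mul]
    rw [Finset.sum_comm]
    exact Finset.sum_congr rfl fun s _ => Finset.sum_congr rfl fun j _ => by ring
  rw [e, mm_tr]
  refine (jensen_sq g0 g1 _).trans (Finset.sum_le_sum fun s _ => ?_)
  refine mul_le_mul_of_nonneg_right ?_ (g0 s)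
  rw [mul_pow, sq (x s v), hx, one_mul]
  exact row_sq hx h0 h1 v s

/-- **The pointwise bound.** -/
lemma pt_bound {x : S → V → ℝ} (hx : ∀ s v, x s v * x s v = 1) {w w' : S → ℝ}
    (g0 : ∀ s, 0 ≤ w s) (g1 : ∑ s, w s = 1) (h0 : ∀ s, 0 ≤ w' s) (h1 : ∑ s, w' s = 1) (v : V)
    {a b a' b' κ : ℝ} (ha : |a| ≤ κ) (hb : |b| ≤ 2 * κ) (ha' : |a'| ≤ κ) (hb' : |b'| ≤ 2 * κ) :
    ∑ j, ∑ l, (a * mm x w j l + b * (mm x w v j * mm x w v l)) *
        (a' * mm x w' j l + b' * (mm x w' v j * mm x w' v l)) ≤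
      9 * κ ^ 2 * ∑ j, ∑ l, mm x w j l * mm x w' j l := by
  obtain ⟨p0, p1⟩ := t2 hx g0 h0 h1 v
  obtain ⟨q0, q1⟩ := t2 hx h0 g0 g1 v
  have r1 := t4 hx g0 g1 h0 h1 v
  have e0 : ∑ j, ∑ l, mm x w' j l * mm x w j l = ∑ j, ∑ l, mm x w j l * mm x w' j l :=
    Finset.sum_congr rfl fun j _ => Finset.sum_congr rfl fun l _ => mul_comm _ _
  rw [e0] at q1
  have e : ∑ j, ∑ l, (a * mm x w j l + b * (mm x w v j * mm x w v l)) *
        (a' * mm x w' j l + b' * (mm x w' v j * mm x w' v l)) =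
      a * a' * ∑ j, ∑ l, mm x w j l * mm x w' j l +
      a * b' * ∑ j, ∑ l, mm x w j l * (mm x w' v j * mm x w' v l) +
      b * a' * ∑ j, ∑ l, mm x w' j l * (mm x w v j * mm x w v l) +
      b * b' * (∑ j, mm x w v j * mm x w' v j) ^ 2 := by
    rw [sq, Finset.sum_mul_sum]
    simp_rw [Finset.mul_sum, ← Finset.sum_add_distrib]
    exact Finset.sum_congr rfl fun j _ => Finset.sum_congr rfl fun l _ => by ring
  rw [e]
  obtain ⟨X, hX⟩ : ∃ X, X = ∑ j, ∑ l, mm x w j l * mm x w' j l := ⟨_, rfl⟩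
  rw [← hX] at p1 q1 r1 ⊢
  have X0 : 0 ≤ X := p0.trans p1
  have k0 : 0 ≤ κ := (abs_nonneg a).trans ha
  have m : ∀ {c d e f Y : ℝ}, |c| ≤ e → |d| ≤ f → 0 ≤ Y → Y ≤ X → c * d * Y ≤ e * f * X := by
    intro c d e f Y hc hd hY hYX
    have k1 : c * d ≤ e * f := (le_abs_self _).trans (by
      rw [abs_mul]
      exact mul_le_mul hc hd (abs_nonneg _) ((abs_nonneg _).trans hc))
    have k2 : 0 ≤ e * f := mul_nonneg ((abs_nonneg _).trans hc) ((abs_nonneg _).trans hd)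
    exact (mul_le_mul_of_nonneg_right k1 hY).trans (mul_le_mul_of_nonneg_left hYX k2)
  have m1 := m ha ha' X0 le_rfl
  have m2 := m ha hb' p0 p1
  have m3 := m hb ha' q0 q1
  have m4 := m hb hb' (sq_nonneg _) r1
  nlinarith

end finite

section qq

variable {ι κ : Type*} [Fintype ι] [Fintype κ]

lemma sum_QQ_le {B M : κ → (ι → ℝ) → ℝ} (hB : ∀ k, Dom (B k)) (hM : ∀ k, Dom (M k)) {c : ℝ}
    (h : ∀ x y, ∑ k, B k x * B k y ≤ c * ∑ k, M k x * M k y) {t : ℝ} (h0 : 0 ≤ t) (h1 : t ≤ 1) :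
    ∑ k, QQ (B k) t ≤ c * ∑ k, QQ (M k) t := by
  simp_rw [fun k => QQ_prod (hB k) h0 h1, fun k => QQ_prod (hM k) h0 h1]
  rw [← integral_finsetSum _ fun k _ => int_pair (hB k) h0 h1,
    ← integral_finsetSum _ fun k _ => int_pair (hM k) h0 h1, ← integral_const_mul]
  exact integral_mono (integrable_finsetSum _ fun k _ => int_pair (hB k) h0 h1)
    ((integrable_finsetSum _ fun k _ => int_pair (hM k) h0 h1).const_mul c) fun q => h _ _

end qq

variable {n : ℕ} {β : ℝ}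

lemma f2_mm (j l : Fin n) (g : Pair n → ℝ) : f2 β l j g = mm sp (gibbs n β g) j l := by
  unfold f2 mm
  rw [avf_eq]

lemma chi_st {v : Fin n} {p : Pair n} (hp : p ∈ st v) (σ : Fin n → ℤˣ) :
    chi (ps p) σ = sp σ v * sp σ (ot v p) := by
  rw [chi_ps]
  unfold ot
  by_cases h : p.1.1 = v
  · rw [if_pos h, h]
  · rw [if_neg h, ← (mem_st.1 hp).resolve_left h, mul_comm]

/-- a `C²` function with bounded derivatives -/
structure C2 (f f₁ f₂ : ℝ → ℝ) : Prop where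
  d1 : ∀ x, HasDerivAt f (f₁ x) x
  d2 : ∀ x, HasDerivAt f₁ (f₂ x) x
  c2 : Continuous f₂
  b1 : ∀ x, |f₁ x| ≤ 1
  b2 : ∀ x, |f₂ x| ≤ 1

variable {f f₁ f₂ : ℝ → ℝ}

lemma C2.c1 (h : C2 f f₁ f₂) : Continuous f₁ :=
  continuous_iff_continuousAt.2 fun x => (h.d2 x).continuousAt

lemma C2.c0 (h : C2 f f₁ f₂) : Continuous f :=
  continuous_iff_continuousAt.2 fun x => (h.d1 x).continuousAt

lemma C2.lip (h : C2 f f₁ f₂) (x y : ℝ) : |f x - f y| ≤ |x - y| := by
  have := Convex.norm_image_sub_le_of_norm_hasDerivWithin_le (f := f) (f' := f₁) (C := 1)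
    (s := Set.univ) (fun z _ => (h.d1 z).hasDerivWithinAt) (fun z _ => h.b1 z) convex_univ
    (Set.mem_univ y) (Set.mem_univ x)
  simpa using this

lemma C2.dom0 (h : C2 f f₁ f₂) : Dom fun g => f (freeEnergy n β g) := by
  obtain ⟨C, c, hC, hc, hb⟩ := (freeEnergy_dom n β).bound
  refine ⟨h.c0.comp (freeEnergy_dom n β).cont, C + |f 0|, c, by positivity, hc, fun g => ?_⟩
  have h1 := h.lip (freeEnergy n β g) 0
  have h2 := hb g
  have h3 : 1 ≤ Real.exp (c * ∑ i, |g i|) :=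
    Real.one_le_exp (mul_nonneg hc (sum_abs_nonneg g))
  have h4 := abs_sub_abs_le_abs_sub (f (freeEnergy n β g)) (f 0)
  rw [sub_zero] at h1
  nlinarith [abs_nonneg (f 0)]

lemma C2.dom1 (h : C2 f f₁ f₂) : Dom fun g => f₁ (freeEnergy n β g) :=
  Dom.of_bounded (h.c1.comp (freeEnergy_dom n β).cont) 1 fun _ => h.b1 _

lemma C2.dom2 (h : C2 f f₁ f₂) : Dom fun g => f₂ (freeEnergy n β g) :=
  Dom.of_bounded (h.c2.comp (freeEnergy_dom n β).cont) 1 fun _ => h.b2 _

lemma dF (p : Pair n) (g : Pair n → ℝ) (t : ℝ) :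
    HasDerivAt (fun t => freeEnergy n β (Function.update g p t))
      (gradF n β p (Function.update g p t)) t := by
  have h := hasDerivAt_log_zz (ska n β) (fun _ => 0) g p t
  rw [gradF_eq] at h
  simp_rw [freeEnergy_eq]
  exact h

/-- the second derivative along the row of `v` -/
noncomputable def BB (β : ℝ) (f₁ f₂ : ℝ → ℝ) (v j l : Fin n) (g : Pair n → ℝ) : ℝ :=
  (β / Real.sqrt n) ^ 2 * f₁ (freeEnergy n β g) * f2 β l j g +
    (β / Real.sqrt n) ^ 2 * (f₂ (freeEnergy n β g) - f₁ (freeEnergy n β g)) *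
      (f2 β j v g * f2 β l v g)

lemma dom_BB (h : C2 f f₁ f₂) (v j l : Fin n) : Dom (BB β f₁ f₂ v j l) :=
  ((h.dom1.const_mul _).mul (f2_dom β l j)).add
    (((h.dom2.sub h.dom1).const_mul _).mul ((f2_dom β j v).mul (f2_dom β l v)))

lemma gradF_st {v : Fin n} {p : Pair n} (hp : p ∈ st v) (g : Pair n → ℝ) :
    gradF n β p g = β / Real.sqrt n * f2 β (ot v p) v g := by
  unfold gradF av f2
  congr 2
  funext σ
  exact chi_st hp σ

lemma d_grad {v : Fin n} {p q : Pair n} (hp : p ∈ st v) (hq : q ∈ st v) (g : Pair n → ℝ) (t : ℝ) :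
    HasDerivAt (fun t => gradF n β p (Function.update g q t))
      ((β / Real.sqrt n) ^ 2 * (f2 β (ot v q) (ot v p) (Function.update g q t) -
        f2 β (ot v p) v (Function.update g q t) * f2 β (ot v q) v (Function.update g q t))) t := by
  have h := (hasDerivAt_gav (ska n β) (fun _ => 0) (fun σ => sp σ v * sp σ (ot v p)) g q t).const_mul
    (β / Real.sqrt n)
  rw [gradF_eq, gradF_st hq] at h
  have e1 : (fun σ => sp σ v * sp σ (ot v p) * ska n β σ q) =
      fun σ => β / Real.sqrt n * (sp σ (ot v p) * sp σ (ot v q)) := by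
    funext σ
    unfold ska
    rw [chi_st hq]
    linear_combination (β / Real.sqrt n * (sp σ (ot v p) * sp σ (ot v q))) * sp_sq σ v
  rw [e1, gav_const_mul] at h
  simp_rw [gradF_st hp]
  refine HasDerivAt.congr_deriv h ?_
  unfold f2 avf
  ring

/-- the coefficients of the second derivative -/
lemma hasSum_BB (h : C2 f f₁ f₂) {v : Fin n} {p q : Pair n} (hp : p ∈ st v) (hq : q ∈ st v)
    {t : ℝ} (h0 : 0 ≤ t) (h1 : t ≤ 1) :
    HasSum (fun γ : MI n => t ^ (∑ i, γ i) * ((γ q : ℝ) - if p = q then 1 else 0) *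
      ((γ p : ℝ) * cs (fun g => f (freeEnergy n β g)) γ))
      (t * (t * QQ (BB β f₁ f₂ v (ot v p) (ot v q)) t)) := by
  refine hasSum_two (A' := fun g => f₁ (freeEnergy n β g) * gradF n β p g) p q h.dom0
    (h.dom1.mul ((reg_freeEnergy n β).G_dom p)) (dom_BB h v _ _) (fun g t => ?_) (fun g t => ?_)
    h0 h1
  · exact (h.d1 _).comp t (dF p g t)
  · have k := ((h.d2 _).comp t (dF (β := β) q g t)).mul (d_grad (β := β) hp hq g t)
    refine HasDerivAt.congr_deriv k ?_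
    simp only [Function.comp]
    rw [gradF_st hp, gradF_st hq]
    unfold BB
    ring

lemma sum_BB (h : C2 f f₁ f₂) (hn : 1 ≤ n) (v : Fin n) {t : ℝ} (h0 : 0 ≤ t) (h1 : t ≤ 1) :
    ∑ j, ∑ l, QQ (BB β f₁ f₂ v j l) t ≤ 9 * β ^ 4 * crossOverlap n β t := by
  have hn0 : (0 : ℝ) < n := by exact_mod_cast hn
  have k := sum_QQ_le (κ := Fin n × Fin n) (B := fun a => BB β f₁ f₂ v a.1 a.2)
    (M := fun a => f2 β a.2 a.1) (fun a => dom_BB h v a.1 a.2) (fun a => f2_dom β a.2 a.1)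
    (c := 9 * ((β / Real.sqrt n) ^ 2) ^ 2) (fun x y => by
      rw [Fintype.sum_prod_type, Fintype.sum_prod_type]
      unfold BB
      simp_rw [f2_mm]
      have s0 : 0 ≤ (β / Real.sqrt n) ^ 2 := sq_nonneg _
      have a : ∀ u, |(β / Real.sqrt n) ^ 2 * f₁ u| ≤ (β / Real.sqrt n) ^ 2 := fun u => by
        rw [abs_mul, abs_of_nonneg s0]
        exact mul_le_of_le_one_right s0 (h.b1 u)
      have b : ∀ u, |(β / Real.sqrt n) ^ 2 * (f₂ u - f₁ u)| ≤ 2 * (β / Real.sqrt n) ^ 2 :=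
        fun u => by
          rw [abs_mul, abs_of_nonneg s0, mul_comm]
          refine mul_le_mul_of_nonneg_right ((abs_sub _ _).trans ?_) s0
          linarith [h.b1 u, h.b2 u]
      exact pt_bound sp_sq (Gauge.gibbs_nonneg β x) (gibbs_one n β x) (Gauge.gibbs_nonneg β y)
        (gibbs_one n β y) v (a _) (b _) (a _) (b _)) h0 h1
  rw [Fintype.sum_prod_type, Fintype.sum_prod_type] at k
  have k2 := crossOverlap_QQ β hn h0 h1
  rw [Finset.sum_comm] at k2
  have k3 : ∑ j : Fin n, ∑ l : Fin n, QQ (f2 β l j) t = n * (n * crossOverlap n β t) := by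
    rw [k2]
    field_simp
  simp only at k
  rw [k3, div_pow, Real.sq_sqrt hn0.le] at k
  refine k.trans (le_of_eq ?_)
  field_simp

/-- **The degrees of the vertices.** -/
theorem hasSum_dg2 (h : C2 f f₁ f₂) (hn : 1 ≤ n) {t : ℝ} (h0 : 0 ≤ t) (h1 : t ≤ 1) :
    ∃ D, D ≤ 9 * β ^ 4 * (n * crossOverlap n β t) ∧
      HasSum (fun γ : MI n => t ^ (∑ i, γ i) * dg2 γ * cs (fun g => f (freeEnergy n β g)) γ) D := by
  have s1 := hasSum_sum (s := (univ : Finset (Fin n))) fun v _ =>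
    hasSum_sum (s := st v) fun p hp => hasSum_sum (s := st v) fun q hq =>
      hasSum_BB (β := β) h hp hq h0 h1
  refine ⟨_, ?_, hs_congr s1 fun γ => ?_⟩
  · have k : ∀ v : Fin n, ∑ p ∈ st v, ∑ q ∈ st v, t * (t * QQ (BB β f₁ f₂ v (ot v p) (ot v q)) t) ≤
        9 * β ^ 4 * crossOverlap n β t := by
      intro v
      refine le_trans ?_ (sum_BB h hn v h0 h1)
      have inj : Set.InjOn (ot v) (st v : Set (Pair n)) := fun e he e' he' h => ot_inj he he' h
      calc ∑ p ∈ st v, ∑ q ∈ st v, t * (t * QQ (BB β f₁ f₂ v (ot v p) (ot v q)) t)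
          ≤ ∑ p ∈ st v, ∑ l, QQ (BB β f₁ f₂ v (ot v p) l) t := by
            refine Finset.sum_le_sum fun p _ => ?_
            calc ∑ q ∈ st v, t * (t * QQ (BB β f₁ f₂ v (ot v p) (ot v q)) t)
                ≤ ∑ q ∈ st v, QQ (BB β f₁ f₂ v (ot v p) (ot v q)) t := by
                  refine Finset.sum_le_sum fun q _ => ?_
                  have q0 := QQ_nonneg (BB β f₁ f₂ v (ot v p) (ot v q)) t
                  exact (mul_le_of_le_one_left (mul_nonneg h0 q0) h1).trans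
                    (mul_le_of_le_one_left q0 h1)
              _ = ∑ l ∈ (st v).image (ot v), QQ (BB β f₁ f₂ v (ot v p) l) t :=
                  (Finset.sum_image (f := fun l => QQ (BB β f₁ f₂ v (ot v p) l) t) inj).symm
              _ ≤ _ := Finset.sum_le_sum_of_subset_of_nonneg (Finset.subset_univ _)
                  fun _ _ _ => QQ_nonneg _ _
        _ = ∑ j ∈ (st v).image (ot v), ∑ l, QQ (BB β f₁ f₂ v j l) t :=
            (Finset.sum_image (f := fun j => ∑ l, QQ (BB β f₁ f₂ v j l) t) inj).symm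
        _ ≤ _ := Finset.sum_le_sum_of_subset_of_nonneg (Finset.subset_univ _)
            fun _ _ _ => Finset.sum_nonneg fun _ _ => QQ_nonneg _ _
    refine (Finset.sum_le_sum fun v _ => k v).trans (le_of_eq ?_)
    rw [Finset.sum_const, Finset.card_univ, Fintype.card_fin, nsmul_eq_mul]
    ring
  · unfold dg2
    rw [Finset.mul_sum, Finset.sum_mul]
    refine Finset.sum_congr rfl fun v _ => ?_
    have e : ∀ p ∈ st v, ∑ q ∈ st v, t ^ (∑ i, γ i) * ((γ q : ℝ) - if p = q then 1 else 0) *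
        ((γ p : ℝ) * cs (fun g => f (freeEnergy n β g)) γ) =
        (γ p : ℝ) * (t ^ (∑ i, γ i) * ((deg γ v : ℝ) - 1) *
          cs (fun g => f (freeEnergy n β g)) γ) := by
      intro p hp
      rw [← Finset.sum_mul, ← Finset.mul_sum, Finset.sum_sub_distrib, Finset.sum_ite_eq, if_pos hp]
      unfold deg
      push_cast
      ring
    rw [Finset.sum_congr rfl e, ← Finset.sum_mul]
    unfold deg
    push_cast
    ring

end Vale.Agent.N146
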