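import Vale.Agent.N146.SiteC
import Vale.Agent.P146.H605.Noise

/-!
# P146, the window in the number of sites, part D: the two inequalities
-/

open MeasureTheory ProbabilityTheory Filter Topology Finset

namespace Vale.Agent.N146

open Vale.Agent.P146 Vale.Agent.P146.Ub.Cv Vale.Agent.P146.H605 Vale.Agent.P146.R2
  Vale.Agent.P146.R2.H749 Vale.Agent.P146.R3.H793
open Vale.Agent.P146.H453 (MI)

section gen

variable {ι : Type*} [Fintype ι]

lemma sq_diff {A : (ι → ℝ) → ℝ} (hA : Dom A) {t : ℝ} (h0 : 0 ≤ t) (h1 : t ≤ 1) :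
    Integrable (fun q : (ι → ℝ) × ((ι → ℝ) × (ι → ℝ)) =>
      (A (mix (Real.sqrt t) (Real.sqrt (1 - t)) q.1 q.2.1) -
        A (mix (Real.sqrt t) (Real.sqrt (1 - t)) q.1 q.2.2)) ^ 2)
      ((gpi ι).prod ((gpi ι).prod (gpi ι))) ∧
    ∫ q : (ι → ℝ) × ((ι → ℝ) × (ι → ℝ)),
      (A (mix (Real.sqrt t) (Real.sqrt (1 - t)) q.1 q.2.1) -
        A (mix (Real.sqrt t) (Real.sqrt (1 - t)) q.1 q.2.2)) ^ 2
      ∂((gpi ι).prod ((gpi ι).prod (gpi ι))) = 2 * (∫ g, A g ^ 2 ∂(gpi ι) - QQ A t) := by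
  have hcs : Real.sqrt t ^ 2 + Real.sqrt (1 - t) ^ 2 = 1 := by
    rw [Real.sq_sqrt h0, Real.sq_sqrt (by linarith)]
    ring
  have m1 : MeasurePreserving (fun q : (ι → ℝ) × ((ι → ℝ) × (ι → ℝ)) =>
      mix (Real.sqrt t) (Real.sqrt (1 - t)) q.1 q.2.1) ((gpi ι).prod ((gpi ι).prod (gpi ι)))
      (gpi ι) :=
    (mp_mix hcs).comp ((MeasurePreserving.id (gpi ι)).prod measurePreserving_fst)
  have m2 : MeasurePreserving (fun q : (ι → ℝ) × ((ι → ℝ) × (ι → ℝ)) =>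
      mix (Real.sqrt t) (Real.sqrt (1 - t)) q.1 q.2.2) ((gpi ι).prod ((gpi ι).prod (gpi ι)))
      (gpi ι) :=
    (mp_mix hcs).comp ((MeasurePreserving.id (gpi ι)).prod measurePreserving_snd)
  have i1 : Integrable (fun q : (ι → ℝ) × ((ι → ℝ) × (ι → ℝ)) =>
      A (mix (Real.sqrt t) (Real.sqrt (1 - t)) q.1 q.2.1) ^ 2)
      ((gpi ι).prod ((gpi ι).prod (gpi ι))) :=
    m1.integrable_comp_of_integrable (hA.pow 2).integrable
  have i2 : Integrable (fun q : (ι → ℝ) × ((ι → ℝ) × (ι → ℝ)) =>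
      A (mix (Real.sqrt t) (Real.sqrt (1 - t)) q.1 q.2.2) ^ 2)
      ((gpi ι).prod ((gpi ι).prod (gpi ι))) :=
    m2.integrable_comp_of_integrable (hA.pow 2).integrable
  have i4 : Integrable (fun q : (ι → ℝ) × ((ι → ℝ) × (ι → ℝ)) =>
      A (mix (Real.sqrt t) (Real.sqrt (1 - t)) q.1 q.2.1) ^ 2 +
      A (mix (Real.sqrt t) (Real.sqrt (1 - t)) q.1 q.2.2) ^ 2)
      ((gpi ι).prod ((gpi ι).prod (gpi ι))) := i1.add i2
  have i3 := (int_pair hA h0 h1).const_mul 2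
  have e1 := integral_map (μ := (gpi ι).prod ((gpi ι).prod (gpi ι))) m1.measurable.aemeasurable
    (f := fun g => A g ^ 2) (hA.pow 2).cont.aestronglyMeasurable
  have e2 := integral_map (μ := (gpi ι).prod ((gpi ι).prod (gpi ι))) m2.measurable.aemeasurable
    (f := fun g => A g ^ 2) (hA.pow 2).cont.aestronglyMeasurable
  rw [m1.map_eq] at e1
  rw [m2.map_eq] at e2
  have e : (fun q : (ι → ℝ) × ((ι → ℝ) × (ι → ℝ)) =>
      (A (mix (Real.sqrt t) (Real.sqrt (1 - t)) q.1 q.2.1) -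
        A (mix (Real.sqrt t) (Real.sqrt (1 - t)) q.1 q.2.2)) ^ 2) = fun q =>
      (A (mix (Real.sqrt t) (Real.sqrt (1 - t)) q.1 q.2.1) ^ 2 +
        A (mix (Real.sqrt t) (Real.sqrt (1 - t)) q.1 q.2.2) ^ 2) -
      2 * (A (mix (Real.sqrt t) (Real.sqrt (1 - t)) q.1 q.2.1) *
        A (mix (Real.sqrt t) (Real.sqrt (1 - t)) q.1 q.2.2)) := by
    funext q
    ring
  rw [e]
  refine ⟨i4.sub i3, ?_⟩
  rw [integral_sub i4 i3, integral_add i1 i2, integral_const_mul, ← QQ_prod hA h0 h1, ← e1, ← e2]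
  ring

lemma diff_QQ {A F : (ι → ℝ) → ℝ} (hA : Dom A) (hF : Dom F)
    (h : ∀ x y, |A x - A y| ≤ |F x - F y|) {t : ℝ} (h0 : 0 ≤ t) (h1 : t ≤ 1) :
    ∫ g, A g ^ 2 ∂(gpi ι) - QQ A t ≤ ∫ g, F g ^ 2 ∂(gpi ι) - QQ F t := by
  obtain ⟨i1, e1⟩ := sq_diff hA h0 h1
  obtain ⟨i2, e2⟩ := sq_diff hF h0 h1
  have := integral_mono i1 i2 fun q => sq_le_sq.2 (h _ _)
  linarith

lemma QQ_zero (A : (ι → ℝ) → ℝ) : QQ A 0 = (∫ g, A g ∂(gpi ι)) ^ 2 := by
  unfold QQ
  have e : ∀ z y : ι → ℝ, mix (Real.sqrt 0) (Real.sqrt (1 - 0)) z y = y := by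
    intro z y
    funext i
    simp [mix]
  simp_rw [e]
  simp

end gen

variable {n : ℕ} {β : ℝ} {f f₁ f₂ : ℝ → ℝ}

lemma var_F (n : ℕ) (β : ℝ) : Var[freeEnergy n β; disorder n] =
    ∫ g, freeEnergy n β g ^ 2 ∂(gpi (Pair n)) - (∫ g, freeEnergy n β g ∂(gpi (Pair n))) ^ 2 :=
  variance_eq_sub (μ := gpi (Pair n)) (memLp_dom (freeEnergy_dom n β))

lemma F_rl (π : Equiv.Perm (Fin n)) (g : Pair n → ℝ) :
    freeEnergy n β (rl π g) = freeEnergy n β g := by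
  unfold freeEnergy
  rw [part_rl]

lemma head_le (h : C2 f f₁ f₂) {t : ℝ} (h0 : 0 ≤ t) (h1 : t ≤ 1) :
    ∫ g, f (freeEnergy n β g) ^ 2 ∂(gpi (Pair n)) - QQ (fun g => f (freeEnergy n β g)) t ≤
      Var[freeEnergy n β; disorder n] - crossCov n β t := by
  have := diff_QQ h.dom0 (freeEnergy_dom n β) (fun x y => h.lip _ _) h0 h1
  rw [var_F, crossCov_QQ]
  linarith

lemma sq_le_var (h : C2 f f₁ f₂) (hm : ∫ g, f (freeEnergy n β g) ∂(gpi (Pair n)) = 0) :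
    ∫ g, f (freeEnergy n β g) ^ 2 ∂(gpi (Pair n)) ≤ Var[freeEnergy n β; disorder n] := by
  have h1 := head_le (n := n) (β := β) h le_rfl zero_le_one
  have h2 := crossCov_nonneg n β le_rfl zero_le_one
  rw [QQ_zero, hm] at h1
  linarith

lemma inP_le (h : C2 f f₁ f₂) (hm : ∫ g, f (freeEnergy n β g) ∂(gpi (Pair n)) = 0)
    {S : Finset (Fin n)} {Q : ℝ} (hQ : HasSum (inP (out S) fun g => f (freeEnergy n β g)) Q) :
    Q ≤ Var[freeEnergy n β; disorder n] := by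
  refine le_trans (hasSum_le (fun α => ?_) hQ (hasSum_cs (memLp_dom h.dom0))) (sq_le_var h hm)
  unfold inP
  split_ifs
  · exact le_rfl
  · exact cs_nonneg _ _

/-- **Many sites.** -/
theorem far_raw (h : C2 f f₁ f₂) (hn : 1 ≤ n)
    (hm : ∫ g, f (freeEnergy n β g) ∂(gpi (Pair n)) = 0) {S : Finset (Fin n)} (hS : 0 < S.card)
    {Q : ℝ} (hQ : HasSum (inP (out S) fun g => f (freeEnergy n β g)) Q) {T U : ℝ} (hT : 0 < T)
    (hT1 : T ≤ 1) (hU : 0 ≤ U) (hU1 : U ≤ 1) :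
    Q ≤ 2 * (crossCov n β (1 - T) + β ^ 2 * (1 - T)) +
      2 * (Var[freeEnergy n β; disorder n] - crossCov n β (1 - U)) +
      (n / S.card * (2 * T ^ 2) * (9 * β ^ 4 * (n * crossOverlap n β (1 - U))) +
        n / S.card * T * Var[freeEnergy n β; disorder n]) := by
  have hk : S.card ≤ n := by simpa using Finset.card_le_univ S
  have s0 := hasSum_rho h.dom0 (fun π g => by simp only [F_rl]) hQ
  have s1 := hasSum_QQ (h.dom0 (n := n) (β := β)) (t := 1 - T) (by linarith) (by linarith)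
  have s2 := hasSum_QQ (h.dom0 (n := n) (β := β)) (t := 1 - U) (by linarith) (by linarith)
  have s3 := hasSum_cs (memLp_dom (h.dom0 (n := n) (β := β)))
  obtain ⟨D, hD, s4⟩ := hasSum_dg2 (β := β) h hn (t := 1 - U) (by linarith) (by linarith)
  have s5 := ((s1.mul_left 2).add ((s3.sub s2).mul_left 2)).add
    ((s4.mul_left (n / S.card * (2 * T ^ 2))).add (s3.mul_left (n / S.card * T)))
  have k := hasSum_le (fun α => by
    have k1 := mul_le_mul_of_nonneg_right (rho_far hk hS hT hT1 hU hU1 α)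
      (cs_nonneg (fun g => f (freeEnergy n β g)) α)
    refine k1.trans (le_of_eq ?_)
    ring) s0 s5
  have b1 := smooth_cov n β hn h.d1 h.d2 h.c2 h.b1 h.b2 (t := 1 - T) (by linarith) (by linarith)
  rw [hm] at b1
  have b2 := head_le (n := n) (β := β) h (t := 1 - U) (by linarith) (by linarith)
  have b3 := mul_le_mul_of_nonneg_left hD
    (by positivity : (0 : ℝ) ≤ n / S.card * (2 * T ^ 2))
  have b4 := mul_le_mul_of_nonneg_left (sq_le_var h hm) (by positivity : (0 : ℝ) ≤ n / S.card * T)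
  nlinarith

/-- **Few sites.** -/
theorem near_raw (hn : 1 ≤ n) {S : Finset (Fin n)} {Q : ℝ}
    (hQ : HasSum (inP (out S) (freeEnergy n β)) Q) :
    ∫ g, freeEnergy n β g ^ 2 ∂(gpi (Pair n)) - Q ≤
      3 * (Var[freeEnergy n β; disorder n] - crossCov n β (1 - (S.card : ℝ) / n)) := by
  have hk : S.card ≤ n := by simpa using Finset.card_le_univ S
  have hnR : (0 : ℝ) < n := by exact_mod_cast hn
  have T1 : (S.card : ℝ) / n ≤ 1 := (div_le_one hnR).2 (by exact_mod_cast hk)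
  have T0 : 0 ≤ (S.card : ℝ) / n := by positivity
  have s0 := hasSum_rho (freeEnergy_dom n β) F_rl hQ
  have s2 := hasSum_QQ (freeEnergy_dom n β) (t := 1 - (S.card : ℝ) / n) (by linarith) (by linarith)
  have s3 := hasSum_cs (memLp_dom (freeEnergy_dom n β))
  have k := hasSum_le (fun α => by
    have k1 := mul_le_mul_of_nonneg_right (rho_near hk hn α) (cs_nonneg (freeEnergy n β) α)
    nlinarith) (s3.sub s0) ((s3.sub s2).mul_left 3)
  rw [var_F, crossCov_QQ]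
  linarith

end Vale.Agent.N146
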