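import Vale.Agent.N146.SiteD
import Vale.Agent.N146.SiteS
import Vale.Agent.N146.Arr
import Vale.Agent.P146.H566.ChF
import Vale.Agent.P146.H865.Close4

/-!
# P146, the window in the number of sites, part E: the numbers
-/

open MeasureTheory ProbabilityTheory Filter Topology Finset

namespace Vale.Agent.N146

open Vale.Agent.P146 Vale.Agent.P146.Ub.Cv Vale.Agent.P146.H605 Vale.Agent.P146.R2
  Vale.Agent.P146.R2.H749 Vale.Agent.P146.R3.H793
open Vale.Agent.P146.H509 (Yn)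
open Vale.Agent.P146.H196 (meanF)

variable {β : ℝ}

/-- the inputs from the starting files -/
lemma inputs (hβ : 1 < β) : ∃ C : ℝ, 1 ≤ C ∧ ∀ n : ℕ, 2 ≤ n →
    (n : ℝ) ^ (1 / 3 : ℝ) ≤ C * Var[freeEnergy n β; disorder n] ∧
    Var[freeEnergy n β; disorder n] ≤ C * (n : ℝ) ^ (1 / 3 : ℝ) ∧ ∀ T : ℝ, 0 < T → T ≤ 1 →
    (1 - C * (T * (n : ℝ) ^ (1 / 3 : ℝ)) ^ (1 / 1000 : ℝ)) * Var[freeEnergy n β; disorder n] ≤
      crossCov n β (1 - T) ∧
    n * T * crossOverlap n β (1 - T) ≤ C * (n : ℝ) ^ (1 / 3 : ℝ) *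
      (T * (n : ℝ) ^ (1 / 3 : ℝ)) ^ (1 / 1000 : ℝ) ∧
    (crossCov n β (1 - T) + β ^ 2 * (1 - T)) ≤
      C * (T * (n : ℝ) ^ (1 / 3 : ℝ)) ^ (-(1 / 1000) : ℝ) * Var[freeEnergy n β; disorder n] := by
  have hV := H566.Ch.vl_of hβ (H865.le_all hβ)
  obtain ⟨C1, hC1, h1⟩ := H566.Ch.corr_all hβ hV
  obtain ⟨c, hc, h3⟩ := hV
  obtain ⟨C2, hC2, h2⟩ := U.H607.final hβ
  have hc' : 0 < c⁻¹ := inv_pos.2 hc
  refine ⟨C1 + C2 + c⁻¹, by linarith, fun n hn => ⟨?_, ?_, fun T hT hT1 => ?_⟩⟩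
  · have v0 := variance_nonneg (freeEnergy n β) (disorder n)
    have k := mul_le_mul_of_nonneg_left (h3 n hn) hc'.le
    rw [← mul_assoc, inv_mul_cancel₀ hc.ne', one_mul] at k
    nlinarith
  · exact (h2 n (by omega)).1.trans (mul_le_mul_of_nonneg_right (by linarith) (by positivity))
  · obtain ⟨a1, -, a3, -, a5⟩ := h1 n hn T hT hT1
    have v0 := variance_nonneg (freeEnergy n β) (disorder n)
    have hC : C1 ≤ C1 + C2 + c⁻¹ := by linarith
    refine ⟨le_trans (mul_le_mul_of_nonneg_right ?_ v0) a1, a3.trans ?_, a5.trans ?_⟩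
    · have := mul_le_mul_of_nonneg_right hC
        (by positivity : 0 ≤ (T * (n : ℝ) ^ (1 / 3 : ℝ)) ^ (1 / 1000 : ℝ))
      linarith
    · gcongr
    · gcongr

lemma far_num {C a lam w k V X1 X2 X3 B : ℝ} (hC : 1 ≤ C) (ha : 1 ≤ a) (hl : 1 ≤ lam)
    (hk : k = lam ^ 4 * a ^ 2) (hw : 1 ≤ lam * w) (hV0 : 0 ≤ V) (hV : V ≤ C * a)
    (hB : 0 ≤ B) (h1 : X1 ≤ C * w * V) (h2 : X2 ≤ C * w * V)
    (h3 : (lam * a)⁻¹ * X3 ≤ C * a * w) :
    2 * X1 + 2 * X2 + (a ^ 3 / k * (2 * (lam / a) ^ 2) * (B * X3) + a ^ 3 / k * (lam / a) * V) ≤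
      (4 * C ^ 2 + 2 * B * C + C) * w * a := by
  have l0 : 0 < lam := by linarith
  have a0 : 0 < a := by linarith
  have w0 : 0 < w := by
    by_contra h
    have : lam * w ≤ 0 := mul_nonpos_of_nonneg_of_nonpos l0.le (not_lt.1 h)
    linarith
  have C0 : 0 < C := by linarith
  have k1 : C * w * V ≤ C * w * (C * a) := mul_le_mul_of_nonneg_left hV (by positivity)
  have k2 : X3 ≤ lam * a * (C * a * w) := by
    rw [inv_mul_le_iff₀ (by positivity)] at h3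
    exact h3
  have k3 : a ^ 3 / k * (2 * (lam / a) ^ 2) * (B * X3) ≤ 2 * B * C * w * a := by
    have e1 : a ^ 3 / k * (2 * (lam / a) ^ 2) = 2 / (lam ^ 2 * a) := by
      rw [hk]
      field_simp
    rw [e1]
    calc 2 / (lam ^ 2 * a) * (B * X3) ≤ 2 / (lam ^ 2 * a) * (B * (lam * a * (C * a * w))) :=
          mul_le_mul_of_nonneg_left (mul_le_mul_of_nonneg_left k2 hB) (by positivity)
      _ = 2 * B * C * w * a / lam := by field_simp
      _ ≤ 2 * B * C * w * a := div_le_self (by positivity) hl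
  have k4 : a ^ 3 / k * (lam / a) * V ≤ C * w * a := by
    have e1 : a ^ 3 / k * (lam / a) = 1 / lam ^ 3 := by
      rw [hk]
      field_simp
    have e2 : 1 / lam ^ 3 ≤ w := by
      rw [div_le_iff₀ (by positivity)]
      have : (1 : ℝ) ≤ lam ^ 2 := one_le_pow₀ hl
      nlinarith
    rw [e1]
    calc 1 / lam ^ 3 * V ≤ w * (C * a) := mul_le_mul e2 hV hV0 w0.le
      _ = C * w * a := by ring
  nlinarith

variable {f f₁ f₂ : ℝ → ℝ}

/-- **Many sites, with the numbers.** -/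
theorem far (hβ : 1 < β) : ∃ C : ℝ, 1 ≤ C ∧ ∀ n : ℕ, 2 ≤ n → ∀ f f₁ f₂ : ℝ → ℝ, C2 f f₁ f₂ →
    ∫ g, f (freeEnergy n β g) ∂(gpi (Pair n)) = 0 → ∀ S : Finset (Fin n), 0 < S.card →
    ∀ Q : ℝ, HasSum (inP (out S) fun g => f (freeEnergy n β g)) Q →
    Q ≤ C * ((S.card : ℝ) / (n : ℝ) ^ (2 / 3 : ℝ)) ^ (-(1 / 4000) : ℝ) * (n : ℝ) ^ (1 / 3 : ℝ) := by
  obtain ⟨C, hC, H⟩ := inputs hβ
  have hB : (0 : ℝ) ≤ 9 * β ^ 4 := by positivity
  have hC' : C ≤ 4 * C ^ 2 + 2 * (9 * β ^ 4) * C + C := by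
    have : 0 ≤ 2 * (9 * β ^ 4) * C := by positivity
    nlinarith
  refine ⟨4 * C ^ 2 + 2 * (9 * β ^ 4) * C + C, hC.trans hC', fun n hn f f₁ f₂ h hm S hS Q hQ => ?_⟩
  obtain ⟨-, hV, H⟩ := H n hn
  have hn1 : (1 : ℝ) ≤ n := by exact_mod_cast (by omega : 1 ≤ n)
  have hn0 : (0 : ℝ) < n := by linarith
  have hk0 : (0 : ℝ) < S.card := by exact_mod_cast hS
  have hkn : (S.card : ℝ) ≤ n := by exact_mod_cast (by simpa using Finset.card_le_univ S)
  obtain ⟨a, ha⟩ : ∃ a : ℝ, a = (n : ℝ) ^ (1 / 3 : ℝ) := ⟨_, rfl⟩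
  have a1 : 1 ≤ a := by rw [ha]; exact Real.one_le_rpow hn1 (by norm_num)
  have a0 : 0 < a := by linarith
  have a3 : (n : ℝ) = a ^ 3 := by
    rw [ha, ← Real.rpow_natCast, ← Real.rpow_mul hn0.le]
    norm_num
  have a2 : (n : ℝ) ^ (2 / 3 : ℝ) = a ^ 2 := by
    rw [ha, ← Real.rpow_natCast, ← Real.rpow_mul hn0.le]
    norm_num
  rw [← ha] at hV H
  rw [a2, ← ha]
  obtain ⟨r, hr⟩ : ∃ r : ℝ, r = (S.card : ℝ) / a ^ 2 := ⟨_, rfl⟩
  rw [← hr]
  have r0 : 0 < r := by rw [hr]; exact div_pos hk0 (pow_pos a0 2)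
  have v0 := variance_nonneg (freeEnergy n β) (disorder n)
  by_cases hr1 : r ≤ 1
  · have k1 : 1 ≤ r ^ (-(1 / 4000) : ℝ) :=
      Real.one_le_rpow_of_pos_of_le_one_of_nonpos r0 hr1 (by norm_num)
    calc Q ≤ C * a := (inP_le h hm hQ).trans hV
      _ = C * 1 * a := by ring
      _ ≤ _ := by gcongr
  · push Not at hr1
    obtain ⟨lam, hl⟩ : ∃ lam : ℝ, lam = r ^ (1 / 4 : ℝ) := ⟨_, rfl⟩
    have l1 : 1 ≤ lam := by rw [hl]; exact Real.one_le_rpow hr1.le (by norm_num)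
    have l0 : 0 < lam := by linarith
    have l4 : lam ^ 4 = r := by
      rw [hl, ← Real.rpow_natCast, ← Real.rpow_mul r0.le]
      norm_num
    have hk : (S.card : ℝ) = lam ^ 4 * a ^ 2 := by
      rw [l4, hr, div_mul_cancel₀ _ (pow_pos a0 2).ne']
    have la : lam ≤ a := by
      have k1 : lam ^ 4 * a ^ 2 ≤ a * a ^ 2 := by
        rw [← hk]
        calc (S.card : ℝ) ≤ n := hkn
          _ = a * a ^ 2 := by rw [a3]; ring
      have k2 : lam ^ 4 ≤ a := le_of_mul_le_mul_right k1 (by positivity)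
      exact (le_self_pow₀ l1 (by norm_num)).trans k2
    obtain ⟨w, hw⟩ : ∃ w : ℝ, w = lam ^ (-(1 / 1000) : ℝ) := ⟨_, rfl⟩
    have w2 : 1 ≤ lam * w := by
      rw [hw, ← Real.rpow_one_add' l0.le (by norm_num)]
      exact Real.one_le_rpow l1 (by norm_num)
    have w3 : r ^ (-(1 / 4000) : ℝ) = w := by
      rw [hw, hl, ← Real.rpow_mul r0.le]
      norm_num
    have w4 : (lam⁻¹) ^ (1 / 1000 : ℝ) = w := by
      rw [hw, Real.inv_rpow l0.le, Real.rpow_neg l0.le]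
    have T0 : 0 < lam / a := by positivity
    have T1 : lam / a ≤ 1 := (div_le_one a0).2 la
    have U0 : 0 < (lam * a)⁻¹ := by positivity
    have U1 : (lam * a)⁻¹ ≤ 1 := inv_le_one_of_one_le₀ (one_le_mul_of_one_le_of_one_le l1 a1)
    obtain ⟨-, -, b1⟩ := H _ T0 T1
    obtain ⟨b2, b3, -⟩ := H _ U0 U1
    have e1 : lam / a * a = lam := by field_simp
    have e2 : (lam * a)⁻¹ * a = lam⁻¹ := by field_simp
    rw [e1, ← hw] at b1
    rw [e2, w4] at b2 b3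
    have k := far_raw h (by omega) hm hS hQ T0 T1 U0.le U1
    rw [w3]
    refine k.trans ?_
    have k2 := far_num (X1 := crossCov n β (1 - lam / a) + β ^ 2 * (1 - lam / a))
      (X2 := Var[freeEnergy n β; disorder n] - crossCov n β (1 - (lam * a)⁻¹))
      (X3 := n * crossOverlap n β (1 - (lam * a)⁻¹)) hC a1 l1 hk w2 v0 hV hB b1
      (by linarith) (by linarith)
    rw [← a3] at k2
    exact k2

/-- the sites from `n` on -/
def late (n m : ℕ) : Finset (Fin m) := univ.filter fun i => n ≤ i.1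

lemma card_late {n m : ℕ} (h : n ≤ m) : ((late n m).card : ℝ) = (m : ℝ) - n := by
  have e : (late n m).card = m - n := by
    unfold late
    have h1 := Fin.card_filter_val_lt (n := m) (m := n)
    have h2 := Finset.card_filter_add_card_filter_not (s := (univ : Finset (Fin m)))
      (fun i : Fin m => i.1 < n)
    simp only [not_lt, Finset.card_univ, Fintype.card_fin] at h2
    rw [h1, min_eq_right h] at h2
    omega
  rw [e, Nat.cast_sub h]

lemma out_late {n m : ℕ} (e : Pair m) : out (late n m) e ↔ e.1.1.1 < n ∧ e.1.2.1 < n := by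
  unfold out late
  simp

lemma resLe_upd {n m : ℕ} (h : n ≤ m) {e : Pair m} (he : ¬ out (late n m) e) (g : Pair m → ℝ)
    (s : ℝ) : resLe h (Function.update g e s) = resLe h g := by
  funext p
  unfold resLe
  rw [Function.update_of_ne]
  rintro rfl
  exact he ((out_late _).2 ⟨p.1.1.2, p.1.2.2⟩)

/-- **Asymptotic independence of the first `n` sites.** -/
theorem cov_far (hβ : 1 < β) : ∃ C : ℝ, 0 < C ∧ ∀ n m : ℕ, ∀ h : n < m, 2 ≤ m →
    ∀ φ : (Pair n → ℝ) → ℝ, Measurable φ → (∀ g, |φ g| ≤ 1) → ∀ ψ : ℝ → ℝ, LipschitzWith 1 ψ →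
    |cov[fun g => φ (resLe h.le g), fun g => ψ (Yn m β g); disorder m]| ≤
      C * (((m : ℝ) - n) / (m : ℝ) ^ (2 / 3 : ℝ)) ^ (-(1 / 8000) : ℝ) := by
  obtain ⟨C, hC, H⟩ := far hβ
  refine ⟨(1 + C) / 2 + 8, by linarith, fun n m h hm φ hφ hφ1 ψ hψ => ?_⟩
  have hm1 : (1 : ℝ) ≤ m := by exact_mod_cast (by omega : 1 ≤ m)
  have hm0 : (0 : ℝ) < m := by linarith
  have hnm : (0 : ℝ) < (m : ℝ) - n := by
    have : (n : ℝ) < m := by exact_mod_cast h
    linarith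
  obtain ⟨s, hs⟩ : ∃ s : ℝ, s = (m : ℝ) ^ (1 / 6 : ℝ) := ⟨_, rfl⟩
  have s1 : 1 ≤ s := by rw [hs]; exact Real.one_le_rpow hm1 (by norm_num)
  have s0 : 0 < s := by linarith
  have s2 : (m : ℝ) ^ (1 / 3 : ℝ) = s ^ 2 := by
    rw [hs, ← Real.rpow_natCast, ← Real.rpow_mul hm0.le]
    norm_num
  obtain ⟨r, hr⟩ : ∃ r : ℝ, r = ((m : ℝ) - n) / (m : ℝ) ^ (2 / 3 : ℝ) := ⟨_, rfl⟩
  rw [← hr]
  have r0 : 0 < r := by rw [hr]; positivity
  obtain ⟨w, hw⟩ : ∃ w : ℝ, w = r ^ (-(1 / 8000) : ℝ) := ⟨_, rfl⟩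
  rw [← hw]
  have w0 : 0 < w := by rw [hw]; positivity
  have w2 : r ^ (-(1 / 4000) : ℝ) = w ^ 2 := by
    rw [hw, ← Real.rpow_natCast, ← Real.rpow_mul r0.le]
    norm_num
  have sw : 1 ≤ s * w := by
    have k1 : r ≤ s ^ 2 := by
      rw [hr, ← s2, div_le_iff₀ (by positivity), ← Real.rpow_add hm0]
      have : (0 : ℝ) ≤ n := Nat.cast_nonneg _
      norm_num
    have k2 : (s ^ 2) ^ (-(1 / 8000) : ℝ) ≤ w := by
      rw [hw]
      exact Real.rpow_le_rpow_of_nonpos r0 k1 (by norm_num)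
    have k3 : 1 ≤ s * (s ^ 2) ^ (-(1 / 8000) : ℝ) := by
      rw [← Real.rpow_natCast, ← Real.rpow_mul s0.le, ← Real.rpow_one_add' s0.le (by norm_num)]
      exact Real.one_le_rpow s1 (by norm_num)
    exact k3.trans (mul_le_mul_of_nonneg_left k2 s0.le)
  -- the function in the units of the free energy
  have hL : LipschitzWith 1 fun x : ℝ => s * ψ ((x - meanF m β) / s) := by
    refine LipschitzWith.of_dist_le_mul fun x y => ?_
    have k := hψ.dist_le_mul ((x - meanF m β) / s) ((y - meanF m β) / s)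
    rw [Real.dist_eq, Real.dist_eq] at k ⊢
    rw [← mul_sub, abs_mul, abs_of_pos s0]
    have e : (x - meanF m β) / s - (y - meanF m β) / s = (x - y) / s := by ring
    rw [e, abs_div, abs_of_pos s0] at k
    have k2 := mul_le_mul_of_nonneg_left k s0.le
    refine k2.trans (le_of_eq ?_)
    field_simp
  obtain ⟨f, f₁, f₂, c0, c1, c2, c3, c4, c5⟩ := lip_smooth4 hL
  have hC2 : C2 f f₁ f₂ := ⟨c1, c2, c3, c4, c5⟩
  obtain ⟨μ, hμ⟩ : ∃ μ : ℝ, μ = ∫ g, f (freeEnergy m β g) ∂(gpi (Pair m)) := ⟨_, rfl⟩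
  have hC3 : C2 (fun x => f x - μ) f₁ f₂ := ⟨fun x => (c1 x).sub_const μ, c2, c3, c4, c5⟩
  have iF := (hC2.dom0 (n := m) (β := β)).integrable
  have hm0' : ∫ g, (f (freeEnergy m β g) - μ) ∂(gpi (Pair m)) = 0 := by
    rw [integral_sub iF (integrable_const _), ← hμ]
    simp
  have dA := hC3.dom0 (n := m) (β := β)
  have hQ := hasSum_spl (out (late n m)) dA
  have hcard : 0 < (late n m).card := by
    have : (0 : ℝ) < (late n m).card := by rw [card_late h.le]; exact hnm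
    exact_mod_cast this
  have k1 := H m hm _ f₁ f₂ hC3 hm0' (late n m) hcard _ hQ
  rw [card_late h.le, ← hr, w2, s2] at k1
  have mφ : Measurable fun g => φ (resLe h.le g) := hφ.comp (meas_resLe h.le)
  have k2 := cov_inP (out (late n m)) mφ (fun g => hφ1 _)
    (fun e he g t => by rw [resLe_upd h.le he]) dA hQ (η := s * w) (by positivity)
  have k3 : |∫ g, φ (resLe h.le g) * (f (freeEnergy m β g) - μ) ∂(gpi (Pair m))| ≤
      (1 + C) / 2 * w * s := by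
    refine k2.trans ?_
    have k4 := div_le_div_of_nonneg_right k1 (by positivity : 0 ≤ 2 * (s * w))
    have e : C * w ^ 2 * s ^ 2 / (2 * (s * w)) = C / 2 * w * s := by field_simp
    rw [e] at k4
    linarith
  -- the remainder
  obtain ⟨ρ, hρ⟩ : ∃ ρ : (Pair m → ℝ) → ℝ,
    ρ = fun g => s * ψ (Yn m β g) - f (freeEnergy m β g) := ⟨_, rfl⟩
  have ρ4 : ∀ g, |ρ g| ≤ 4 := by
    intro g
    rw [hρ, abs_sub_comm]
    have := c0 (freeEnergy m β g)
    rw [hs] at this ⊢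
    exact this
  have mψ : Measurable fun g => ψ (Yn m β g) := hψ.continuous.measurable.comp (H509.meas_Yn m β)
  have mρ : Measurable ρ := by
    rw [hρ]
    exact (mψ.const_mul s).sub hC2.dom0.cont.measurable
  have iρ : Integrable ρ (gpi (Pair m)) :=
    Integrable.of_bound mρ.aestronglyMeasurable 4 (ae_of_all _ ρ4)
  have iφ : Integrable (fun g => φ (resLe h.le g)) (gpi (Pair m)) :=
    Integrable.of_bound mφ.aestronglyMeasurable 1 (ae_of_all _ fun g => hφ1 _)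
  have bφρ : ∀ g, |φ (resLe h.le g) * ρ g| ≤ 4 := fun g => by
    rw [abs_mul]
    have := mul_le_mul (hφ1 (resLe h.le g)) (ρ4 g) (abs_nonneg _) zero_le_one
    linarith
  have iφρ : Integrable (fun g => φ (resLe h.le g) * ρ g) (gpi (Pair m)) :=
    Integrable.of_bound (mφ.mul mρ).aestronglyMeasurable 4 (ae_of_all _ bφρ)
  have iφA : Integrable (fun g => φ (resLe h.le g) * (f (freeEnergy m β g) - μ))
      (gpi (Pair m)) :=
    dA.integrable.bdd_mul (c := 1) mφ.aestronglyMeasurable (ae_of_all _ fun g => hφ1 _)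
  have bd : ∀ {u : (Pair m → ℝ) → ℝ} {B : ℝ}, (∀ g, |u g| ≤ B) → |∫ g, u g ∂(gpi (Pair m))| ≤ B := by
    intro u B hu
    have := norm_integral_le_of_norm_le_const (μ := gpi (Pair m)) (f := u) (C := B)
      (ae_of_all _ hu)
    simpa using this
  have eψ : (fun g => ψ (Yn m β g)) =
      fun g => s⁻¹ * ((f (freeEnergy m β g) - μ) + ρ g + μ) := by
    funext g
    rw [hρ]
    field_simp
    ring
  have m1 : MemLp (fun g => φ (resLe h.le g)) 2 (gpi (Pair m)) :=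
    MemLp.of_bound mφ.aestronglyMeasurable 1 (ae_of_all _ fun g => hφ1 _)
  have m2 : MemLp (fun g => ψ (Yn m β g)) 2 (gpi (Pair m)) := by
    rw [eψ]
    exact (((memLp_dom dA).add (MemLp.of_bound mρ.aestronglyMeasurable 4 (ae_of_all _ ρ4))).add
      (memLp_const μ)).const_mul _
  have e1 : ∫ g, ψ (Yn m β g) ∂(gpi (Pair m)) = s⁻¹ * (∫ g, ρ g ∂(gpi (Pair m)) + μ) := by
    have i1 : Integrable (fun g => (f (freeEnergy m β g) - μ) + ρ g) (gpi (Pair m)) :=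
      dA.integrable.add iρ
    rw [eψ, integral_const_mul, integral_add i1 (integrable_const _),
      integral_add dA.integrable iρ, hm0']
    simp
  have e2 : ∫ g, φ (resLe h.le g) * ψ (Yn m β g) ∂(gpi (Pair m)) =
      s⁻¹ * (∫ g, φ (resLe h.le g) * (f (freeEnergy m β g) - μ) ∂(gpi (Pair m)) +
        ∫ g, φ (resLe h.le g) * ρ g ∂(gpi (Pair m)) +
        μ * ∫ g, φ (resLe h.le g) ∂(gpi (Pair m))) := by
    have i1 : Integrable (fun g => φ (resLe h.le g) * (f (freeEnergy m β g) - μ) +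
        φ (resLe h.le g) * ρ g) (gpi (Pair m)) := iφA.add iφρ
    rw [← integral_add iφA iφρ, ← integral_const_mul μ, ← integral_add i1 (iφ.const_mul μ),
      ← integral_const_mul]
    refine integral_congr_ae (Filter.Eventually.of_forall fun g => ?_)
    simp only
    rw [congrFun eψ g]
    ring
  have e3 : cov[fun g => φ (resLe h.le g), fun g => ψ (Yn m β g); disorder m] =
      ∫ g, φ (resLe h.le g) * ψ (Yn m β g) ∂(gpi (Pair m)) -
        (∫ g, φ (resLe h.le g) ∂(gpi (Pair m))) * ∫ g, ψ (Yn m β g) ∂(gpi (Pair m)) :=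
    covariance_eq_sub (μ := gpi (Pair m)) m1 m2
  rw [e3, e1, e2]
  have b1 := bd bφρ
  have b2 := bd ρ4
  have b3 := bd fun g => hφ1 (resLe h.le g)
  obtain ⟨I1, h1⟩ : ∃ I, I = ∫ g, φ (resLe h.le g) * (f (freeEnergy m β g) - μ) ∂(gpi (Pair m)) :=
    ⟨_, rfl⟩
  obtain ⟨I2, h2⟩ : ∃ I, I = ∫ g, φ (resLe h.le g) * ρ g ∂(gpi (Pair m)) := ⟨_, rfl⟩
  obtain ⟨I3, h3⟩ : ∃ I, I = ∫ g, ρ g ∂(gpi (Pair m)) := ⟨_, rfl⟩
  obtain ⟨I4, h4⟩ : ∃ I, I = ∫ g, φ (resLe h.le g) ∂(gpi (Pair m)) := ⟨_, rfl⟩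
  rw [← h1] at k3 ⊢
  rw [← h2] at b1 ⊢
  rw [← h3] at b2 ⊢
  rw [← h4] at b3 ⊢
  have e4 : s⁻¹ * (I1 + I2 + μ * I4) - I4 * (s⁻¹ * (I3 + μ)) = (I1 + I2 - I4 * I3) / s := by
    field_simp
    ring
  rw [e4, abs_div, abs_of_pos s0, div_le_iff₀ s0]
  have b4 : |I4 * I3| ≤ 4 := by
    rw [abs_mul]
    have := mul_le_mul b3 b2 (abs_nonneg _) zero_le_one
    linarith
  have b5 : |I1 + I2 - I4 * I3| ≤ |I1| + |I2| + |I4 * I3| :=
    (abs_sub _ _).trans (add_le_add_left (abs_add_le _ _) _)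
  nlinarith

/-- **The same on the infinite array.** -/
theorem siteCov (hβ : 1 < β) : ∃ C : ℝ, 0 < C ∧ ∀ n m : ℕ, n < m → 2 ≤ m →
    ∀ φ : (Pair n → ℝ) → ℝ, Measurable φ → (∀ g, |φ g| ≤ 1) → ∀ ψ : ℝ → ℝ, LipschitzWith 1 ψ →
    |cov[fun ω => φ (rn n ω), fun ω => ψ (Yn m β (rn m ω)); arr]| ≤
      C * (((m : ℝ) - n) / (m : ℝ) ^ (2 / 3 : ℝ)) ^ (-(1 / 8000) : ℝ) := by
  obtain ⟨C, hC, H⟩ := cov_far hβ
  refine ⟨C, hC, fun n m h hm φ hφ hφ1 ψ hψ => ?_⟩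
  have k := H n m h hm φ hφ hφ1 ψ hψ
  have mφ : Measurable fun g => φ (resLe h.le g) := hφ.comp (meas_resLe h.le)
  have mψ : Measurable fun g => ψ (Yn m β g) := hψ.continuous.measurable.comp (H509.meas_Yn m β)
  rw [← (mp_rn m).map_eq, covariance_map_fun mφ.aestronglyMeasurable mψ.aestronglyMeasurable
    (meas_rn m).aemeasurable] at k
  exact k

end Vale.Agent.N146
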